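import Crest.Agent.R138.AeT6_501
import Crest.Agent.R138.Dl14_848

/-!
# R138: `EXT` is contradictory (helper501)

Wrapper from 848's `Dl848.ae_lim` (global Lipschitz function) to `DlOut` (profile on `LEG M`).
-/

set_option autoImplicit false
set_option linter.unusedVariables false
set_option linter.unusedSectionVars false

open Filter Topology MeasureTheory
open scoped NNReal

namespace Crest.Agent.R138.AeT501

open Crest.Agent.R138.Ex926 Crest.Agent.R138.FM501 Crest.Agent.R138.Flg101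

theorem X6_eq_X (v r t : ℝ) : X6 v r t = Dl848.X v r t := by
  refine Dl848.ext6 ?_ ?_ ?_ ?_ ?_ ?_ <;> rfl

/-- natural points of the open region have a legal neighbourhood -/
theorem loc_of {M k : ℝ} (hk : 0 < k) {z : ℝ × ℝ} (h1 : 0 < z.1) (h2 : 0 < z.2)
    (h3 : (1 + k) * z.1 + z.2 < M) :
    Dl848.Loc (LEG M) (fun v => v) (fun v => k * v) z := by
  set r : ℝ := min (min (z.1 / 2) (z.2 / 2)) (min (k * z.1 / (k + 1)) ((M - (1 + k) * z.1 - z.2) /
    (3 + k))) with hr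
  have hk1 : (0 : ℝ) < k + 1 := by linarith
  have hk3 : (0 : ℝ) < 3 + k := by linarith
  have hr0 : 0 < r := by
    rw [hr]
    refine lt_min (lt_min (by linarith) (by linarith)) (lt_min ?_ ?_)
    · exact div_pos (mul_pos hk h1) hk1
    · exact div_pos (by linarith) hk3
  have r1 : r ≤ z.1 / 2 := (min_le_left _ _).trans (min_le_left _ _)
  have r2 : r ≤ z.2 / 2 := (min_le_left _ _).trans (min_le_right _ _)
  have r3 : r * (k + 1) ≤ k * z.1 := by
    have : r ≤ k * z.1 / (k + 1) := (min_le_right _ _).trans (min_le_left _ _)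
    rwa [le_div_iff₀ hk1] at this
  have r4 : r * (3 + k) ≤ M - (1 + k) * z.1 - z.2 := by
    have : r ≤ (M - (1 + k) * z.1 - z.2) / (3 + k) := (min_le_right _ _).trans (min_le_right _ _)
    rwa [le_div_iff₀ hk3] at this
  refine ⟨r, hr0, fun z' a1 a2 c hc => ?_⟩
  obtain ⟨⟨c1, c2, c3, c4⟩, hb⟩ := hc
  have b0 := abs_le.1 (hb 0)
  have b1 := abs_le.1 (hb 1)
  have b2 := abs_le.1 (hb 2)
  have b3 := abs_le.1 (hb 3)
  have b4 := abs_le.1 (hb 4)
  have b5 := abs_le.1 (hb 5)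
  have d1 := abs_le.1 a1
  have d2 := abs_le.1 a2
  have r3' : k * r + r ≤ k * z.1 := by linarith [r3, mul_comm r (k + 1), add_mul k 1 r]
  have r4' : 3 * r + k * r ≤ M - (z.1 + k * z.1) - z.2 := by
    have e1 : r * (3 + k) = 3 * r + k * r := by ring
    have e2 : (1 + k) * z.1 = z.1 + k * z.1 := by ring
    rw [e1, e2] at r4
    exact r4
  have k1 : k * z'.1 ≤ k * z.1 + k * r := by
    have := mul_le_mul_of_nonneg_left d1.2 hk.le
    rw [mul_sub] at this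
    linarith
  have k2 : k * z.1 - k * r ≤ k * z'.1 := by
    have := mul_le_mul_of_nonneg_left d1.1 hk.le
    rw [mul_sub, mul_neg] at this
    linarith
  have e0 : (Dl848.X z'.1 (k * z'.1) z'.2 + c) 0 = z'.2 + z'.1 + k * z'.1 + c 0 := rfl
  have e1 : (Dl848.X z'.1 (k * z'.1) z'.2 + c) 1 = z'.2 + k * z'.1 + c 1 := rfl
  have e2 : (Dl848.X z'.1 (k * z'.1) z'.2 + c) 2 = z'.2 + c 2 := rfl
  have e3 : (Dl848.X z'.1 (k * z'.1) z'.2 + c) 3 = z'.2 + z'.1 + c 3 := rfl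
  have e4 : (Dl848.X z'.1 (k * z'.1) z'.2 + c) 4 = z'.1 + c 4 := rfl
  have e5 : (Dl848.X z'.1 (k * z'.1) z'.2 + c) 5 = k * z'.1 + c 5 := rfl
  have p1 : 0 ≤ z'.1 + c 4 := by linarith
  have p2 : 0 ≤ z'.2 + c 2 := by linarith
  have p3 : 0 ≤ k * z'.1 + c 5 := by linarith
  have kz : 0 ≤ k * z'.1 - r := by linarith
  have z1 : 0 ≤ z'.1 - r := by linarith
  have z2 : 0 ≤ z'.2 - r := by linarith
  have top : z'.2 + z'.1 + k * z'.1 + r ≤ M := by linarith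
  clear r1 r2 r3 r4 r3' r4' k1 k2 d1 d2 a1 a2 h1 h2 h3 hr
  rw [mem_LEG, e0, e1, e2, e3, e4, e5]
  refine ⟨fun a => ?_, ?_, ?_, ?_, ?_⟩
  · fin_cases a
    · show 0 ≤ (Dl848.X z'.1 (k * z'.1) z'.2 + c) 0 ∧ (Dl848.X z'.1 (k * z'.1) z'.2 + c) 0 ≤ M
      rw [e0]; constructor <;> linarith
    · show 0 ≤ (Dl848.X z'.1 (k * z'.1) z'.2 + c) 1 ∧ (Dl848.X z'.1 (k * z'.1) z'.2 + c) 1 ≤ M
      rw [e1]; constructor <;> linarith
    · show 0 ≤ (Dl848.X z'.1 (k * z'.1) z'.2 + c) 2 ∧ (Dl848.X z'.1 (k * z'.1) z'.2 + c) 2 ≤ M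
      rw [e2]; constructor <;> linarith
    · show 0 ≤ (Dl848.X z'.1 (k * z'.1) z'.2 + c) 3 ∧ (Dl848.X z'.1 (k * z'.1) z'.2 + c) 3 ≤ M
      rw [e3]; constructor <;> linarith
    · show 0 ≤ (Dl848.X z'.1 (k * z'.1) z'.2 + c) 4 ∧ (Dl848.X z'.1 (k * z'.1) z'.2 + c) 4 ≤ M
      rw [e4]; constructor <;> linarith
    · show 0 ≤ (Dl848.X z'.1 (k * z'.1) z'.2 + c) 5 ∧ (Dl848.X z'.1 (k * z'.1) z'.2 + c) 5 ≤ M
      rw [e5]; constructor <;> linarith
  · linarith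
  · linarith
  · linarith
  · linarith

/-- **`DlOut`** from the one-step growth and submodularity on `LEG M` -/
theorem dlOut_of {ν : (Fin 6 → ℝ) → ℝ} {M k : ℝ} (hk : 0 < k)
    (lip : ∀ p ∈ LEG M, ∀ p' ∈ LEG M, p ≤ p' → 0 ≤ ν p - ν p' ∧ ν p - ν p' ≤ ∑ a, (p' a - p a))
    (submod : ∀ p ∈ LEG M, ∀ p' ∈ LEG M, p ⊓ p' ∈ LEG M →
      ν p + ν p' ≤ ν (p ⊔ p') + ν (p ⊓ p')) : DlOut ν M k := by
  have hl : LipschitzOnWith 6 ν (LEG M) := by
    refine LipschitzOnWith.of_dist_le_mul fun p hp q hq => ?_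
    rw [Real.dist_eq, dist_eq_norm]
    exact_mod_cast nu_lip_of lip p hp q hq
  obtain ⟨ν', hν', heq⟩ := hl.extend_real
  have hlip : ∀ p q, |ν' p - ν' q| ≤ 6 * ‖p - q‖ := by
    intro p q
    have := hν'.dist_le_mul p q
    rw [Real.dist_eq, dist_eq_norm] at this
    exact_mod_cast this
  have hPr : Dl848.Pr ν' (LEG M) := by
    refine ⟨fun p hp q hq hpq => ?_, fun p hp q hq hi hs => ?_⟩
    · rw [← heq hp, ← heq hq]
      linarith [(lip p hp q hq hpq).1]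
    · rw [← heq hp, ← heq hq, ← heq hi, ← heq hs]
      exact submod p hp q hq hi
  have hΛ : (0 : ℝ) ≤ 1 + k := by linarith
  have key := Dl848.ae_lim (a := fun v => v) (b := fun v => k * v) (Λ := 1 + k) hPr hlip
    (by norm_num) hΛ (fun s t h => h) (fun s t h => mul_le_mul_of_nonneg_left h hk.le)
    (fun s t => by nlinarith [abs_nonneg (s - t)])
    (fun s t => by
      rw [← mul_sub, abs_mul, abs_of_pos hk]
      nlinarith [abs_nonneg (s - t)])
  unfold DlOut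
  filter_upwards [key] with z hz h1 h2 h3
  have hloc := loc_of hk h1 h2 h3
  obtain ⟨L, r0, r2, J, hL, -, -, -, -, H⟩ := hz hloc 1 k one_pos hk (hasDerivAt_id z.1)
    (by simpa using (hasDerivAt_id z.1).const_mul k)
  have h2k : (fun v : ℝ => v) z.1 = z.1 := rfl
  have hX : ∀ v r t : ℝ, Dl848.X v r t = X6 v r t := fun v r t => (X6_eq_X v r t).symm
  have hkz : 0 ≤ k * z.1 := (mul_pos hk h1).le
  have hMM : z.2 + z.1 + k * z.1 < M := by linarith
  -- membership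
  have hmem := X6_add_mem h1.le hkz h2.le hMM
  have hX0 : X6 z.1 (k * z.1) z.2 ∈ LEG M := by
    obtain ⟨h0, hh0, HH⟩ := hmem 0
    have := HH (h0 / 2) (by positivity) (by linarith) 0 zero_mem_D6 (by simp)
    simpa using this
  have he2 : Dl848.e 2 ∈ D6 := by
    refine ⟨fun a => ?_, ?_, ?_, ?_, ?_⟩
    · have := Dl848.e_nonneg (s := 1) zero_le_one 2 a
      simpa using this
    · simp
    · simp
    · simp
    · simp
  have he2L : Dl848.e 2 ∈ Dl848.LEG := ⟨by simp, by simp, by simp, by simp⟩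
  have hz0 : (0 : Fin 6 → ℝ) ∈ Dl848.LEG := ⟨by simp, by simp, by simp, by simp⟩
  refine ⟨L, r0, r2, J, ?_, ?_, ?_⟩
  · -- the derivative
    refine hL.congr_of_eventuallyEq ?_
    obtain ⟨r, hr, Hr⟩ := hloc
    filter_upwards [Dl848.Rc_nhds z hr] with z' hz'
    obtain ⟨a1, a2⟩ := Dl848.Rc_abs hz'
    have h0B : (0 : Fin 6 → ℝ) ∈ Dl848.LB r := ⟨hz0, fun i => by simp [hr.le]⟩
    have h4 := Hr z' a1 a2 0 h0B
    rw [add_zero] at h4
    show ν (X6 z'.1 (k * z'.1) z'.2) = ν' (Dl848.X z'.1 (k * z'.1) z'.2)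
    rw [← heq h4, hX]
  · -- the rate
    rw [tendsto_iff_ultrafilter]
    intro W hW
    obtain ⟨g, hg⟩ := Dl848.exists_BU (p0 := Dl848.X z.1 (k * z.1) z.2) (s := id) W hlip
      (hW self_mem_nhdsWithin)
    have hLim := H W hW g hg
    have h4 := hLim.g2 0 hz0 1 zero_le_one (by simpa using he2L)
    rw [one_smul, mul_one] at h4
    unfold Dl848.Inc at h4
    rw [zero_add, hLim.zero, zero_sub] at h4
    have h5 := (hg (Dl848.e 2)).neg
    rw [h4] at h5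
    refine h5.congr' ?_
    obtain ⟨h0, hh0, HH⟩ := hmem ‖Dl848.e 2‖
    have h6 : ∀ᶠ y in 𝓝[>] (0 : ℝ), y < h0 :=
      Filter.Eventually.filter_mono nhdsWithin_le_nhds (Iio_mem_nhds hh0)
    filter_upwards [hW self_mem_nhdsWithin, hW h6] with y hy hy2
    have hy : 0 < y := hy
    have m1 := HH y hy hy2 _ he2 le_rfl
    simp only [id, hX]
    rw [heq hX0, heq m1, ← neg_div, neg_sub]
  · -- tangents
    intro h hpos h0 lam htan
    set W : Ultrafilter ℝ := (hyperfilter ℕ).map h with hWdef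
    have hUA : (hyperfilter ℕ : Filter ℕ) ≤ atTop := by
      rw [← Nat.cofinite_eq_atTop]; exact hyperfilter_le_cofinite
    have hht : Tendsto h (hyperfilter ℕ : Filter ℕ) (𝓝[>] 0) := by
      rw [tendsto_nhdsWithin_iff]
      exact ⟨h0.mono_left hUA, Eventually.of_forall hpos⟩
    have hW : (W : Filter ℝ) ≤ 𝓝[>] 0 := by
      rw [hWdef, Ultrafilter.coe_map]; exact hht
    obtain ⟨g, hg⟩ := Dl848.exists_BU (p0 := Dl848.X z.1 (k * z.1) z.2) (s := id) W hlip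
      (hW self_mem_nhdsWithin)
    refine ⟨g, fun c hc => ?_, H W hW g hg⟩
    have h4 := hg c
    rw [hWdef, Ultrafilter.coe_map, tendsto_map'_iff] at h4
    have h5 : Tendsto (fun l => (ν' (Dl848.X z.1 (k * z.1) z.2 + h l • c) -
        ν' (Dl848.X z.1 (k * z.1) z.2)) / h l) (hyperfilter ℕ : Filter ℕ) (𝓝 (lam c)) := by
      rw [Metric.tendsto_nhds]
      intro ε hε
      have h6 := (htan ‖c‖ (ε / 2) (by positivity)).filter_mono hUA
      filter_upwards [h6] with l hl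
      obtain ⟨m1, m2⟩ := hl c hc le_rfl
      rw [hX, ← heq hX0, ← heq m1, Real.dist_eq]
      have hp := hpos l
      have e1 : (ν (X6 z.1 (k * z.1) z.2 + h l • c) - ν (X6 z.1 (k * z.1) z.2)) / h l - lam c =
          (ν (X6 z.1 (k * z.1) z.2 + h l • c) - ν (X6 z.1 (k * z.1) z.2) - h l * lam c) / h l := by
        field_simp
      rw [e1, abs_div, abs_of_pos hp, div_lt_iff₀ hp]
      nlinarith
    exact tendsto_nhds_unique h4 h5

section

variable {ι : ℕ → Type} [∀ n, DecidableEq (ι n)]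
variable {B : Base} {I : ∀ n, Finset (ι n)}
    {x : ∀ n, ι n → Inc} {line : ∀ n, ι n → ℕ} {ν : (Fin 6 → ℝ) → ℝ} {own : (Fin 2 → ℝ) → ℝ}

theorem ExtB.dlOut {M k u₀ u₁ : ℝ} {w : ℝ → ℝ} (hE : ExtB B I x line ν own M k u₀ u₁ w) :
    DlOut ν M k := dlOut_of hE.k0 hE.lip hE.submod

/-- **the a.e. table over the frame-free interface**, unconditional -/
theorem ExtB.ae_table' {M k u₀ u₁ : ℝ} {w : ℝ → ℝ} (hE : ExtB B I x line ν own M k u₀ u₁ w) :
    ∀ᵐ z : ℝ × ℝ, u₀ < z.1 → z.1 < u₁ → 0 < z.2 → (1 + k) * z.1 + z.2 < M →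
      ∃ (σ m : ℝ) (D : ℝ × ℝ →L[ℝ] ℝ), HasDerivAt w (-σ) z.1 ∧ 0 ≤ σ ∧ σ ≤ 1 ∧ 0 ≤ m ∧ m ≤ 1 ∧
      Tendsto (fun h : ℝ => (ν (X6 z.1 (k * z.1) z.2) -
        ν (X6 z.1 (k * z.1) z.2 + h • Dl848.e 2)) / h) (𝓝[>] 0) (𝓝 m) ∧
      HasFDerivAt (fun z : ℝ × ℝ => ν (X6 z.1 (k * z.1) z.2) - w z.1 + (2 + k) * z.1 + 2 * z.2)
        D z ∧
      (0 < m → (k ≠ 1 → D (1, 0) - k / 2 * D (0, 1) ≤ 2 * (1 - σ)) ∧
        (k = 1 → D (1, 0) - D (0, 1) ≤ (1 - σ) + m ∧ (1 - σ < m → D (1, 0) ≤ 2 * (1 - σ)))) :=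
  hE.ae_table hE.dlOut

/-- 120's `Table`, unconditional -/
theorem ExtP.table {M s b q k θ c₀ : ℝ} (hE : ExtP B I x line ν own M s b q k θ c₀) :
    P120.Table ν k s M :=
  ExtP.table_of_DlOut hE hE.toB.dlOut

/-- **TEXT II: `EXT` is contradictory** -/
theorem ExtP.false {M s b q k θ c₀ : ℝ} (hE : ExtP B I x line ν own M s b q k θ c₀) : False :=
  ExtP.false_of_DlOut hE hE.toB.dlOut

end

end Crest.Agent.R138.AeT501
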