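import Crest.Agent.R138.L15C_196
import Crest.Agent.R138.Nx5_638
import Crest.Agent.R138.GeoRf_298
import Crest.Agent.R138.AeT7_501

/-!
# R138, TEXT I, leaf L15 closed (helper196): `Nat5 → ExtP → False`
-/

set_option autoImplicit false

namespace Crest.Agent.R138.L15

open Crest.Agent.R138.Ex926
open Crest.Agent.R138.Flg101
open Crest.Agent.R138.Mk163 (Nat5)
open Crest.Agent.R138.Flag51 (Ln E2)

variable {B : Base} {I : ℕ → Finset (ℕ × ℝ)} {L : ℕ → ℕ → Ln} {lev : ℕ → ℚ → ℕ}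
    {r0 A : ℕ → ℝ} {q g : ℝ} {f : ℕ → ℚ → ℕ → ℤ → ℕ} {b : ℕ → ℚ → ℕ → Ln}
    {e : ℕ → ℚ → ℕ → E2} {w1 w2 : ℕ → ℚ → ℝ} {fl : ℕ → ℕ × ℝ → E2} {sc : ℕ → ℝ} {k s θ : ℝ}

/-- **L15**, unconditional. -/
theorem nat5_ext (h : Nat5 B I L lev r0 A q g f b e w1 w2 fl sc k s θ) :
    ∃ (I' : ℕ → Finset (ℕ × ℝ)) (x : ℕ → ℕ × ℝ → Inc) (line : ℕ → ℕ × ℝ → ℕ)
      (ν : (Fin 6 → ℝ) → ℝ) (own : (Fin 2 → ℝ) → ℝ) (M c₀ : ℝ),
      ExtP B I' x line ν own M s (2 * s + g) q k θ c₀ :=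
  ext_of_nat5 h (fun _ _ => Nx638.geoD) (fun _ _ => GeoR298.geoR)

/-- there is no natural marked sequence -/
theorem nat5_false (h : Nat5 B I L lev r0 A q g f b e w1 w2 fl sc k s θ) : False := by
  obtain ⟨I', x, line, ν, own, M, c₀, hE⟩ := nat5_ext h
  exact AeT501.ExtP.false hE

end Crest.Agent.R138.L15
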