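import Crest.Agent.R138.BunC_294
import Crest.Agent.R138.Nat5K_163
import Crest.Agent.R138.LmAV_829
import Crest.Agent.R138.L15D_196
import Crest.Agent.R138.Rot_76
import Crest.Agent.R138.Top_630

/-!
# R138: the Kakeya side of the three dimensional theorem, wired (helper630)

`kmseq : GrW294.KMseq`, `km32 (V) : Tub70.KM32 V`: unconditional.

If `KMseq` fails, then `exists_mk` (294) produces a marked extremal sequence with a strictly
decreasing exponent `τ`; L8-L14 (163) refine and blow it up to natural marks `Nat5`, where the
rotation lemma L12 (829) is used; L15 (196) turns natural marks into the object of Text II,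
which does not exist (501).
-/

set_option autoImplicit false
set_option linter.unusedVariables false

namespace Crest.Agent.R138.KMs630

open Crest.Agent.R138

/-- **KMseq**: the grid form of the maximal estimate. -/
theorem kmseq : GrW294.KMseq := by
  by_contra hK
  obtain ⟨B, I, L, lev, r0, A, q, g, Λ, τ, f, b, e, w1, w2, κ, hκ, hM, hτ⟩ :=
    Bun294.exists_mk hK
  obtain ⟨B', I', lev', A', f', b', e', w1', w2', fl, sc, k, s, θ, hθ, hs0, hs1, hN⟩ :=
    ArgM163.exists_nat5' (fun B I L lev r0 A q g Λ τ f b e w1 w2 fl sc C0 =>
      Rot76.exRot B I L lev r0 A q g Λ τ f b e w1 w2 fl sc C0)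
      (fun s hs0 hs1 => LmAV829.hrot q g s hs0 hs1) hM hκ hτ
  exact L15.nat5_false hN

/-- **KM32** for every exponent `V`. -/
theorem km32 (V : ℝ) : Tub70.KM32 V := Top630.km32 kmseq V

end Crest.Agent.R138.KMs630
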