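import Crest.Agent.R138.PlChord_187

/-! # R138: thin tubes for a graph-like planar set, one set (helper187) -/

set_option autoImplicit false

namespace Crest.Agent.R138.Pl187

open Finset Filter Topology
open Crest.Agent.R070
open Crest.Agent.R070.PBw78
open Crest.Agent.R070.PBCore78
open Crest.Agent.R070.PBTTC78
open Crest.Agent.R070.TTDefs559
open Crest.Agent.R070.Defs248

section

variable {κ : Type} [Fintype κ]

/-- heavy classes of a number family are heavy in one piece of a partition -/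
theorem heavy_cells {α : Type*} [DecidableEq α] (v t : κ → ℝ) (hv : ∀ k, 0 ≤ v k) (G : κ → Prop)
    (g : κ → α) (C : Finset α) (hg : ∀ k, G k → g k ∈ C) {N θ r : ℝ} (hr : 0 < r)
    (hN : (C.card : ℝ) ≤ N) (hN0 : 0 < N) (hθ : 0 < θ) :
    ms v (fun j => G j ∧ θ ≤ ms v (fun k => G k ∧ |t k - t j| ≤ r)) ≤
      9 * N * ms v (fun j => G j ∧
        θ / (3 * N) ≤ ms v (fun k => G k ∧ g k = g j ∧ |t k - t j| ≤ r)) := by
  classical
  set cell : κ → ℤ := fun k => ⌊t k / r⌋ with hcell
  set B : κ → Prop := fun j => G j ∧ θ ≤ ms v (fun k => G k ∧ |t k - t j| ≤ r) with hB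
  set H : κ → Prop := fun j => G j ∧
    θ / (3 * N) ≤ ms v (fun k => G k ∧ g k = g j ∧ |t k - t j| ≤ r) with hH
  set E : Finset ℤ := {-1, 0, 1} with hE
  have hEc : E.card = 3 := by rw [hE]; rfl
  -- floor facts
  have hfl : ∀ k, (cell k : ℝ) * r ≤ t k ∧ t k < ((cell k : ℝ) + 1) * r := by
    intro k
    constructor
    · have := Int.floor_le (t k / r)
      rwa [le_div_iff₀ hr] at this
    · have := Int.lt_floor_add_one (t k / r)
      rwa [div_lt_iff₀ hr] at this
  have hnear : ∀ j k, |t k - t j| ≤ r → ∃ e ∈ E, cell k = cell j + e := by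
    intro j k h
    rw [abs_le] at h
    have h1 := hfl j
    have h2 := hfl k
    have h3 : (cell k : ℝ) < cell j + 2 := by
      by_contra hcon
      push Not at hcon
      have : ((cell j : ℝ) + 2) * r ≤ (cell k : ℝ) * r := mul_le_mul_of_nonneg_right hcon hr.le
      nlinarith [h1.2, h2.1, h.2]
    have h4 : (cell j : ℝ) < cell k + 2 := by
      by_contra hcon
      push Not at hcon
      have : ((cell k : ℝ) + 2) * r ≤ (cell j : ℝ) * r := mul_le_mul_of_nonneg_right hcon hr.le
      nlinarith [h1.1, h2.2, h.1]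
    have h3' : cell k < cell j + 2 := by exact_mod_cast h3
    have h4' : cell j < cell k + 2 := by exact_mod_cast h4
    refine ⟨cell k - cell j, ?_, by ring⟩
    rw [hE]
    simp only [Finset.mem_insert, Finset.mem_singleton]
    omega
  have hsame : ∀ j k, cell k = cell j → |t k - t j| ≤ r := by
    intro j k h
    have h1 := hfl j
    have h2 := hfl k
    rw [h] at h2
    rw [abs_le]
    constructor <;> nlinarith [h1.1, h1.2, h2.1, h2.2]
  -- one cell
  have hone : ∀ u : ℤ, ms v (fun j => B j ∧ cell j = u) ≤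
      3 * N * ∑ e ∈ E, ms v (fun j => H j ∧ cell j = u + e) := by
    intro u
    have hS0 : 0 ≤ ∑ e ∈ E, ms v (fun j => H j ∧ cell j = u + e) :=
      Finset.sum_nonneg fun e _ => ms_nonneg hv _
    by_cases hex : ∃ j, B j ∧ cell j = u
    · obtain ⟨j, hj, hju⟩ := hex
      set M : ℝ := ∑ x ∈ E ×ˢ C, ms v (fun k => G k ∧ cell k = u + x.1 ∧ g k = x.2) with hM
      have h1 : θ ≤ M := by
        refine hj.2.trans ?_
        refine ms_le_sum hv _ (E ×ˢ C) (fun x k => G k ∧ cell k = u + x.1 ∧ g k = x.2) ?_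
        rintro k ⟨hk, hkt⟩
        obtain ⟨e, he, hke⟩ := hnear j k hkt
        exact ⟨(e, g k), Finset.mem_product.2 ⟨he, hg k hk⟩, hk, by rw [hke, hju], rfl⟩
      have hM0 : 0 < M := hθ.trans_le h1
      have h2 : ∃ x ∈ E ×ˢ C, M / (3 * N) ≤ ms v (fun k => G k ∧ cell k = u + x.1 ∧ g k = x.2) := by
        by_contra hcon
        push Not at hcon
        have hne : (E ×ˢ C).Nonempty := by
          by_contra hemp
          rw [Finset.not_nonempty_iff_eq_empty] at hemp
          rw [hM, hemp, Finset.sum_empty] at hM0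
          exact lt_irrefl _ hM0
        have h3 : M < ∑ x ∈ E ×ˢ C, M / (3 * N) := Finset.sum_lt_sum_of_nonempty hne hcon
        rw [Finset.sum_const, Finset.card_product, hEc, nsmul_eq_mul] at h3
        push_cast at h3
        have h4 : (3 : ℝ) * C.card * (M / (3 * N)) ≤ M := by
          calc (3 : ℝ) * C.card * (M / (3 * N)) ≤ 3 * N * (M / (3 * N)) := by
                have : 0 ≤ M / (3 * N) := by positivity
                gcongr
            _ = M := by field_simp
        linarith
      obtain ⟨⟨e, c⟩, hx, h3⟩ := h2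
      simp only at h3
      have he : e ∈ E := (Finset.mem_product.1 hx).1
      have h4 : ms v (fun k => G k ∧ cell k = u + e ∧ g k = c) ≤
          ms v (fun j => H j ∧ cell j = u + e) := by
        refine ms_mono hv ?_
        rintro k ⟨k1, k2, k3⟩
        refine ⟨⟨k1, ?_⟩, k2⟩
        calc θ / (3 * N) ≤ M / (3 * N) := div_le_div_of_nonneg_right h1 (by positivity)
          _ ≤ _ := h3
          _ ≤ _ := ms_mono hv ?_
        rintro k' ⟨k4, k5, k6⟩
        exact ⟨k4, by rw [k6, k3], hsame k k' (by rw [k5, k2])⟩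
      have h5 : ms v (fun j => B j ∧ cell j = u) ≤ M := by
        refine ms_le_sum hv _ (E ×ˢ C) (fun x k => G k ∧ cell k = u + x.1 ∧ g k = x.2) ?_
        rintro k ⟨hk, hku⟩
        exact ⟨(0, g k), Finset.mem_product.2 ⟨by rw [hE]; simp, hg k hk.1⟩, hk.1,
          by rw [hku]; simp, rfl⟩
      have h6 : ms v (fun j => H j ∧ cell j = u + e) ≤
          ∑ e ∈ E, ms v (fun j => H j ∧ cell j = u + e) :=
        Finset.single_le_sum (f := fun e => ms v (fun j => H j ∧ cell j = u + e))
          (fun e _ => ms_nonneg hv _) he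
      calc ms v (fun j => B j ∧ cell j = u) ≤ M := h5
        _ = 3 * N * (M / (3 * N)) := by field_simp
        _ ≤ 3 * N * ∑ e ∈ E, ms v (fun j => H j ∧ cell j = u + e) :=
            mul_le_mul_of_nonneg_left (h3.trans (h4.trans h6)) (by positivity)
    · push Not at hex
      have : ms v (fun j => B j ∧ cell j = u) = 0 := by
        unfold ms
        exact Finset.sum_eq_zero fun j _ => if_neg fun h => hex j h.1 h.2
      rw [this]
      positivity
  -- sum over the cells
  set U : Finset ℤ := Finset.univ.image cell with hU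
  have h1 : ms v B ≤ ∑ u ∈ U, ms v (fun j => B j ∧ cell j = u) :=
    ms_le_sum hv B U (fun u j => B j ∧ cell j = u) fun k hk =>
      ⟨cell k, Finset.mem_image_of_mem _ (Finset.mem_univ k), hk, rfl⟩
  have h2 : ∑ u ∈ U, ∑ e ∈ E, ms v (fun j => H j ∧ cell j = u + e) ≤ 3 * ms v H := by
    rw [Finset.sum_comm]
    have h3 : ∀ e ∈ E, ∑ u ∈ U, ms v (fun j => H j ∧ cell j = u + e) ≤ ms v H := by
      intro e _
      refine le_trans (le_of_eq ?_) (sum_ms_le hv H U (fun j => cell j - e))
      refine Finset.sum_congr rfl fun u _ => ?_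
      congr 1
      ext j
      constructor
      · rintro ⟨a, b⟩; exact ⟨a, by rw [b]; ring⟩
      · rintro ⟨a, b⟩; exact ⟨a, by rw [← b]; ring⟩
    refine (Finset.sum_le_sum h3).trans ?_
    rw [Finset.sum_const, hEc, nsmul_eq_mul]
    push_cast
    exact le_rfl
  calc ms v B ≤ ∑ u ∈ U, ms v (fun j => B j ∧ cell j = u) := h1
    _ ≤ ∑ u ∈ U, 3 * N * ∑ e ∈ E, ms v (fun j => H j ∧ cell j = u + e) :=
        Finset.sum_le_sum fun u _ => hone u
    _ = 3 * N * ∑ u ∈ U, ∑ e ∈ E, ms v (fun j => H j ∧ cell j = u + e) := by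
        rw [Finset.mul_sum]
    _ ≤ 3 * N * (3 * ms v H) := mul_le_mul_of_nonneg_left h2 (by positivity)
    _ = _ := by ring

end

set_option maxHeartbeats 1600000 in
/-- **Thin tubes for one planar set** (weights). If no strip through two points at `z`-distance
`≥ r^c`, of half-width `ρ ∈ [r, r^a]`, has mass `≥ ρ^η`, then all but `r^c` of the pairs have a
thin slope class: mass of the partners with slope within `r` is `< r^σ`. -/
theorem thin_graph_w {s σ η : ℝ} (hs : 0 < s) (hσs : σ < s) (hσ1 : σ < 1) (hη : 0 < η) :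
    ∃ a c₀ : ℝ, 0 < a ∧ a ≤ 1 ∧ 0 < c₀ ∧ ∀ c : ℝ, 0 < c → c ≤ c₀ → ∃ r₀ : ℝ, 0 < r₀ ∧
      ∀ r : ℝ, 0 < r → r ≤ r₀ → ∀ (κ : Type) [Fintype κ] (v z f : κ → ℝ), (∀ k, 0 ≤ v k) →
      ∑ k, v k ≤ 1 → (∀ k, |z k| ≤ 1) → (∀ k, |f k| ≤ 1) →
      (∀ ρ : ℝ, r ≤ ρ → ρ ≤ 1 → ∀ k, ms v (fun j => |z j - z k| ≤ ρ) ≤ r ^ (-c) * ρ ^ s) →
      (∀ k₁ k₂, r ^ c ≤ |z k₂ - z k₁| → ∀ ρ : ℝ, r ≤ ρ → ρ ≤ r ^ a →
        ms v (fun k => |f k - f k₁ - (f k₂ - f k₁) / (z k₂ - z k₁) * (z k - z k₁)| ≤ ρ) < ρ ^ η) →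
      pm v v (fun i j => r ^ c ≤ |z j - z i| ∧ r ^ σ ≤ ms v (fun k => r ^ c ≤ |z k - z i| ∧
        |(f k - f i) / (z k - z i) - (f j - f i) / (z j - z i)| ≤ r)) ≤ r ^ c := by
  obtain ⟨σ', h1, h2⟩ : ∃ σ', σ < σ' ∧ σ' < min s 1 := exists_between (lt_min hσs hσ1)
  have hσ's : σ' < s := h2.trans_le (min_le_left _ _)
  have hσ'1 : σ' < 1 := h2.trans_le (min_le_right _ _)
  obtain ⟨a₀, c₁, r₁, ha₀, hc₁, hr₁, H⟩ := ttc2_gen (β := η) hσ's hσ'1 hη
  set a : ℝ := min (a₀ / 2) 1 with ha
  have ha0 : 0 < a := lt_min (by positivity) one_pos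
  have haa : a ≤ a₀ / 2 := min_le_left _ _
  set c₀ : ℝ := min (min (c₁ / 5) (a₀ / 4)) (min ((σ' - σ) / 2) (c₁ / (2 * η))) with hc₀
  have hc₀0 : 0 < c₀ := by
    refine lt_min (lt_min (by positivity) (by positivity)) (lt_min (by linarith) (by positivity))
  refine ⟨a, c₀, ha0, min_le_right _ _, hc₀0, ?_⟩
  intro c hc hcc
  have hcA : 5 * c ≤ c₁ := by
    have : c ≤ c₁ / 5 := hcc.trans ((min_le_left _ _).trans (min_le_left _ _))
    linarith
  have hcB : 4 * c ≤ a₀ := by
    have : c ≤ a₀ / 4 := hcc.trans ((min_le_left _ _).trans (min_le_right _ _))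
    linarith
  have hcC : 2 * c ≤ σ' - σ := by
    have : c ≤ (σ' - σ) / 2 := hcc.trans ((min_le_right _ _).trans (min_le_left _ _))
    linarith
  have hcD : c * η ≤ c₁ / 2 := by
    have : c ≤ c₁ / (2 * η) := hcc.trans ((min_le_right _ _).trans (min_le_right _ _))
    rw [le_div_iff₀ (by positivity)] at this
    linarith
  have ev' : ∀ᶠ r in 𝓝[>] (0 : ℝ), 0 < r ∧ r ≤ 1 ∧ r ≤ r₁ ∧ 11979 * r ^ c ≤ 1 ∧
      (6 : ℝ) ^ η * r ^ (c₁ / 2) ≤ 1 ∧ 2 ^ s * r ^ (c₁ - c) ≤ 1 ∧ 4 ^ s * r ^ (c₁ - c) ≤ 1 := by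
    have g0 : ∀ᶠ r in 𝓝[>] (0 : ℝ), 0 < r := self_mem_nhdsWithin
    have g1 : ∀ᶠ r in 𝓝[>] (0 : ℝ), r ≤ 1 :=
      nhdsWithin_le_nhds (eventually_le_nhds one_pos)
    have g2 : ∀ᶠ r in 𝓝[>] (0 : ℝ), r ≤ r₁ :=
      nhdsWithin_le_nhds (eventually_le_nhds hr₁)
    exact g0.and (g1.and (g2.and ((ev hc).and ((ev (by positivity)).and ((ev (by linarith)).and
      (ev (by linarith)))))))
  obtain ⟨r₀, hr₀, HR⟩ := exists_of_ev ev'
  refine ⟨r₀, hr₀, ?_⟩
  intro r hr hrr κ _ v z f hv hv1 hz hf hfr hstrip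
  classical
  obtain ⟨-, hr1, hrr1, e1, e2, e3, e4⟩ := HR r hr hrr
  have pp : ∀ x : ℝ, 0 < r ^ x := fun x => Real.rpow_pos_of_pos hr x
  have mono : ∀ {x y : ℝ}, x ≤ y → r ^ y ≤ r ^ x := fun h =>
    Real.rpow_le_rpow_of_exponent_ge hr hr1 h
  have hrnc : (1 : ℝ) ≤ r ^ (-c) :=
    Real.one_le_rpow_of_pos_of_le_one_of_nonpos hr hr1 (by linarith)
  have hinv : r ^ c * r ^ (-c) = 1 := by rw [← Real.rpow_add hr]; simp
  have hr6 : 6 * r ^ c ≤ 1 := by linarith [pp c]
  -- cells
  set h : ℝ := r ^ c / 4 with hh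
  have hh0 : 0 < h := by have := pp c; positivity
  set n : ℕ := ⌈4 * r ^ (-c)⌉₊ with hn
  set cell : κ → ℤ := fun k => ⌊z k / h⌋ with hcell
  have h4 : 1 / h = 4 * r ^ (-c) := by
    rw [hh, Real.rpow_neg hr.le]
    field_simp
  have hn1 : 4 * r ^ (-c) ≤ n := Nat.le_ceil _
  have hn2 : (n : ℝ) ≤ 4 * r ^ (-c) + 1 := (Nat.ceil_lt_add_one (by have := pp (-c); positivity)).le
  have hcell1 : ∀ k, cell k ∈ Finset.Icc (-(n : ℤ)) n := by
    intro k
    have h5 : |z k / h| ≤ n := by
      rw [abs_div, abs_of_pos hh0]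
      calc |z k| / h ≤ 1 / h := div_le_div_of_nonneg_right (hz k) hh0.le
        _ ≤ n := by rw [h4]; exact hn1
    rw [abs_le] at h5
    rw [Finset.mem_Icc]
    constructor
    · rw [hcell]
      refine Int.le_floor.2 ?_
      push_cast
      exact h5.1
    · have h6 : (cell k : ℝ) ≤ n := (Int.floor_le _).trans h5.2
      exact_mod_cast h6
  set Cc : Finset ℤ := Finset.Icc (-(n : ℤ)) n with hCc
  set N : ℝ := 11 * r ^ (-c) with hN
  have hN0 : 0 < N := by have := pp (-c); positivity
  have hCcard : (Cc.card : ℝ) ≤ N := by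
    have h5 : Cc.card = 2 * n + 1 := by
      rw [hCc, Int.card_Icc]
      omega
    rw [h5, hN]
    push_cast
    linarith
  clear_value n
  have hcellh : ∀ k, |z k - (cell k : ℝ) * h - h / 2| ≤ h / 2 := by
    intro k
    have h5 := Int.floor_le (z k / h)
    have h6 := Int.lt_floor_add_one (z k / h)
    rw [le_div_iff₀ hh0] at h5
    rw [div_lt_iff₀ hh0] at h6
    rw [abs_le]
    constructor
    · have : (cell k : ℝ) * h ≤ z k := h5
      linarith
    · have : z k < ((cell k : ℝ) + 1) * h := h6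
      nlinarith
  -- the slope
  set t : κ → κ → ℝ := fun i j => (f j - f i) / (z j - z i) with ht
  set Bad : κ → κ → Prop := fun i j => r ^ c ≤ |z j - z i| ∧ r ^ σ ≤
    ms v (fun k => r ^ c ≤ |z k - z i| ∧ |t i k - t i j| ≤ r) with hBad
  set Hv : κ → κ → Prop := fun i j => r ^ c ≤ |z j - z i| ∧ r ^ σ / (3 * N) ≤
    ms v (fun k => r ^ c ≤ |z k - z i| ∧ cell k = cell j ∧ |t i k - t i j| ≤ r) with hHv
  have hstep1 : pm v v Bad ≤ 9 * N * pm v v Hv := by
    rw [pm_eq_sum_ms, pm_eq_sum_ms, Finset.mul_sum]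
    refine Finset.sum_le_sum fun i _ => ?_
    have h5 := heavy_cells v (t i) hv (fun j => r ^ c ≤ |z j - z i|) cell Cc
      (fun k _ => hcell1 k) (N := N) (θ := r ^ σ) hr hCcard hN0 (pp σ)
    calc v i * ms v (Bad i) ≤ v i * (9 * N * ms v (Hv i)) :=
          mul_le_mul_of_nonneg_left h5 (hv i)
      _ = _ := by ring
  have hstep2 : pm v v Hv ≤ N * N * r ^ c₁ := by
    set Qc : ℤ × ℤ → κ → κ → Prop := fun cc k k' => Hv k k' ∧ cell k = cc.1 ∧ cell k' = cc.2
      with hQc
    have h5 : pm v v Hv ≤ ∑ cc ∈ Cc ×ˢ Cc, pm v v (Qc cc) := by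
      refine pm_le_sum hv hv Hv (Cc ×ˢ Cc) Qc ?_
      intro k k' hk
      refine ⟨(cell k, cell k'), Finset.mem_product.2 ⟨hcell1 k, hcell1 k'⟩, ?_⟩
      rw [hQc]
      exact ⟨hk, rfl, rfl⟩
    have h6 : ∀ cc ∈ Cc ×ˢ Cc, pm v v (Qc cc) ≤ r ^ c₁ := by
      rintro ⟨c₁', c₂'⟩ -
      by_cases hex : ∃ k k', Qc (c₁', c₂') k k'
      · obtain ⟨k₀, k₀', hP0, hk₀, hk₀'⟩ := hex
        simp only at hk₀ hk₀'
        have hsep' : ∀ k k', cell k = c₁' → cell k' = c₂' → r ^ c / 2 ≤ |z k' - z k| := by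
          intro k k' hk hk'
          have h5 := hcellh k
          have h6 := hcellh k'
          have h7 := hcellh k₀
          have h8 := hcellh k₀'
          rw [hk] at h5
          rw [hk'] at h6
          rw [hk₀] at h7
          rw [hk₀'] at h8
          have h9 := hP0.1
          have h10 : |z k₀' - z k₀| ≤ |z k' - z k| + 2 * h := by
            have e : z k₀' - z k₀ = (z k' - z k) + ((z k₀' - (c₂' : ℝ) * h - h / 2) -
                (z k' - (c₂' : ℝ) * h - h / 2) - (z k₀ - (c₁' : ℝ) * h - h / 2) +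
                (z k - (c₁' : ℝ) * h - h / 2)) := by ring
            rw [e]
            refine (abs_add_le _ _).trans (add_le_add le_rfl ?_)
            rw [abs_le] at h5 h6 h7 h8 ⊢
            constructor <;> linarith [h5.1, h5.2, h6.1, h6.2, h7.1, h7.2, h8.1, h8.2]
          rw [hh] at h10
          linarith
        set p : {k // cell k = c₁'} → V 2 := fun i => pt (z i) (f i) with hp
        set q : {k // cell k = c₂'} → V 2 := fun i => pt (z i) (f i) with hq
        have frost : ∀ cc : ℤ, ∀ (y : V 2) (ρ : ℝ), r ≤ ρ → ρ ≤ 1 →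
            ms (fun i : {k // cell k = cc} => v i) (fun i => dist (pt (z i) (f i)) y ≤ ρ) ≤
              r ^ (-c₁) * ρ ^ s := by
          intro cc y ρ g1 g2
          have hρ0 : 0 < ρ := hr.trans_le g1
          have hρs : 0 ≤ ρ ^ s := Real.rpow_nonneg hρ0.le _
          rw [ms_sub v (fun k => dist (pt (z k) (f k)) y ≤ ρ)]
          have k0 : 4 ^ s * r ^ (-c) ≤ r ^ (-c₁) := by
            have : r ^ (-c) = r ^ (c₁ - c) * r ^ (-c₁) := by
              rw [← Real.rpow_add hr]; congr 1; ring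
            rw [this, ← mul_assoc]
            exact (mul_le_mul_of_nonneg_right e4 (pp _).le).trans_eq (one_mul _)
          by_cases hex : ∃ k, cell k = cc ∧ dist (pt (z k) (f k)) y ≤ ρ
          · obtain ⟨k, -, hk⟩ := hex
            by_cases h4ρ : 4 * ρ ≤ 1
            · refine (ms_mono hv ?_).trans ((hfr (4 * ρ) (by linarith) h4ρ k).trans ?_)
              · rintro j ⟨-, hj⟩
                rw [dist_eq_norm] at hj hk
                have k2 := (abs_zero_le _).trans hj
                have k3 := (abs_zero_le _).trans hk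
                simp only [PiLp.sub_apply, pt_zero] at k2 k3
                rw [abs_le] at k2 k3 ⊢
                constructor <;> linarith [k2.1, k2.2, k3.1, k3.2]
              · rw [Real.mul_rpow (by norm_num) hρ0.le]
                calc r ^ (-c) * (4 ^ s * ρ ^ s) = (4 ^ s * r ^ (-c)) * ρ ^ s := by ring
                  _ ≤ _ := mul_le_mul_of_nonneg_right k0 hρs
            · push Not at h4ρ
              have h5 : ms v (fun k => cell k = cc ∧ dist (pt (z k) (f k)) y ≤ ρ) ≤ 1 := by
                refine le_trans ?_ hv1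
                unfold ms
                refine Finset.sum_le_sum fun i _ => ?_
                split_ifs
                · exact le_rfl
                · exact hv i
              have h6 : 1 ≤ 4 ^ s * ρ ^ s := by
                rw [← Real.mul_rpow (by norm_num) hρ0.le]
                exact Real.one_le_rpow h4ρ.le hs.le
              calc _ ≤ (1 : ℝ) := h5
                _ ≤ 4 ^ s * ρ ^ s := h6
                _ = (4 ^ s * 1) * ρ ^ s := by ring
                _ ≤ (4 ^ s * r ^ (-c)) * ρ ^ s := by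
                    refine mul_le_mul_of_nonneg_right ?_ hρs
                    exact mul_le_mul_of_nonneg_left hrnc (by positivity)
                _ ≤ _ := mul_le_mul_of_nonneg_right k0 hρs
          · push Not at hex
            have h5 : ms v (fun k => cell k = cc ∧ dist (pt (z k) (f k)) y ≤ ρ) = 0 := by
              unfold ms
              refine Finset.sum_eq_zero fun j _ => if_neg ?_
              rintro ⟨h6, h7⟩
              exact absurd h7 (not_le.2 (hex j h6))
            rw [h5]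
            have := pp (-c₁)
            positivity
        have hsum : ∀ cc : ℤ, ∑ i : {k // cell k = cc}, v i ≤ r ^ (-c₁) := by
          intro cc
          have h5 : ∑ i : {k // cell k = cc}, v i =
              ∑ k ∈ Finset.univ.filter (fun k => cell k = cc), v k :=
            (Finset.sum_subtype (Finset.univ.filter (fun k => cell k = cc))
              (fun x => by simp) v).symm
          rw [h5]
          refine ((Finset.sum_le_sum_of_subset_of_nonneg (Finset.filter_subset _ _)
            fun k _ _ => hv k).trans hv1).trans ?_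
          exact Real.one_le_rpow_of_pos_of_le_one_of_nonpos hr hr1 (by linarith)
        have hC : Cfg 2 s c₁ r (fun i : {k // cell k = c₁'} => v i)
            (fun i : {k // cell k = c₂'} => v i) p q := by
          refine ⟨fun i => hv i, fun i => hv i, hsum _, hsum _,
            fun i => norm_pt_le (hz i) (hf i), fun i => norm_pt_le (hz i) (hf i),
            frost _, frost _, ?_⟩
          intro i j
          rw [dist_eq_norm]
          have k1 := abs_zero_le (p i - q j)
          simp only [hp, hq, PiLp.sub_apply, pt_zero] at k1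
          refine le_trans ?_ k1
          have k2 : |z i / 2 - z j / 2| = |z j - z i| / 2 := by
            rw [← sub_div, abs_div, abs_two, abs_sub_comm]
          rw [k2]
          have k3 := hsep' i j i.2 j.2
          have k4 : r ^ c₁ ≤ r ^ c / 4 := by
            have k5 : r ^ c₁ ≤ r ^ c * r ^ c := by
              rw [← Real.rpow_add hr]; exact mono (by linarith)
            have k6 := mul_le_mul_of_nonneg_right hr6 (pp c).le
            linarith [pp c]
          linarith
        have hTH := H r hr hrr1 {k // cell k = c₁'} {k // cell k = c₂'}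
          (fun i => v i) (fun i => v i) p q hC
        have hle : pm v v (Qc (c₁', c₂')) ≤
            pm (fun i : {k // cell k = c₁'} => v i) (fun i : {k // cell k = c₂'} => v i)
              (fun i j => Hv i j) := by
          rw [pm_sub v v Hv]
        refine hle.trans (le_trans (pm_mono (w := fun i : {k // cell k = c₁'} => v i)
          (v := fun i : {k // cell k = c₂'} => v i) (fun i => hv i) (fun i => hv i) ?_) hTH)
        intro i j hij
        have hx : ∀ k : {k // cell k = c₂'}, z k - z i ≠ 0 := by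
          intro k h0
          have := hsep' i k i.2 k.2
          rw [h0, abs_zero] at this
          linarith [pp c]
        constructor
        · -- no heavy tube
          intro ρ g1 g2
          have hρ0 : 0 < ρ := hr.trans_le g1
          set m := (f j - f i) / (z j - z i) with hm
          have hyj : f j - f i = m * (z j - z i) := by
            rw [hm]
            have := hx j
            field_simp
          have hm1 : |m| ≤ 2 * r ^ (-c) := by
            rw [hm, abs_div, div_le_iff₀ (abs_pos.2 (hx j))]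
            have k1 : |f j - f i| ≤ 2 := by
              have := abs_sub (f j) (f i)
              linarith [hf i, hf j]
            calc |f j - f i| ≤ 2 * (r ^ c * r ^ (-c)) := by rw [hinv]; linarith
              _ = 2 * r ^ (-c) * r ^ c := by ring
              _ ≤ _ := mul_le_mul_of_nonneg_left hij.1 (by have := pp (-c); positivity)
          set ρ' : ℝ := 6 * r ^ (-c) * ρ with hρ'
          have k6 : 2 * (1 + |m|) * ρ ≤ ρ' := by
            rw [hρ']
            refine mul_le_mul_of_nonneg_right ?_ hρ0.le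
            linarith
          have k7 : r ≤ ρ' := by
            rw [hρ']
            nlinarith
          have k8 : ρ' ≤ r ^ a := by
            calc ρ' ≤ 6 * r ^ (-c) * r ^ a₀ := by
                  rw [hρ']
                  exact mul_le_mul_of_nonneg_left g2 (by have := pp (-c); positivity)
              _ = 6 * (r ^ (a₀ - c)) := by
                  rw [mul_assoc, ← Real.rpow_add hr]; congr 2; ring
              _ ≤ 6 * (r ^ c * r ^ a) := by
                  rw [← Real.rpow_add hr]
                  exact mul_le_mul_of_nonneg_left (mono (by linarith)) (by norm_num)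
              _ = (6 * r ^ c) * r ^ a := by ring
              _ ≤ 1 * r ^ a := mul_le_mul_of_nonneg_right hr6 (pp _).le
              _ = r ^ a := one_mul _
          have k10 : ρ' ^ η ≤ r ^ (-c₁) * ρ ^ η := by
            have k11 : (r ^ (-c)) ^ η ≤ r ^ (c₁ / 2) * r ^ (-c₁) := by
              rw [← Real.rpow_mul hr.le, ← Real.rpow_add hr]
              exact mono (by linarith)
            rw [hρ', Real.mul_rpow (by have := pp (-c); positivity) hρ0.le,
              Real.mul_rpow (by norm_num) (pp _).le]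
            refine mul_le_mul_of_nonneg_right ?_ (Real.rpow_nonneg hρ0.le _)
            calc (6 : ℝ) ^ η * (r ^ (-c)) ^ η ≤ 6 ^ η * (r ^ (c₁ / 2) * r ^ (-c₁)) :=
                  mul_le_mul_of_nonneg_left k11 (by positivity)
              _ = (6 ^ η * r ^ (c₁ / 2)) * r ^ (-c₁) := by ring
              _ ≤ 1 * r ^ (-c₁) := mul_le_mul_of_nonneg_right e2 (pp _).le
              _ = _ := one_mul _
          have k12 := (hstrip i j hij.1 ρ' k7 k8).le
          constructor
          · rw [ms_sub v (fun k => pt (z k) (f k) ∈ Tube (p i) (q j - p i) ρ)]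
            refine le_trans (ms_mono hv ?_) (k12.trans k10)
            rintro k ⟨-, hk⟩
            exact (strip_of_mem_tube hyj hk).trans k6
          · rw [ms_sub v (fun k => pt (z k) (f k) ∈ Tube (p i) (q j - p i) ρ)]
            refine le_trans (ms_mono hv ?_) (k12.trans k10)
            rintro k ⟨-, hk⟩
            exact (strip_of_mem_tube hyj hk).trans k6
        · -- heavy
          unfold Heavy
          rw [ms_sub v (fun k => pt (z k) (f k) ∈ Tube (p i) (q j - p i) r)]
          have k1 : r ^ σ' ≤ r ^ σ / (3 * N) := by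
            rw [le_div_iff₀ (by positivity), hN]
            have k2 : r ^ σ' ≤ r ^ (2 * c) * r ^ σ := by
              rw [← Real.rpow_add hr]; exact mono (by linarith)
            have k3 : r ^ (2 * c) = r ^ c * r ^ c := by
              rw [← Real.rpow_add hr]; congr 1; ring
            calc r ^ σ' * (3 * (11 * r ^ (-c))) ≤ (r ^ (2 * c) * r ^ σ) * (3 * (11 * r ^ (-c))) :=
                  mul_le_mul_of_nonneg_right k2 (by have := pp (-c); positivity)
              _ = 33 * r ^ c * (r ^ c * r ^ (-c)) * r ^ σ := by rw [k3]; ring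
              _ = (33 * r ^ c) * r ^ σ := by rw [hinv]; ring
              _ ≤ 1 * r ^ σ := by
                  refine mul_le_mul_of_nonneg_right ?_ (pp _).le
                  linarith [pp c]
              _ = _ := one_mul _
          refine k1.trans (hij.2.trans (ms_mono hv ?_))
          rintro k ⟨k2, k3, k4⟩
          have k5 : cell k = c₂' := by rw [k3]; exact j.2
          refine ⟨k5, ?_⟩
          have hz' : z k - z i ≠ 0 := hx ⟨k, k5⟩
          rw [abs_le] at k4
          exact mem_tube_of_slope (X := fun i : {k // cell k = c₁'} => z i) (Y := fun i => f i)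
            (X' := fun k : {k // cell k = c₂'} => z k) (Y' := fun k => f k) (i := i) (j := j)
            (j' := ⟨k, k5⟩) (u := min (t i j) (t i k)) (hz i) (hz k) (hx j) hz'
            (min_le_left _ _)
            (by
              have : t i j ≤ min (t i j) (t i k) + r := by
                rcases min_cases (t i j) (t i k) with ⟨e, _⟩ | ⟨e, _⟩ <;> rw [e] <;> linarith
              exact this)
            (min_le_right _ _)
            (by
              have : t i k ≤ min (t i j) (t i k) + r := by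
                rcases min_cases (t i j) (t i k) with ⟨e, _⟩ | ⟨e, _⟩ <;> rw [e] <;> linarith
              exact this)
      · push Not at hex
        have : pm v v (Qc (c₁', c₂')) = 0 := by
          unfold pm
          exact Finset.sum_eq_zero fun k _ => Finset.sum_eq_zero fun k' _ => if_neg (hex k k')
        rw [this]
        exact (pp _).le
    refine h5.trans ((Finset.sum_le_sum h6).trans ?_)
    rw [Finset.sum_const, Finset.card_product, nsmul_eq_mul]
    push_cast
    refine mul_le_mul_of_nonneg_right ?_ (pp _).le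
    exact mul_le_mul hCcard hCcard (Nat.cast_nonneg _) hN0.le
  have hfin : 9 * N * (N * N * r ^ c₁) ≤ r ^ c := by
    have k1 : r ^ c₁ ≤ r ^ c * r ^ c * r ^ c * r ^ c * r ^ c := by
      rw [← Real.rpow_add hr, ← Real.rpow_add hr, ← Real.rpow_add hr, ← Real.rpow_add hr]
      exact mono (by linarith)
    calc 9 * N * (N * N * r ^ c₁) ≤
          9 * N * (N * N * (r ^ c * r ^ c * r ^ c * r ^ c * r ^ c)) := by gcongr
      _ = 11979 * r ^ c * (r ^ c * r ^ (-c)) ^ 3 * r ^ c := by rw [hN]; ring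
      _ = (11979 * r ^ c) * r ^ c := by rw [hinv]; ring
      _ ≤ 1 * r ^ c := mul_le_mul_of_nonneg_right e1 (pp _).le
      _ = _ := one_mul _
  calc pm v v Bad ≤ 9 * N * pm v v Hv := hstep1
    _ ≤ 9 * N * (N * N * r ^ c₁) := mul_le_mul_of_nonneg_left hstep2 (by positivity)
    _ ≤ _ := hfin

theorem ms_unif {α : Type} (Z : Finset α) (P : α → Prop) [DecidablePred P] :
    ms (fun _ : {k // k ∈ Z} => (1 : ℝ) / Z.card) (fun k => P k) =
      ((Z.filter P).card : ℝ) / Z.card := by
  unfold ms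
  have h1 : ∀ k : {k // k ∈ Z},
      (@ite ℝ (P k) (Classical.propDecidable _) ((1 : ℝ) / Z.card) 0) =
      (fun k => if P k then (1 : ℝ) / Z.card else 0) (k : α) := by
    intro k
    by_cases h : P k
    · simp only [if_pos h]
    · simp only [if_neg h]
  rw [Finset.sum_congr rfl fun k _ => h1 k,
    Finset.sum_coe_sort Z (fun k => if P k then (1 : ℝ) / Z.card else 0), ← Finset.sum_filter,
    Finset.sum_const, nsmul_eq_mul]
  ring

theorem pm_unif {α : Type} (Z : Finset α) (P : α → α → Prop)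
    [DecidablePred fun q : α × α => P q.1 q.2] :
    pm (fun _ : {k // k ∈ Z} => (1 : ℝ) / Z.card) (fun _ : {k // k ∈ Z} => (1 : ℝ) / Z.card)
      (fun i j => P i j) =
      (((Z ×ˢ Z).filter fun q => P q.1 q.2).card : ℝ) / (Z.card : ℝ) ^ 2 := by
  have h0 : (((Z ×ˢ Z).filter fun q => P q.1 q.2).card : ℝ) =
      ∑ i ∈ Z, ∑ j ∈ Z, (@ite ℝ (P i j) (Classical.propDecidable _) 1 0) := by
    rw [← Finset.sum_product', Finset.card_filter]
    push_cast
    refine Finset.sum_congr rfl fun q _ => ?_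
    by_cases h : P q.1 q.2
    · simp only [if_pos h]
    · simp only [if_neg h]
  unfold pm
  have h1 : ∀ i : {k // k ∈ Z}, ∑ j : {k // k ∈ Z},
      (@ite ℝ (P i j) (Classical.propDecidable _) ((1 : ℝ) / Z.card * (1 / Z.card)) 0) =
      (fun i => ∑ j ∈ Z, (@ite ℝ (P i j) (Classical.propDecidable _)
        ((1 : ℝ) / Z.card * (1 / Z.card)) 0)) (i : α) := fun i =>
    Finset.sum_coe_sort Z (fun j => @ite ℝ (P i j) (Classical.propDecidable _)
        ((1 : ℝ) / Z.card * (1 / Z.card)) 0)
  rw [Finset.sum_congr rfl fun i _ => h1 i,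
    Finset.sum_coe_sort Z (fun i => ∑ j ∈ Z, (@ite ℝ (P i j) (Classical.propDecidable _)
        ((1 : ℝ) / Z.card * (1 / Z.card)) 0)), h0, Finset.sum_div]
  refine Finset.sum_congr rfl fun i _ => ?_
  rw [Finset.sum_div]
  refine Finset.sum_congr rfl fun j _ => ?_
  by_cases h : P i j
  · simp only [if_pos h]; ring
  · simp only [if_neg h]; ring

/-- **thin_graph** (for 501's TW1): counting form. -/
theorem thin_graph {s σ η : ℝ} (hs : 0 < s) (hσs : σ < s) (hσ1 : σ < 1) (hη : 0 < η) :
    ∃ a c₀ : ℝ, 0 < a ∧ a ≤ 1 ∧ 0 < c₀ ∧ ∀ c : ℝ, 0 < c → c ≤ c₀ → ∃ r₀ : ℝ, 0 < r₀ ∧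
      ∀ r : ℝ, 0 < r → r ≤ r₀ → ∀ {α : Type} (Z : Finset α) (z f : α → ℝ),
      (∀ k ∈ Z, |z k| ≤ 1 ∧ |f k| ≤ 1) →
      (∀ ρ : ℝ, r ≤ ρ → ρ ≤ 1 → ∀ k ∈ Z,
        ((Z.filter fun k' => |z k' - z k| ≤ ρ).card : ℝ) ≤ r ^ (-c) * ρ ^ s * Z.card) →
      (∃ k₁ ∈ Z, ∃ k₂ ∈ Z, r ^ c ≤ |z k₂ - z k₁| ∧ ∃ m ρ : ℝ,
        m = (f k₂ - f k₁) / (z k₂ - z k₁) ∧ |m| ≤ 2 * r ^ (-c) ∧ r ≤ ρ ∧ ρ ≤ r ^ a ∧
        ρ ^ η * Z.card ≤ (Z.filter fun k => |f k - f k₁ - m * (z k - z k₁)| ≤ ρ).card) ∨
      (((Z ×ˢ Z).filter fun q => r ^ c ≤ |z q.2 - z q.1| ∧ r ^ σ * Z.card ≤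
        ((Z.filter fun k => r ^ c ≤ |z k - z q.1| ∧
          |(f k - f q.1) / (z k - z q.1) - (f q.2 - f q.1) / (z q.2 - z q.1)| ≤ r).card : ℝ)).card : ℝ)
        ≤ r ^ c * (Z.card : ℝ) ^ 2 := by
  obtain ⟨a, c₀, ha, ha1, hc₀, H⟩ := thin_graph_w hs hσs hσ1 hη
  refine ⟨a, c₀, ha, ha1, hc₀, fun c hc hcc => ?_⟩
  obtain ⟨r₀, hr₀, HR⟩ := H c hc hcc
  refine ⟨r₀, hr₀, ?_⟩
  intro r hr hrr α Z z f hzf hfr
  rcases Z.eq_empty_or_nonempty with hZ | hZ
  · right
    rw [hZ]
    simp
  have hZc : (0 : ℝ) < Z.card := by exact_mod_cast hZ.card_pos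
  by_cases hstrip : ∃ k₁ ∈ Z, ∃ k₂ ∈ Z, r ^ c ≤ |z k₂ - z k₁| ∧ ∃ m ρ : ℝ,
        m = (f k₂ - f k₁) / (z k₂ - z k₁) ∧ r ≤ ρ ∧ ρ ≤ r ^ a ∧
        ρ ^ η * Z.card ≤ (Z.filter fun k => |f k - f k₁ - m * (z k - z k₁)| ≤ ρ).card
  · left
    obtain ⟨k₁, h1, k₂, h2, h3, m, ρ, h4, h5⟩ := hstrip
    refine ⟨k₁, h1, k₂, h2, h3, m, ρ, h4, ?_, h5⟩
    have hpc : 0 < r ^ c := Real.rpow_pos_of_pos hr _
    rw [h4, abs_div, div_le_iff₀ (hpc.trans_le h3), Real.rpow_neg hr.le]
    have k1 : |f k₂ - f k₁| ≤ 2 := by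
      have := abs_sub (f k₂) (f k₁)
      linarith [(hzf k₁ h1).2, (hzf k₂ h2).2]
    calc |f k₂ - f k₁| ≤ 2 * ((r ^ c)⁻¹ * r ^ c) := by
          rw [inv_mul_cancel₀ hpc.ne']; linarith
      _ = 2 * (r ^ c)⁻¹ * r ^ c := by ring
      _ ≤ _ := mul_le_mul_of_nonneg_left h3 (by positivity)
  · right
    push Not at hstrip
    have hmain := HR r hr hrr {k // k ∈ Z} (fun _ => (1 : ℝ) / Z.card) (fun k => z k) (fun k => f k)
      (fun _ => by positivity) (by
        rw [Finset.sum_const, nsmul_eq_mul, Finset.card_univ, Fintype.card_coe]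
        rw [mul_one_div_cancel hZc.ne'])
      (fun k => (hzf k k.2).1) (fun k => (hzf k k.2).2)
      (by
        intro ρ h1 h2 k
        rw [ms_unif Z (fun j => |z j - z k| ≤ ρ), div_le_iff₀ hZc]
        exact hfr ρ h1 h2 k k.2)
      (by
        intro k₁ k₂ h1 ρ h2 h3
        rw [ms_unif Z (fun k => |f k - f k₁ - (f k₂ - f k₁) / (z k₂ - z k₁) * (z k - z k₁)| ≤ ρ),
          div_lt_iff₀ hZc]
        exact hstrip k₁ k₁.2 k₂ k₂.2 h1 _ ρ rfl h2 h3)
    have hrw : (fun (i j : {k // k ∈ Z}) => r ^ c ≤ |z j - z i| ∧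
        r ^ σ ≤ ms (fun _ : {k // k ∈ Z} => (1 : ℝ) / Z.card)
        (fun k => r ^ c ≤ |z k - z i| ∧
        |(f k - f i) / (z k - z i) - (f j - f i) / (z j - z i)| ≤ r)) =
        fun (i j : {k // k ∈ Z}) => (fun (i j : α) => r ^ c ≤ |z j - z i| ∧ r ^ σ * Z.card ≤
          ((Z.filter fun k => r ^ c ≤ |z k - z i| ∧
          |(f k - f i) / (z k - z i) - (f j - f i) / (z j - z i)| ≤ r).card : ℝ)) i j := by
      ext i j
      rw [ms_unif Z (fun k => r ^ c ≤ |z k - z i| ∧
        |(f k - f i) / (z k - z i) - (f j - f i) / (z j - z i)| ≤ r), le_div_iff₀ hZc]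
    rw [hrw, pm_unif Z (fun (i j : α) => r ^ c ≤ |z j - z i| ∧ r ^ σ * Z.card ≤
          ((Z.filter fun k => r ^ c ≤ |z k - z i| ∧
          |(f k - f i) / (z k - z i) - (f j - f i) / (z j - z i)| ≤ r).card : ℝ)),
      div_le_iff₀ (by positivity)] at hmain
    exact hmain

end Crest.Agent.R138.Pl187
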