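import Crest.Agent.R138.TwE_501

/-!
# R138: F-model, half coupled case: **K3core** `σ ≤ a` (helper501)
-/

set_option autoImplicit false
set_option linter.unusedVariables false
set_option linter.unusedSectionVars false

open Filter Topology Finset

namespace Crest.Agent.R138.TwF501

open Crest.Agent.R138.Ex926 Crest.Agent.R138.FM501 Crest.Agent.R138.TwA501
open Crest.Agent.R138.TwB501 Crest.Agent.R138.TwC501 Crest.Agent.R138.TwD501
open Crest.Agent.R138.TwE501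

variable {B : Base} {G : ℕ → Cfg} {σ R : ℝ} {ν : (Fin 4 → ℝ) → ℝ}

theorem slope_pair {G : Cfg} (hb : G.Bd) {i i' k₀ k k' : ℕ} (hi : i ∈ G.L) (hi' : i' ∈ G.L)
    (hk₀ : k₀ ∈ G.Z) (hk : k ∈ G.Z) (hk' : k' ∈ G.Z) {e s w : ℝ} (he0 : 0 ≤ e)
    (hN : |G.N i k₀ - G.N i' k₀| ≤ 2 * e) (hC : |G.c i - G.c i'| ≤ 2 * e) (hs : 0 < s)
    (hs1 : s ≤ 1) (hu : s ≤ |G.z k - G.z k₀|) (hu' : s ≤ |G.z k' - G.z k₀|)
    (hg : |G.N i k - G.N i' k| ≤ e) (hg' : |G.N i k' - G.N i' k'| ≤ e) (hw0 : 0 < w)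
    (hw : w < max |G.P i k₀ - G.P i' k₀| |G.X i k₀ - G.X i' k₀|) (he : 22 * e ≤ s * w) :
    |(G.f k - G.f k₀) / (G.z k - G.z k₀) - (G.f k' - G.f k₀) / (G.z k' - G.z k₀)| * (s ^ 2 * w) ≤
      88 * e := by
  have hzz : ∀ k ∈ G.Z, |G.z k - G.z k₀| ≤ 2 := by
    intro k hk
    refine (abs_sub _ _).trans ?_
    have := hb.z k hk; have := hb.z k₀ hk₀; linarith
  have hff : ∀ k ∈ G.Z, |G.f k - G.f k₀| ≤ 2 := by
    intro k hk
    refine (abs_sub _ _).trans ?_
    have := hb.f k hk; have := hb.f k₀ hk₀; linarith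
  have key : ∀ k ∈ G.Z, |G.N i k - G.N i' k| ≤ e →
      |(G.z k - G.z k₀) * (G.P i k₀ - G.P i' k₀) - (G.f k - G.f k₀) * (G.X i k₀ - G.X i' k₀)| ≤
        11 * e := by
    intro k hk hg
    have h1 := hzz k hk
    have h2 := hff k hk
    have e1 : (G.z k - G.z k₀) * (G.P i k₀ - G.P i' k₀) -
        (G.f k - G.f k₀) * (G.X i k₀ - G.X i' k₀) = (G.N i k - G.N i' k) -
        (G.N i k₀ - G.N i' k₀) + (G.z k - G.z k₀) * (G.f k - G.f k₀) * (G.c i - G.c i') := by
      rw [G.N_change i k₀ k, G.N_change i' k₀ k]; ring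
    rw [e1]
    calc _ ≤ |G.N i k - G.N i' k| + |G.N i k₀ - G.N i' k₀| +
          |(G.z k - G.z k₀) * (G.f k - G.f k₀) * (G.c i - G.c i')| := by
          refine (abs_add_le _ _).trans (add_le_add_left ?_ _)
          exact abs_sub _ _
      _ ≤ e + 2 * e + 2 * 2 * (2 * e) := by
          rw [abs_mul, abs_mul]
          gcongr
      _ = 11 * e := by ring
  have := root_slope (key k hk hg) (key k' hk' hg') (hff k hk) hs hs1 hu hu' hw0 hw
    (by linarith)
  linarith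

/-- Markov for pins -/
theorem markov_pins (Z : Finset ℕ) (J : ℕ) (bad : ℕ → Finset (ℕ × ℕ)) {θ : ℝ} (hθ : 0 < θ)
    (hbad : ∀ l ∈ range J, ((bad l).card : ℝ) ≤ θ ^ 2 * (Z.card : ℝ) ^ 2)
    (hJ : 2 * (J : ℝ) * θ ≤ 1) :
    (Z.card : ℝ) ≤ 2 * ((Z.filter fun k₀ => ∀ l ∈ range J,
      ((Z.filter fun k => (k₀, k) ∈ bad l).card : ℝ) ≤ θ * Z.card).card : ℝ) := by
  classical
  rcases Z.eq_empty_or_nonempty with rfl | hne
  · simp
  have hZc : (0 : ℝ) < Z.card := by exact_mod_cast card_pos.2 hne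
  have h1 : ∀ l ∈ range J, ((Z.filter fun k₀ => θ * (Z.card : ℝ) <
      ((Z.filter fun k => (k₀, k) ∈ bad l).card : ℝ)).card : ℝ) ≤ θ * Z.card := by
    intro l hl
    set W := Z.filter fun k₀ => θ * (Z.card : ℝ) < ((Z.filter fun k => (k₀, k) ∈ bad l).card : ℝ)
      with hW
    have h2 : (W.card : ℝ) * (θ * Z.card) ≤ ∑ k₀ ∈ W, ((Z.filter fun k => (k₀, k) ∈ bad l).card : ℝ) := by
      rw [← nsmul_eq_mul, ← sum_const]
      refine sum_le_sum fun k₀ hk₀ => ?_
      rw [hW, mem_filter] at hk₀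
      exact hk₀.2.le
    have h3 : ∑ k₀ ∈ W, ((Z.filter fun k => (k₀, k) ∈ bad l).card : ℝ) ≤ (bad l).card := by
      have h4 : ∑ k₀ ∈ W, (Z.filter fun k => (k₀, k) ∈ bad l).card =
          ((W ×ˢ Z).filter fun q => q ∈ bad l).card := by
        rw [card_filter, sum_product]
        refine sum_congr rfl fun k₀ _ => ?_
        rw [card_filter]
      have h5 : ((W ×ˢ Z).filter fun q => q ∈ bad l).card ≤ (bad l).card :=
        card_le_card fun q hq => (mem_filter.1 hq).2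
      have h6 : (∑ k₀ ∈ W, (Z.filter fun k => (k₀, k) ∈ bad l).card) ≤ (bad l).card := h4 ▸ h5
      exact_mod_cast h6
    have h7 := h2.trans (h3.trans (hbad l hl))
    have h8 : (W.card : ℝ) * (θ * Z.card) ≤ (θ * Z.card) * (θ * Z.card) := by
      refine h7.trans (le_of_eq ?_); ring
    exact le_of_mul_le_mul_right h8 (by positivity)
  set W := Z.filter fun k₀ => ∀ l ∈ range J,
      ((Z.filter fun k => (k₀, k) ∈ bad l).card : ℝ) ≤ θ * Z.card with hW
  have h2 : Z \ W ⊆ (range J).biUnion fun l => Z.filter fun k₀ => θ * (Z.card : ℝ) <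
      ((Z.filter fun k => (k₀, k) ∈ bad l).card : ℝ) := by
    intro k hk
    rw [Finset.mem_sdiff, hW, mem_filter] at hk
    have h3 : ¬ ∀ l ∈ range J, ((Z.filter fun k' => (k, k') ∈ bad l).card : ℝ) ≤ θ * Z.card :=
      fun h => hk.2 ⟨hk.1, h⟩
    push Not at h3
    obtain ⟨l, hl, h4⟩ := h3
    rw [mem_biUnion]
    exact ⟨l, hl, mem_filter.2 ⟨hk.1, h4⟩⟩
  have h3 : ((Z \ W).card : ℝ) ≤ J * (θ * Z.card) := by
    have h4 := (card_le_card h2).trans card_biUnion_le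
    calc ((Z \ W).card : ℝ) ≤ ∑ l ∈ range J, ((Z.filter fun k₀ => θ * (Z.card : ℝ) <
        ((Z.filter fun k => (k₀, k) ∈ bad l).card : ℝ)).card : ℝ) := by exact_mod_cast h4
      _ ≤ ∑ l ∈ range J, θ * (Z.card : ℝ) := sum_le_sum h1
      _ = J * (θ * Z.card) := by rw [sum_const, nsmul_eq_mul, card_range]
  have h4 : (Z.card : ℝ) = (Z \ W).card + W.card := by
    have := card_sdiff_add_card_eq_card (filter_subset (fun k₀ => ∀ l ∈ range J,
      ((Z.filter fun k => (k₀, k) ∈ bad l).card : ℝ) ≤ θ * Z.card) Z)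
    rw [← hW] at this
    exact_mod_cast this.symm
  have h5 : (J : ℝ) * (θ * Z.card) ≤ Z.card / 2 := by nlinarith
  linarith

open Classical in
theorem sdiff_count (Z' H : Finset ℕ) (J : ℕ) (bd : ℕ → Finset ℕ) (good : ℕ → Prop)
    (hgood : ∀ k ∈ Z', ¬ good k → k ∈ H ∨ ∃ l ∈ range J, k ∈ bd l) {θ : ℝ}
    (hb : ∀ l ∈ range J, ((bd l).card : ℝ) ≤ θ) :
    ((Z' \ Z'.filter good).card : ℝ) ≤ (H.card : ℝ) + J * θ := by
  have hsub : Z' \ Z'.filter good ⊆ H ∪ (range J).biUnion bd := by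
    intro k hk
    rw [Finset.mem_sdiff, mem_filter] at hk
    rw [Finset.mem_union, mem_biUnion]
    exact hgood k hk.1 fun h => hk.2 ⟨hk.1, h⟩
  have h4 := (card_le_card hsub).trans (card_union_le _ _)
  have h6 : ((range J).biUnion bd).card ≤ ∑ l ∈ range J, (bd l).card := card_biUnion_le
  have h5 : (((range J).biUnion bd).card : ℝ) ≤ J * θ := by
    calc (((range J).biUnion bd).card : ℝ) ≤ ∑ l ∈ range J, ((bd l).card : ℝ) := by
          exact_mod_cast h6
      _ ≤ ∑ l ∈ range J, θ := sum_le_sum hb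
      _ = _ := by rw [sum_const, nsmul_eq_mul, card_range]
  have h7 : ((Z' \ Z'.filter good).card : ℝ) ≤ (H.card : ℝ) +
      (((range J).biUnion bd).card : ℝ) := by exact_mod_cast h4
  linarith

open Classical in
/-- few common heights away from the bad pins -/
theorem slope_hts {G : Cfg} (hb : G.Bd) {i i' k₀ : ℕ} (hi : i ∈ G.L) (hi' : i' ∈ G.L)
    (hk₀ : k₀ ∈ G.Z) (K : Finset ℕ) (hKZ : K ⊆ G.Z) {e s w t r c σ : ℝ} (he0 : 0 ≤ e)
    (hN : |G.N i k₀ - G.N i' k₀| ≤ 2 * e) (hC : |G.c i - G.c i'| ≤ 2 * e) (hs : 0 < s)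
    (hs1 : s ≤ 1) (hw0 : 0 < w) (ht0 : 0 ≤ t)
    (hw : w < max |G.P i k₀ - G.P i' k₀| |G.X i k₀ - G.X i' k₀|) (he : 22 * e ≤ s * w)
    (hr : r = t) (hrs : r ^ c ≤ s) (hes : 88 * e ≤ t * (s ^ 2 * w))
    (hK : ∀ k ∈ K, s < |G.z k - G.z k₀| ∧ (k₀, k) ∉ badp G r c σ) :
    ((K.filter fun k => |G.co k i 0 - G.co k i' 0| ≤ e).card : ℝ) ≤ r ^ σ * G.Z.card := by
  rcases (K.filter fun k => |G.co k i 0 - G.co k i' 0| ≤ e).eq_empty_or_nonempty with h0 | ⟨k', hk'⟩
  · rw [h0, card_empty, Nat.cast_zero, hr]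
    exact mul_nonneg (Real.rpow_nonneg ht0 _) (Nat.cast_nonneg _)
  rw [mem_filter] at hk'
  obtain ⟨hk'K, hg'⟩ := hk'
  have hk'Z := hKZ hk'K
  obtain ⟨hk's, hk'b⟩ := hK k' hk'K
  have h1 : ¬ (r ^ σ * (G.Z.card : ℝ) ≤ ((G.Z.filter fun k => r ^ c ≤ |G.z k - G.z k₀| ∧
      |(G.f k - G.f k₀) / (G.z k - G.z k₀) - (G.f k' - G.f k₀) / (G.z k' - G.z k₀)| ≤
        r).card : ℝ)) := by
    intro h2
    apply hk'b
    unfold badp
    rw [mem_filter, mem_product]
    exact ⟨⟨hk₀, hk'Z⟩, hrs.trans hk's.le, h2⟩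
  refine le_trans ?_ (not_le.1 h1).le
  have h3 : (K.filter fun k => |G.co k i 0 - G.co k i' 0| ≤ e) ⊆
      G.Z.filter fun k => r ^ c ≤ |G.z k - G.z k₀| ∧
      |(G.f k - G.f k₀) / (G.z k - G.z k₀) - (G.f k' - G.f k₀) / (G.z k' - G.z k₀)| ≤ r := by
    intro k hk
    rw [mem_filter] at hk ⊢
    obtain ⟨hkK, hg⟩ := hk
    obtain ⟨hks, -⟩ := hK k hkK
    refine ⟨hKZ hkK, hrs.trans hks.le, ?_⟩
    have h4 := slope_pair hb hi hi' hk₀ (hKZ hkK) hk'Z he0 hN hC hs hs1 hks.le hk's.le hg hg' hw0 hw he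
    have h5 : 0 < s ^ 2 * w := by positivity
    rw [hr]
    exact le_of_mul_le_mul_right (h4.trans hes) h5
  exact_mod_cast card_le_card h3

open Classical in
set_option maxHeartbeats 1000000 in
/-- **K3core** -/
theorem K3core {a m : ℝ} {β : ℝ → ℝ → ℝ} (h : FModel B G σ R ν) (hc : HalfCoupled ν R a m β)
    (hm : 0 < m) {c₂ : ℝ} (hc₂ : 0 < c₂) (hβ : ∀ x, 0 ≤ x → x ≤ R → c₂ * x ≤ β x 0) :
    σ ≤ a := by
  by_contra hcon
  push Not at hcon
  have hR := h.R_pos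
  have ha0 := (hc_nonneg h hc).1
  have hσ0 : 0 < σ := ha0.trans_lt hcon
  have hσ1 := h.σ_le
  obtain ⟨s, has, hsσ⟩ := exists_between hcon
  obtain ⟨c₀, hc₀, Hbad⟩ := few_bad h hc hcon hm hc₂ hβ hsσ
  set c : ℝ := min c₀ (1 / 10) with hcdef
  have hc0 : 0 < c := lt_min hc₀ (by norm_num)
  have hcc : c ≤ c₀ := min_le_left _ _
  have hc10 : c ≤ 1 / 10 := min_le_right _ _
  obtain ⟨J, hJ⟩ : ∃ J : ℕ, 16 / min (s - a) (s - a) < J := exists_nat_gt _
  have hJ0 : (0 : ℝ) < (J : ℝ) + 1 := by positivity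
  set hh : ℝ := R / ((J : ℝ) + 1) with hhh
  have hh0 : 0 < hh := by positivity
  have hyh : ((J : ℝ) + 1) * hh = R := by rw [hhh]; field_simp
  set ε : ℝ := σ * c * hh / 8 with hε
  have hε0 : 0 < ε := by positivity
  have hσc : σ * c ≤ 1 / 10 := by nlinarith
  have hε1 : ε ≤ hh / 20 := by rw [hε]; nlinarith
  set s1 : ℝ := c * hh with hs1
  have hs10 : 0 < s1 := by positivity
  have hhR : hh ≤ R := by
    rw [hhh]; exact div_le_self hR.le (by linarith [Nat.cast_nonneg (α := ℝ) J])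
  have hs1h : s1 ≤ hh / 10 := by rw [hs1]; nlinarith
  have hs1R : s1 ≤ R := by linarith
  have z : (0 : ℝ) ≤ 0 ∧ (0 : ℝ) ≤ R := ⟨le_rfl, hR.le⟩
  have yy : (0 : ℝ) ≤ R ∧ R ≤ R := ⟨hR.le, le_rfl⟩
  have hxj : ∀ j ≤ J, (0 : ℝ) ≤ (j : ℝ) * hh ∧ (j : ℝ) * hh ≤ R := by
    intro j hj
    have h1 : (j : ℝ) ≤ J := by exact_mod_cast hj
    refine ⟨by positivity, ?_⟩
    rw [← hyh]
    nlinarith
  have key := kauf_box h 0 hR.le le_rfl J (fun j => (j : ℝ) * hh) (bb s hh ε J) hε0 ![R, 0, R, 0]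
    (mem4 (p := 0) yy z yy z) (fun j => ![R, (j : ℝ) * hh, R, (j : ℝ) * hh])
    (fun j hj => mem4 (p := 0) yy (hxj j hj) yy (hxj j hj)) 2
    (fun n k₀ i i' => max |(G n).P i k₀ - (G n).P i' k₀| |(G n).X i k₀ - (G n).X i' k₀|)
    (by simp) (bb_J _ _ _ _) ?_
  · obtain ⟨j, hj, hj2⟩ := key
    have hx := hxj j hj
    have e1 := hc4 hc yy hx yy hx
    have e2 := hc4 hc yy z yy z
    rw [e1, e2, hc_one0 h hc hR.le le_rfl, hc_zero h hc] at hj2
    have e3 := lat_kauf h hc hm _ hx.1 hx.2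
    have e4 := hc_beta_mono h hc le_rfl hx.1 hx.2 hx.2 hx.1 le_rfl
    have e5 : s * ((j : ℝ) * hh) ≤ σ * ((j : ℝ) * hh) := mul_le_mul_of_nonneg_right hsσ.le hx.1
    refine arith_end hj ha0 has (hsσ.le.trans hσ1) (sub_pos.2 has) (by linarith) hh0 hε0.le hε1 ?_
    rw [hyh]
    have e6 : a + (s - a) = s := by ring
    rw [e6]
    linarith
  · have hbadAll : ∀ᶠ n in (U : Filter ℕ), ∀ l ∈ range J,
        ((badp (G n) (B.d n ^ (((l + 1 : ℕ) : ℝ) * hh)) c s).card : ℝ) ≤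
          (B.d n ^ (c * hh / 2)) ^ 2 * ((G n).Z.card : ℝ) ^ 2 := by
      rw [Filter.eventually_all_finset]
      intro l hl
      have hl1 : ((l + 1 : ℕ) : ℝ) ≤ J := by
        have : l + 1 ≤ J := by simpa using hl
        exact_mod_cast this
      have hl2 : (1 : ℝ) ≤ ((l + 1 : ℕ) : ℝ) := by push_cast; linarith [Nat.cast_nonneg (α := ℝ) l]
      have hyl : ((l + 1 : ℕ) : ℝ) * hh ≤ R := by rw [← hyh]; nlinarith
      filter_upwards [Hbad c hc0 hcc (((l + 1 : ℕ) : ℝ) * hh) (by positivity) hyl] with n hn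
      refine hn.trans ?_
      refine mul_le_mul_of_nonneg_right ?_ (by positivity)
      rw [← Real.rpow_mul (B.pos n).le, sq, ← dpow_add]
      refine dpow_anti B n ?_
      nlinarith
    filter_upwards [hbadAll, h.frost s1 hs10.le hs1R ε hε0,
      ev_const B (2 * (J : ℝ)) (show 0 < c * hh / 2 by positivity),
      ev_const_mul B 4 (show 2 * ε < σ * s1 - ε by rw [hs1, hε]; nlinarith),
      ev_const_mul B (4 * (J : ℝ)) (show 2 * ε < c * hh / 2 by rw [hε]; nlinarith),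
      ev_const B 22 (show 0 < hh - s1 by linarith),
      ev_const B 88 (show 0 < hh - 2 * s1 by linarith),
      ev_const B 2 hε0] with n hbad hfr hc1 hc2 hc3 hc22 hc88 hcε
    have hρ1 : (G n).ρ = B.d n := h.base n
    set θ : ℝ := B.d n ^ (c * hh / 2) with hθ
    have hθ0 : 0 < θ := dpow_pos B n _
    set bad : ℕ → Finset (ℕ × ℕ) := fun l =>
      badp (G n) (B.d n ^ (((l + 1 : ℕ) : ℝ) * hh)) c s with hbaddef
    set Z' := (G n).Z.filter fun k₀ => ∀ l ∈ range J,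
      (((G n).Z.filter fun k => (k₀, k) ∈ bad l).card : ℝ) ≤ θ * (G n).Z.card with hZ'
    have hmk : ((G n).Z.card : ℝ) ≤ 2 * (Z'.card : ℝ) := by
      have := markov_pins (G n).Z J bad hθ0 hbad hc1
      convert this using 3
    have hZpos : (0 : ℝ) < (G n).Z.card := by exact_mod_cast card_pos.2 (Z_nonempty h n)
    have hZ'pos : (0 : ℝ) < Z'.card := by linarith
    have hZ'Z : Z' ⊆ (G n).Z := filter_subset _ _
    have hpin : ∀ k₀ ∈ Z', ∀ l ∈ range J,
          (((G n).Z.filter fun k => (k₀, k) ∈ bad l).card : ℝ) ≤ θ * (G n).Z.card := by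
      intro k₀ hk₀'
      rw [hZ', mem_filter] at hk₀'; exact hk₀'.2
    clear_value Z'
    refine ⟨Z', hZ'Z, card_pos.1 (by exact_mod_cast hZ'pos), fun k₀ hk₀' =>
      ⟨Z'.filter fun k => B.d n ^ s1 < |(G n).z k - (G n).z k₀| ∧ ∀ l ∈ range J,
        (k₀, k) ∉ bad l, filter_subset _ _, ?_, ?_⟩⟩
    · have hk₀ := hZ'Z hk₀'
      have hcard := sdiff_count Z' ((G n).hbox s1 k₀) J
        (fun l => (G n).Z.filter fun k => (k₀, k) ∈ bad l)
        (fun k => B.d n ^ s1 < |(G n).z k - (G n).z k₀| ∧ ∀ l ∈ range J, (k₀, k) ∉ bad l) (by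
          intro k hk hgood
          by_cases hz : B.d n ^ s1 < |(G n).z k - (G n).z k₀|
          · right
            have h3 : ¬ ∀ l ∈ range J, (k₀, k) ∉ bad l := fun h4 => hgood ⟨hz, h4⟩
            push Not at h3
            obtain ⟨l, hl, h4⟩ := h3
            exact ⟨l, hl, mem_filter.2 ⟨hZ'Z hk, h4⟩⟩
          · left
            unfold Cfg.hbox
            rw [mem_filter, hρ1]
            exact ⟨hZ'Z hk, not_lt.1 hz⟩) (hpin k₀ hk₀')
      have h1 := hfr k₀ hk₀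
      have hd1 := dpow_pos B n (σ * s1 - ε)
      have hd2 := dpow_pos B n (2 * ε)
      have g1 : B.d n ^ (σ * s1 - ε) * ((G n).Z.card : ℝ) ≤ B.d n ^ (2 * ε) / 2 * Z'.card := by
        calc B.d n ^ (σ * s1 - ε) * ((G n).Z.card : ℝ) ≤ B.d n ^ (σ * s1 - ε) * (2 * Z'.card) :=
              mul_le_mul_of_nonneg_left hmk hd1.le
          _ = (4 * B.d n ^ (σ * s1 - ε)) / 2 * Z'.card := by ring
          _ ≤ B.d n ^ (2 * ε) / 2 * Z'.card := by gcongr
      have g2 : (J : ℝ) * (θ * (G n).Z.card) ≤ B.d n ^ (2 * ε) / 2 * Z'.card := by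
        calc (J : ℝ) * (θ * (G n).Z.card) ≤ J * (θ * (2 * Z'.card)) := by gcongr
          _ = (4 * J * θ) / 2 * Z'.card := by ring
          _ ≤ B.d n ^ (2 * ε) / 2 * Z'.card := by gcongr
      refine le_trans (le_of_eq ?_) (hcard.trans ?_)
      · congr
      · linarith
    have hk₀ := hZ'Z hk₀'
    intro i₀ hi₀
    have hL : ∀ i ∈ (G n).box ![R, 0, R, 0] i₀ k₀, i ∈ (G n).L := fun i hi =>
      slice_sub_L (box_sub_slice hi)
    have hP2 : ∀ i ∈ (G n).box ![R, 0, R, 0] i₀ k₀, ∀ i' ∈ (G n).box ![R, 0, R, 0] i₀ k₀,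
        |(G n).N i' k₀ - (G n).N i k₀| ≤ 2 * B.d n ^ R ∧
        |(G n).c i' - (G n).c i| ≤ 2 * B.d n ^ R := by
      intro i hi i' hi'
      have g1 := (mem_box.1 hi).2
      have g2 := (mem_box.1 hi').2
      have a1 := g1 0; have a2 := g2 0; have b1 := g1 2; have b2 := g2 2
      rw [hρ1] at a1 a2 b1 b2
      have a1' : |(G n).N i k₀ - (G n).N i₀ k₀| ≤ B.d n ^ R := a1
      have a2' : |(G n).N i' k₀ - (G n).N i₀ k₀| ≤ B.d n ^ R := a2
      have b1' : |(G n).c i - (G n).c i₀| ≤ B.d n ^ R := b1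
      have b2' : |(G n).c i' - (G n).c i₀| ≤ B.d n ^ R := b2
      rw [abs_le] at a1' a2' b1' b2' ⊢
      rw [abs_le]
      refine ⟨⟨?_, ?_⟩, ?_, ?_⟩ <;> linarith [a1'.1, a1'.2, a2'.1, a2'.2, b1'.1, b1'.2, b2'.1, b2'.2]
    refine ⟨fun i hi i' hi' => ?_, fun j hj i hi i' hi' hD l => ?_, fun j hj i hi i' hi' hD => ?_⟩
    · exact max_le (abs_co_sub_le (h.bd n) (hL i' hi') (hL i hi) hk₀ 1)
        (abs_co_sub_le (h.bd n) (hL i' hi') (hL i hi) hk₀ 3)
    · have hD2 := hD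
      rw [max_le_iff, abs_sub_comm, abs_sub_comm ((G n).X i k₀)] at hD2
      have hpos := dpow_pos B n ((j : ℝ) * hh)
      push_cast
      fin_cases l
      · exact (hP2 i hi i' hi').1
      · exact hD2.1.trans (show B.d n ^ ((j : ℝ) * hh) ≤ 2 * B.d n ^ ((j : ℝ) * hh) by linarith)
      · exact (hP2 i hi i' hi').2
      · exact hD2.2.trans (show B.d n ^ ((j : ℝ) * hh) ≤ 2 * B.d n ^ ((j : ℝ) * hh) by linarith)
    · set w := B.d n ^ (((j + 1 : ℕ) : ℝ) * hh) with hw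
      set t := B.d n ^ (((J - 1 - j : ℕ) : ℝ) * hh) with ht
      have hmul : B.d n ^ R = w * t * B.d n ^ hh := by
        rw [← hyh]; exact mesh_mul B n hj hh
      have hw0 : 0 < w := dpow_pos B n _
      have ht0 : 0 < t := dpow_pos B n _
      have ht1 : t ≤ 1 := dpow_le_one B n (by positivity)
      have he2 := dpow_pos B n ε
      have hε3 : 2 ≤ B.d n ^ (-(3 * ε)) := by
        have g1 : B.d n ^ (-(3 * ε)) * B.d n ^ (3 * ε) = 1 := by rw [← dpow_add]; simp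
        have g2 : B.d n ^ (3 * ε) ≤ B.d n ^ ε := dpow_anti B n (by linarith)
        have g3 := dpow_pos B n (3 * ε)
        have g4 : 2 * B.d n ^ (3 * ε) ≤ B.d n ^ (-(3 * ε)) * B.d n ^ (3 * ε) := by
          rw [g1]; linarith
        exact le_of_mul_le_mul_right g4 g3
      rw [bb_lt hj, hρ1]
      have hexp : B.d n ^ (s * (((J - 1 - j : ℕ) : ℝ) * hh) - 5 * ε + 2 * ε) =
          t ^ s * B.d n ^ (-(3 * ε)) := by
        rw [ht, ← Real.rpow_mul (B.pos n).le, ← dpow_add]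
        congr 1; ring
      rw [hexp]
      have hts0 : 0 < t ^ s := Real.rpow_pos_of_pos ht0 _
      have hfinal : t ^ s * ((G n).Z.card : ℝ) ≤ t ^ s * B.d n ^ (-(3 * ε)) * Z'.card := by
        calc t ^ s * ((G n).Z.card : ℝ) ≤ t ^ s * (2 * Z'.card) :=
              mul_le_mul_of_nonneg_left hmk hts0.le
          _ = t ^ s * 2 * Z'.card := by ring
          _ ≤ t ^ s * B.d n ^ (-(3 * ε)) * Z'.card := by gcongr
      rcases Nat.lt_or_ge (j + 1) J with hj1 | hj1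
      · refine le_trans ?_ hfinal
        have hl : J - 2 - j ∈ range J := by simp; omega
        have hl1 : J - 2 - j + 1 = J - 1 - j := by omega
        have hes1 : B.d n ^ hh = B.d n ^ (hh - 2 * s1) * (B.d n ^ s1) ^ 2 := by
          rw [sq, ← dpow_add, ← dpow_add]; congr 1; ring
        have hes2 : B.d n ^ hh = B.d n ^ (hh - s1) * B.d n ^ s1 := by
          rw [← dpow_add]; congr 1; ring
        have hs0 := dpow_pos B n s1
        refine le_trans (le_of_eq ?_) (slope_hts (h.bd n) (hL i hi) (hL i' hi') hk₀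
          (Z'.filter fun k => B.d n ^ s1 < |(G n).z k - (G n).z k₀| ∧ ∀ l ∈ range J,
            (k₀, k) ∉ bad l) ((filter_subset _ _).trans hZ'Z) (e := B.d n ^ R) (s := B.d n ^ s1)
            (w := w) (t := t) (r := t) (c := c) (σ := s) (dpow_pos B n _).le ?_ ?_ hs0
            (dpow_le_one B n hs10.le) hw0 ht0.le hD ?_ rfl ?_ ?_ ?_)
        · congr
        · rw [abs_sub_comm]; exact (hP2 i hi i' hi').1
        · rw [abs_sub_comm]; exact (hP2 i hi i' hi').2
        · rw [hmul, hes2]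
          calc 22 * (w * t * (B.d n ^ (hh - s1) * B.d n ^ s1))
              = (22 * B.d n ^ (hh - s1)) * (t * (B.d n ^ s1 * w)) := by ring
            _ ≤ 1 * (1 * (B.d n ^ s1 * w)) := by gcongr
            _ = _ := by ring
        · rw [ht, ← Real.rpow_mul (B.pos n).le]
          refine dpow_anti B n ?_
          rw [hs1, castJ hj]
          have g1 : (1 : ℝ) ≤ (J : ℝ) - 1 - j := by
            have : ((j + 1 + 1 : ℕ) : ℝ) ≤ J := by exact_mod_cast hj1
            push_cast at this; linarith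
          have g2 : 0 < c * hh := by positivity
          nlinarith
        · rw [hmul, hes1]
          calc 88 * (w * t * (B.d n ^ (hh - 2 * s1) * (B.d n ^ s1) ^ 2))
              = (88 * B.d n ^ (hh - 2 * s1)) * (t * ((B.d n ^ s1) ^ 2 * w)) := by ring
            _ ≤ 1 * (t * ((B.d n ^ s1) ^ 2 * w)) := mul_le_mul_of_nonneg_right hc88 (by positivity)
            _ = _ := by ring
        · intro k hk
          rw [mem_filter] at hk
          refine ⟨hk.2.1, ?_⟩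
          have := hk.2.2 (J - 2 - j) hl
          rw [hbaddef] at this
          simp only [hl1] at this
          exact this
      · have hj2 : J - 1 - j = 0 := by omega
        have ht2 : t = 1 := by rw [ht, hj2]; simp
        rw [ht2, Real.one_rpow, one_mul]
        have g1 : ((((Z'.filter fun k => B.d n ^ s1 < |(G n).z k - (G n).z k₀| ∧ ∀ l ∈ range J,
            (k₀, k) ∉ bad l).filter fun k => |(G n).co k i 0 - (G n).co k i' 0| ≤
              B.d n ^ R).card : ℕ) : ℝ) ≤ Z'.card := by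
          exact_mod_cast card_le_card ((filter_subset _ _).trans (filter_subset _ _))
        refine le_trans (le_of_eq ?_) (g1.trans ?_)
        · congr
        · have : (1 : ℝ) ≤ B.d n ^ (-(3 * ε)) := by linarith
          calc (Z'.card : ℝ) = 1 * Z'.card := (one_mul _).symm
            _ ≤ _ := by gcongr

end Crest.Agent.R138.TwF501
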