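import Crest.Agent.R138.AeB_501
import Crest.Agent.R138.Tw3_628
import Crest.Agent.R138.TwF_501

/-!
# R138: the table of rates at one natural point (helper501)

`TanDec` = first order data of one tangent function (848's decoupling); `table_ne`, `table_one` =
the table for `k ≠ 1` and `k = 1`.
-/

set_option autoImplicit false
set_option linter.unusedVariables false
set_option linter.unusedSectionVars false

open Filter Topology Finset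

namespace Crest.Agent.R138.AeT501

open Crest.Agent.R138.Ex926 Crest.Agent.R138.FM501 Crest.Agent.R138.Flg101
open Crest.Agent.R138.TwMaj480 Crest.Agent.R138.Tw628

/-- first order data of a tangent function `lam` at a natural point: rates `r0` (normal position),
`r2` (lateral velocity), a function `β` of (normal velocity, lateral position) with `β u u = Q u`,
loss `J` along the level `(S, k S)`. -/
structure TanDec (k : ℝ) (lam : (Fin 6 → ℝ) → ℝ) (r0 r2 Q J S Rp : ℝ) (β : ℝ → ℝ → ℝ) : Prop where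
  A : ∀ p p' : Fin 4 → ℝ, (∀ j, 0 ≤ p j ∧ p j ≤ Rp) → (∀ j, 0 ≤ p' j ∧ p' j ≤ Rp) →
    lam (dir p S (k * S)) - lam (dir p' S (k * S)) =
      -(r0 * (p 0 - p' 0) + r2 * (p 2 - p' 2) + (β (p 1) (p 3) - β (p' 1) (p' 3)))
  B0 : β 0 0 = 0
  B : ∀ u, 0 ≤ u → u ≤ Rp → β u u = Q * u
  C0 : lam (dir (fun _ => Rp) 0 0) = -((r0 + r2 + Q) * Rp)
  C1 : lam (dir (fun _ => Rp) S (k * S)) = -((r0 + r2 + Q) * Rp + J * S)

section

variable {ι : ℕ → Type} [∀ n, DecidableEq (ι n)]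
variable {B : Base} {I : ∀ n, Finset (ι n)}
    {x : ∀ n, ι n → Inc} {line : ∀ n, ι n → ℕ} {ν : (Fin 6 → ℝ) → ℝ} {own : (Fin 2 → ℝ) → ℝ}
    {M k u₀ u₁ : ℝ} {w : ℝ → ℝ}

/-- the half coupled model at a natural point -/
theorem ExtB.half_model (hE : ExtB B I x line ν own M k u₀ u₁ w)
    {v t σ : ℝ} (hv0 : u₀ < v) (hv1 : v < u₁) (ht : 0 ≤ t) (hw : HasDerivAt w (-σ) v)
    {h : ℕ → ℝ} (hpos : ∀ l, 0 < h l) (h0 : Tendsto h atTop (𝓝 0))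
    {lam : (Fin 6 → ℝ) → ℝ} (htan : IsTan (LEG M) D6 ν (fun _ => X6 v (k * v) t) h lam)
    {r0 r2 Q J S Rp : ℝ} {β : ℝ → ℝ → ℝ} (hRp : 0 < Rp) (hS : Rp ≤ S) (hkS : Rp ≤ k * S)
    (hD : TanDec k lam r0 r2 Q J S Rp β) :
    σ ≤ J ∧ ∃ (B' : Base) (G' : ℕ → Cfg) (ν' : (Fin 4 → ℝ) → ℝ), FModel B' G' σ (Rp / 2) ν' ∧
      TwistMaj B' G' ∧ HalfCoupled ν' (Rp / 2) r0 r2 β := by
  obtain ⟨B₁, ι₁, hdec, I₁, x₁, line₁, hne₁, hE₁⟩ := hE.exists_nonempty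
  have hS0 : 0 < S := hRp.trans_le hS
  have hkS0 : 0 < k * S := hRp.trans_le hkS
  have hpz : ∀ j : Fin 4, (0 : ℝ) ≤ (0 : Fin 4 → ℝ) j ∧ (0 : Fin 4 → ℝ) j ≤ Rp := fun j =>
    ⟨le_rfl, hRp.le⟩
  have hpR : ∀ j : Fin 4, (0 : ℝ) ≤ (fun _ : Fin 4 => Rp) j ∧ (fun _ : Fin 4 => Rp) j ≤ Rp :=
    fun j => ⟨hRp.le, le_rfl⟩
  have hA0 := hD.A 0 (fun _ => Rp) hpz hpR
  simp only [Pi.zero_apply] at hA0
  rw [hD.B0, hD.B Rp hRp.le le_rfl] at hA0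
  have hc0 : dir (fun _ => Rp) 0 0 ∈ D6 := dir_const_mem_D6 hRp.le le_rfl le_rfl
  have hc1 : dir (fun _ => Rp) S (k * S) ∈ D6 := dir_const_mem_D6 hRp.le hS0.le hkS0.le
  have hJ : σ ≤ J := by
    have h1 := hE.tan_own_le hv0 hv1 hw hpos h0 htan hc0 hc1
      (dir_mono (fun _ => le_rfl) hS0.le hkS0.le)
      (by show (0 : ℝ) ≤ k * 0; simp) (by show k * S ≤ k * S; exact le_rfl)
    rw [hD.C0, hD.C1] at h1
    have e1 : dir (fun _ => Rp) S (k * S) 4 = S := rfl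
    have e2 : dir (fun _ => Rp) (0 : ℝ) (0 : ℝ) 4 = 0 := rfl
    rw [e1, e2] at h1
    have h2 : σ * S ≤ J * S := by linarith
    exact le_of_mul_le_mul_right h2 hS0
  refine ⟨hJ, ?_⟩
  obtain ⟨B', G', ν', hF, hT, hν'⟩ := hE₁.fm_of_tan hne₁ hv0 hv1 ht hw hpos h0 htan
    (R := Rp / 2) (Rp := Rp) (R4 := S) (R5 := k * S) (by linarith) (by linarith) hS hkS (by
      rw [hD.C0]; linarith)
  refine ⟨B', G', ν', hF, hT, fun p hp => ?_⟩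
  have hp' : ∀ j, 0 ≤ p j ∧ p j ≤ Rp := fun j => ⟨(hp j).1, by linarith [(hp j).2]⟩
  have h1 := hν' p hp
  have h2 := hν' 0 (fun j => ⟨le_rfl, by show (0 : ℝ) ≤ Rp / 2; linarith⟩)
  have h3 := hD.A p 0 hp' hpz
  simp only [Pi.zero_apply] at h3
  rw [hD.B0] at h3
  linarith

/-- **the table, `k ≠ 1`**: rates of a decoupled natural point -/
theorem ExtB.table_ne (hE : ExtB B I x line ν own M k u₀ u₁ w)
    {v t σ : ℝ} (hv0 : u₀ < v) (hv1 : v < u₁) (ht : 0 ≤ t) (hw : HasDerivAt w (-σ) v)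
    {h : ℕ → ℝ} (hpos : ∀ l, 0 < h l) (h0 : Tendsto h atTop (𝓝 0))
    {lam : (Fin 6 → ℝ) → ℝ} (htan : IsTan (LEG M) D6 ν (fun _ => X6 v (k * v) t) h lam)
    {r0 r1 r2 r3 J S Rp : ℝ} (hRp : 0 < Rp) (hS : Rp ≤ S) (hkS : Rp ≤ k * S)
    (hD : TanDec k lam r0 r2 (r1 + r3) J S Rp (fun u z => r1 * u + r3 * z)) :
    σ ≤ J ∧ RtTw σ r0 r1 r2 r3 := by
  obtain ⟨hJ, B', G', ν', hF, hT, hC⟩ := hE.half_model hv0 hv1 ht hw hpos h0 htan hRp hS hkS hD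
  refine ⟨hJ, RtTw.of_model hF hT (a := r0) (q := r1) (m := r2) (y := r3) fun p hp => ?_⟩
  have := hC p hp
  simp only at this
  linarith

/-- cost of slope `k / 2` at a decoupled natural point -/
theorem ExtB.cost_ne (hE : ExtB B I x line ν own M k u₀ u₁ w)
    {v t σ : ℝ} (hv0 : u₀ < v) (hv1 : v < u₁) (ht : 0 ≤ t) (hw : HasDerivAt w (-σ) v)
    {h : ℕ → ℝ} (hpos : ∀ l, 0 < h l) (h0 : Tendsto h atTop (𝓝 0))
    {lam : (Fin 6 → ℝ) → ℝ} (htan : IsTan (LEG M) D6 ν (fun _ => X6 v (k * v) t) h lam)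
    {r0 r1 r2 r3 J S Rp : ℝ} (hRp : 0 < Rp) (hS : Rp ≤ S) (hkS : Rp ≤ k * S)
    (hD : TanDec k lam r0 r2 (r1 + r3) J S Rp (fun u z => r1 * u + r3 * z)) (hm : 0 < r2)
    {Pv Pt : ℝ} (hPv : Pv = -((1 + k) * r0 + k * r1 + r3 + J) + σ + (2 + k))
    (hPt : Pt = -(r0 + r1 + r2 + r3) + 2) : Pv - k / 2 * Pt ≤ 2 * (1 - σ) := by
  obtain ⟨hJ, hR⟩ := hE.table_ne hv0 hv1 ht hw hpos h0 htan hRp hS hkS hD
  have h1 := hR.cost_half hE.k0.le hm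
  unfold cst at h1
  rw [hPv, hPt]
  linarith

/-- **the table, `k = 1`** -/
theorem ExtB.table_one (hE : ExtB B I x line ν own M 1 u₀ u₁ w)
    {v t σ : ℝ} (hv0 : u₀ < v) (hv1 : v < u₁) (ht : 0 ≤ t) (hw : HasDerivAt w (-σ) v)
    {h : ℕ → ℝ} (hpos : ∀ l, 0 < h l) (h0 : Tendsto h atTop (𝓝 0))
    {lam : (Fin 6 → ℝ) → ℝ} (htan : IsTan (LEG M) D6 ν (fun _ => X6 v (1 * v) t) h lam)
    {r0 r2 Q J S Rp : ℝ} {β : ℝ → ℝ → ℝ} (hRp : 0 < Rp) (hS : Rp ≤ S)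
    (hD : TanDec 1 lam r0 r2 Q J S Rp β) (hm : 0 < r2) :
    σ ≤ J ∧ σ ≤ r0 ∧ (1 - σ < r2 → 3 - 2 * r0 - Q ≤ 2 * (1 - σ)) := by
  obtain ⟨hJ, B', G', ν', hF, hT, hC⟩ := hE.half_model hv0 hv1 ht hw hpos h0 htan hRp hS
    (by rw [one_mul]; exact hS) hD
  have ha : σ ≤ r0 := TwF501.K3core hF hC hm hm (fun z hz0 hzR => half_C hF hT hC hz0 hzR)
  refine ⟨hJ, ha, fun hms => ?_⟩
  exact half_cost_zero' hF hC hms ha (x := Rp / 2) (by linarith) le_rfl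
    (hD.B (Rp / 2) (by linarith) (by linarith))

/-- costs at a half coupled natural point -/
theorem ExtB.cost_one (hE : ExtB B I x line ν own M 1 u₀ u₁ w)
    {v t σ : ℝ} (hv0 : u₀ < v) (hv1 : v < u₁) (ht : 0 ≤ t) (hw : HasDerivAt w (-σ) v)
    {h : ℕ → ℝ} (hpos : ∀ l, 0 < h l) (h0 : Tendsto h atTop (𝓝 0))
    {lam : (Fin 6 → ℝ) → ℝ} (htan : IsTan (LEG M) D6 ν (fun _ => X6 v (1 * v) t) h lam)
    {r0 r2 Q J S Rp : ℝ} {β : ℝ → ℝ → ℝ} (hRp : 0 < Rp) (hS : Rp ≤ S)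
    (hD : TanDec 1 lam r0 r2 Q J S Rp β) (hm : 0 < r2)
    {Pv Pt : ℝ} (hPv : Pv = -(2 * r0 + Q + J) + σ + 3) (hPt : Pt = -(r0 + r2 + Q) + 2) :
    Pv - Pt ≤ (1 - σ) + r2 ∧ (1 - σ < r2 → Pv ≤ 2 * (1 - σ)) := by
  obtain ⟨hJ, ha, hf⟩ := hE.table_one hv0 hv1 ht hw hpos h0 htan hRp hS hD hm
  refine ⟨by rw [hPv, hPt]; linarith, fun hms => ?_⟩
  have := hf hms
  rw [hPv]; linarith

end

end Crest.Agent.R138.AeT501
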