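import Crest.Agent.R138.AeT4_501
import Crest.Agent.R138.Dl4_848

/-!
# R138: bridge from the decoupled blow-up limit (848) to the table at one point (helper501)
-/

set_option autoImplicit false
set_option linter.unusedVariables false
set_option linter.unusedSectionVars false

open Filter Topology

namespace Crest.Agent.R138.AeT501

open Crest.Agent.R138.Ex926 Crest.Agent.R138.FM501 Crest.Agent.R138.Flg101
open Crest.Agent.R138.TwMaj480 Crest.Agent.R138.Tw628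

/-- the positive cone of 926 is legal in the sense of 848 -/
theorem leg_of_D6 {c : Fin 6 → ℝ} (hc : c ∈ D6) : c ∈ Dl848.LEG :=
  ⟨hc.2.1, hc.2.2.1, hc.2.2.2.1, hc.2.2.2.2⟩

theorem norm_dir_coord {p : Fin 4 → ℝ} {a b C : ℝ} (hp : ∀ j, |p j| ≤ C) (ha : |a| ≤ C)
    (hb : |b| ≤ C) : ∀ i, |dir p a b i| ≤ C := by
  intro i
  fin_cases i
  · exact hp 0
  · exact hp 1
  · exact hp 2
  · exact hp 3
  · exact ha
  · exact hb

section

variable {k : ℝ} {lam g : (Fin 6 → ℝ) → ℝ} {Nv Nt r0 r2 J S Rp : ℝ}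

/-- values of the limit at the constant boxes -/
theorem lim_C0 (hk : 0 < k) (hL : Dl848.Lim g 1 k Nv Nt r0 r2 J) :
    g (dir (fun _ => Rp) 0 0) = Rp * Nt := by
  have h1 := hL.hP 0 Rp
  have e1 : Dl848.T 1 k 0 Rp = dir (fun _ => Rp) 0 0 := by
    refine Dl848.ext6 ?_ ?_ ?_ ?_ ?_ ?_
    · show Rp + 1 * 0 + k * 0 = Rp; ring
    · show Rp + k * 0 = Rp; ring
    · rfl
    · show Rp + 1 * 0 = Rp; ring
    · show (1 : ℝ) * 0 = 0; ring
    · show k * 0 = (0 : ℝ); ring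
  rw [e1] at h1
  rw [h1]; ring

theorem lim_C1 (hk : 0 < k) (hS : 0 < S) (hL : Dl848.Lim g 1 k Nv Nt r0 r2 J)
    (hc0 : dir (fun _ => Rp) 0 0 ∈ D6) :
    g (dir (fun _ => Rp) S (k * S)) = Rp * Nt - J * S := by
  have h1 := hL.hJ1 S hS
  have h2 := hL.g3 _ (leg_of_D6 hc0) 0 (leg_of_D6 zero_mem_D6) rfl rfl (1 * S) (k * S)
    (by linarith) (by positivity)
  rw [h1] at h2
  unfold Dl848.Inc at h2
  have e1 : dir (fun _ => Rp) 0 0 + Dl848.w45 (1 * S) (k * S) = dir (fun _ => Rp) S (k * S) := by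
    refine Dl848.ext6 ?_ ?_ ?_ ?_ ?_ ?_
    · show Rp + 0 = Rp; ring
    · show Rp + 0 = Rp; ring
    · show Rp + 0 = Rp; ring
    · show Rp + 0 = Rp; ring
    · show 0 + 1 * S = S; ring
    · show 0 + k * S = k * S; ring
  rw [e1, lim_C0 hk hL] at h2
  linarith

/-- **bridge**: the general form -/
theorem tanDec_of_lim (hk : 0 < k) (hRp : 0 < Rp) (hS : Rp ≤ S) (hkS : Rp ≤ k * S)
    (hg : ∀ c ∈ D6, g c = lam c) (hL : Dl848.Lim g 1 k Nv Nt r0 r2 J) {R : ℝ}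
    (hR1 : 2 * S ≤ R) (hR2 : 2 * (k * S) ≤ R) :
    TanDec k lam r0 r2 (-(Nt + r0 + r2)) J S Rp (Dl848.bet g R) := by
  have hS0 : 0 < S := hRp.trans_le hS
  have hR0 : 0 ≤ R := by linarith
  have hc0 : dir (fun _ => Rp) 0 0 ∈ D6 := dir_const_mem_D6 hRp.le le_rfl le_rfl
  have hc1 : dir (fun _ => Rp) S (k * S) ∈ D6 :=
    dir_const_mem_D6 hRp.le hS0.le (hRp.le.trans hkS)
  have hB : ∀ v, |v| ≤ R / 2 → Dl848.bet g R v v = -(Nt + r0 + r2) * v := fun v hv =>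
    hL.B0 one_pos hk (M := R / 2) (by linarith) hv
  refine
    { A := fun p p' hp hp' => ?_
      B0 := ?_
      B := fun u hu0 hu => ?_
      C0 := ?_
      C1 := ?_ }
  · have m1 : dir p S (k * S) ∈ D6 := dir_mem_D6 hp hS hkS
    have m2 : dir p' S (k * S) ∈ D6 := dir_mem_D6 hp' hS hkS
    rw [← hg _ m1, ← hg _ m2]
    have habs : ∀ q : Fin 4 → ℝ, (∀ j, 0 ≤ q j ∧ q j ≤ Rp) → ∀ i, |dir q S (k * S) i| ≤ R / 2 := by
      intro q hq
      refine norm_dir_coord (fun j => ?_) ?_ ?_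
      · rw [abs_of_nonneg (hq j).1]; linarith [(hq j).2]
      · rw [abs_of_pos hS0]; linarith
      · rw [abs_of_nonneg (hRp.le.trans hkS)]; linarith
    have := hL.A (M := R / 2) (R := R) (by linarith) (leg_of_D6 m1) (leg_of_D6 m2) (habs p hp)
      (habs p' hp') rfl rfl
    rw [this]
    show -(r0 * (p 0 - p' 0) + r2 * (p 2 - p' 2) + Dl848.bet g R (p 1) (p 3) -
      Dl848.bet g R (p' 1) (p' 3)) = _
    ring
  · have := hB 0 (by rw [abs_zero]; linarith)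
    rw [this, mul_zero]
  · exact hB u (by rw [abs_of_nonneg hu0]; linarith)
  · rw [← hg _ hc0, lim_C0 hk hL]; ring
  · rw [← hg _ hc1, lim_C1 hk hS0 hL hc0]; ring

/-- **bridge**, `k ≠ 1` -/
theorem tanDec_of_lim_ne (hk : 0 < k) (hk1 : k ≠ 1) (hRp : 0 < Rp) (hS : Rp ≤ S)
    (hkS : Rp ≤ k * S) (hg : ∀ c ∈ D6, g c = lam c) (hL : Dl848.Lim g 1 k Nv Nt r0 r2 J) :
    ∃ r1 r3 : ℝ, r1 + r3 = -(Nt + r0 + r2) ∧ k * r1 + r3 = -(Nv + J + r0 * (1 + k)) ∧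
      TanDec k lam r0 r2 (r1 + r3) J S Rp (fun u z => r1 * u + r3 * z) := by
  have hS0 : 0 < S := hRp.trans_le hS
  have hne : 1 - k ≠ 0 := sub_ne_zero.2 (Ne.symm hk1)
  obtain ⟨r1, r3, h13, h13'⟩ : ∃ r1 r3 : ℝ, r1 + r3 = -(Nt + r0 + r2) ∧
      k * r1 + r3 = -(Nv + J + r0 * (1 + k)) := by
    refine ⟨(-(Nt + r0 + r2) + (Nv + J + r0 * (1 + k))) / (1 - k),
      (-(Nv + J + r0 * (1 + k)) + k * (Nt + r0 + r2)) / (1 - k), ?_, ?_⟩
    · field_simp; ring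
    · field_simp; ring
  refine ⟨r1, r3, h13, h13', ?_⟩
  set R : ℝ := max (2 * S) (2 * (k * S)) with hR
  have hR1 : 2 * S ≤ R := le_max_left _ _
  have hR2 : 2 * (k * S) ≤ R := le_max_right _ _
  have hT := tanDec_of_lim hk hRp hS hkS hg hL hR1 hR2
  have hbet : ∀ u z : ℝ, 0 ≤ u → u ≤ Rp → 0 ≤ z → z ≤ Rp →
      Dl848.bet g R u z = r1 * u + r3 * z := by
    intro u z hu0 hu hz0 hz
    refine hL.C one_pos hk (Ne.symm hk1) (M := R / 2) (by linarith) ?_ ?_ h13 ?_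
    · rw [abs_of_nonneg hu0]; linarith
    · rw [abs_of_nonneg hz0]; linarith
    · linarith
  refine
    { A := fun p p' hp hp' => ?_
      B0 := by simp
      B := fun u hu0 hu => by ring
      C0 := ?_
      C1 := ?_ }
  · have := hT.A p p' hp hp'
    rw [hbet _ _ (hp 1).1 (hp 1).2 (hp 3).1 (hp 3).2,
      hbet _ _ (hp' 1).1 (hp' 1).2 (hp' 3).1 (hp' 3).2] at this
    exact this
  · have := hT.C0
    rw [this, h13]
  · have := hT.C1
    rw [this, h13]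

end

section

variable {ι : ℕ → Type} [∀ n, DecidableEq (ι n)]
variable {B : Base} {I : ∀ n, Finset (ι n)}
    {x : ∀ n, ι n → Inc} {line : ∀ n, ι n → ℕ} {ν : (Fin 6 → ℝ) → ℝ} {own : (Fin 2 → ℝ) → ℝ}
    {M k u₀ u₁ : ℝ} {w : ℝ → ℝ}

/-- **The table at one natural point**, from 848's limit: `Nv`, `Nt` are the derivatives of
`ν ∘ X`, `Nv + σ + (2 + k)` and `Nt + 2` those of the log density. -/
theorem ExtB.at_point (hE : ExtB B I x line ν own M k u₀ u₁ w)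
    {v t σ : ℝ} (hv0 : u₀ < v) (hv1 : v < u₁) (ht : 0 ≤ t) (hw : HasDerivAt w (-σ) v)
    {h : ℕ → ℝ} (hpos : ∀ l, 0 < h l) (h0 : Tendsto h atTop (𝓝 0))
    {lam g : (Fin 6 → ℝ) → ℝ} (htan : IsTan (LEG M) D6 ν (fun _ => X6 v (k * v) t) h lam)
    (hg : ∀ c ∈ D6, g c = lam c) {Nv Nt r0 r2 J : ℝ} (hL : Dl848.Lim g 1 k Nv Nt r0 r2 J)
    (hm : 0 < r2) :
    (k ≠ 1 → (Nv + σ + (2 + k)) - k / 2 * (Nt + 2) ≤ 2 * (1 - σ)) ∧
    (k = 1 → (Nv + σ + (2 + k)) - (Nt + 2) ≤ (1 - σ) + r2 ∧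
      (1 - σ < r2 → Nv + σ + (2 + k) ≤ 2 * (1 - σ))) := by
  have hk := hE.k0
  set S : ℝ := max 1 (1 / k) with hSdef
  have hS1 : 1 ≤ S := le_max_left _ _
  have hkS : 1 ≤ k * S := by
    have : 1 / k ≤ S := le_max_right _ _
    calc (1 : ℝ) = k * (1 / k) := by field_simp
      _ ≤ k * S := mul_le_mul_of_nonneg_left this hk.le
  constructor
  · intro hk1
    obtain ⟨r1, r3, h13, h13', hT⟩ := tanDec_of_lim_ne (Rp := 1) hk hk1 one_pos hS1 hkS hg hL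
    refine hE.cost_ne hv0 hv1 ht hw hpos h0 htan one_pos hS1 hkS hT hm ?_ ?_
    · linarith
    · linarith
  · intro hk1
    subst hk1
    have hT := tanDec_of_lim (Rp := 1) (R := 2 * S) one_pos one_pos hS1 hkS hg hL le_rfl
      (by rw [one_mul])
    have hB := hL.B one_pos one_pos (u := 1) (v := 0) (M := 2) (R := 4) (by norm_num) (by
      intro i
      have e : Dl848.T 1 1 1 0 = ![2, 1, 0, 1, 1, 1] := by
        refine Dl848.ext6 ?_ ?_ ?_ ?_ ?_ ?_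
        · show (0 : ℝ) + 1 * 1 + 1 * 1 = 2; norm_num
        · show (0 : ℝ) + 1 * 1 = 1; norm_num
        · rfl
        · show (0 : ℝ) + 1 * 1 = 1; norm_num
        · show (1 : ℝ) * 1 = 1; norm_num
        · show (1 : ℝ) * 1 = 1; norm_num
      rw [e]
      fin_cases i <;> norm_num)
    have hB0 := hL.B0 one_pos one_pos (v := 1) (M := 2) (R := 4) (by norm_num) (by norm_num)
    have e1 : (0 : ℝ) + 1 * 1 = 1 := by norm_num
    rw [e1, hB0] at hB
    obtain ⟨c1, c2⟩ := hE.cost_one hv0 hv1 ht hw hpos h0 htan one_pos hS1 hT hm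
      (Pv := Nv + σ + (2 + 1)) (Pt := Nt + 2) (by linarith) (by linarith)
    exact ⟨c1, c2⟩

end

end Crest.Agent.R138.AeT501
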