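import Crest.Agent.R138.AeT5_501
import Crest.Agent.R138.P4_120

/-!
# R138: the a.e. table (helper501)

`DlOut` = output of 848's decoupling theorem at almost every natural point.
`ExtB.ae_table` = the a.e. table over the frame-free interface, local own slope.
`ExtP.table` = 120's `Table`; `ExtP.false_of_DlOut`.
-/

set_option autoImplicit false
set_option linter.unusedVariables false
set_option linter.unusedSectionVars false

open Filter Topology MeasureTheory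
open scoped NNReal

namespace Crest.Agent.R138.AeT501

open Crest.Agent.R138.Ex926 Crest.Agent.R138.FM501 Crest.Agent.R138.Flg101
open Crest.Agent.R138.TwMaj480 Crest.Agent.R138.Tw628

/-- first order data of `ν` at the natural point `z = (v, t)`, `X = X6 v (k v) t` -/
def DlAt (ν : (Fin 6 → ℝ) → ℝ) (M k : ℝ) (z : ℝ × ℝ) : Prop :=
  ∃ (L : ℝ × ℝ →L[ℝ] ℝ) (r0 r2 J : ℝ),
    HasFDerivAt (fun z : ℝ × ℝ => ν (X6 z.1 (k * z.1) z.2)) L z ∧
    Tendsto (fun h : ℝ => (ν (X6 z.1 (k * z.1) z.2) - ν (X6 z.1 (k * z.1) z.2 + h • Dl848.e 2)) / h)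
      (𝓝[>] 0) (𝓝 r2) ∧
    ∀ h : ℕ → ℝ, (∀ l, 0 < h l) → Tendsto h atTop (𝓝 0) → ∀ lam : (Fin 6 → ℝ) → ℝ,
      IsTan (LEG M) D6 ν (fun _ => X6 z.1 (k * z.1) z.2) h lam →
      ∃ g : (Fin 6 → ℝ) → ℝ, (∀ c ∈ D6, g c = lam c) ∧
        Dl848.Lim g 1 k (L (1, 0)) (L (0, 1)) r0 r2 J

/-- output of the decoupling theorem -/
def DlOut (ν : (Fin 6 → ℝ) → ℝ) (M k : ℝ) : Prop :=
  ∀ᵐ z : ℝ × ℝ, 0 < z.1 → 0 < z.2 → (1 + k) * z.1 + z.2 < M → DlAt ν M k z

section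

variable {ι : ℕ → Type} [∀ n, DecidableEq (ι n)]
variable {B : Base} {I : ∀ n, Finset (ι n)}
    {x : ∀ n, ι n → Inc} {line : ∀ n, ι n → ℕ} {ν : (Fin 6 → ℝ) → ℝ} {own : (Fin 2 → ℝ) → ℝ}
    {M k u₀ u₁ : ℝ} {w : ℝ → ℝ}

/-- `w` is differentiable a.e. -/
theorem ExtB.ae_w (hE : ExtB B I x line ν own M k u₀ u₁ w) :
    ∀ᵐ v : ℝ, u₀ < v → v < u₁ → ∃ σ, HasDerivAt w (-σ) v := by
  have hlip : LipschitzOnWith 1 w (Set.Ioo u₀ u₁) := by
    refine LipschitzOnWith.of_dist_le_mul fun a ha b hb => ?_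
    rw [NNReal.coe_one, one_mul, Real.dist_eq, Real.dist_eq]
    rcases le_total a b with h | h
    · have := hE.w_lip a b ha.1 h hb.2
      rw [abs_of_nonneg this.1, abs_sub_comm, abs_of_nonneg (by linarith)]
      exact this.2
    · have := hE.w_lip b a hb.1 h ha.2
      rw [abs_sub_comm, abs_of_nonneg this.1, abs_of_nonneg (by linarith)]
      exact this.2
  filter_upwards [hlip.ae_differentiableWithinAt_of_mem] with v hv h0 h1
  have h2 := hv ⟨h0, h1⟩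
  have h3 := h2.differentiableAt (isOpen_Ioo.mem_nhds ⟨h0, h1⟩)
  exact ⟨-(deriv w v), by rw [neg_neg]; exact h3.hasDerivAt⟩

/-- the table at one point with first order data -/
theorem ExtB.table_at (hE : ExtB B I x line ν own M k u₀ u₁ w) {z : ℝ × ℝ} (hv0 : u₀ < z.1)
    (hv1 : z.1 < u₁) (ht : 0 < z.2) (hM : (1 + k) * z.1 + z.2 < M) {σ : ℝ}
    (hw : HasDerivAt w (-σ) z.1) (hD : DlAt ν M k z) :
    ∃ (m : ℝ) (D : ℝ × ℝ →L[ℝ] ℝ), 0 ≤ m ∧ m ≤ 1 ∧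
      Tendsto (fun h : ℝ => (ν (X6 z.1 (k * z.1) z.2) -
        ν (X6 z.1 (k * z.1) z.2 + h • Dl848.e 2)) / h) (𝓝[>] 0) (𝓝 m) ∧
      HasFDerivAt (fun z : ℝ × ℝ => ν (X6 z.1 (k * z.1) z.2) - w z.1 + (2 + k) * z.1 + 2 * z.2)
        D z ∧
      (0 < m → (k ≠ 1 → D (1, 0) - k / 2 * D (0, 1) ≤ 2 * (1 - σ)) ∧
        (k = 1 → D (1, 0) - D (0, 1) ≤ (1 - σ) + m ∧ (1 - σ < m → D (1, 0) ≤ 2 * (1 - σ)))) := by
  obtain ⟨v, t⟩ := z
  simp only at hv0 hv1 ht hM hw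
  obtain ⟨L, r0, r2, J, hL, hr2, H⟩ := hD
  have hvp : 0 ≤ v := hE.u0.trans hv0.le
  have hk := hE.k0
  have hkv : 0 ≤ k * v := mul_nonneg hk.le hvp
  have hMM : t + v + k * v < M := by linarith
  -- a tangent
  obtain ⟨φ, hφ, lam, htan⟩ := exists_tangent isClosed_D6 (P := LEG M) (ν := ν) (K := 6)
    (by norm_num) (nu_lip_of hE.lip) (X := X6 v (k * v) t)
    (fun C => X6_add_mem hvp hkv ht.le hMM C) (g := fun l : ℕ => 1 / ((l : ℝ) + 1))
    (fun l => by positivity) tendsto_one_div_add_atTop_nhds_zero_nat zero_mem_D6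
  set h : ℕ → ℝ := fun l => 1 / ((φ l : ℝ) + 1) with hh
  have hpos : ∀ l, 0 < h l := fun l => by simp only [hh]; positivity
  have h0 : Tendsto h atTop (𝓝 0) :=
    tendsto_one_div_add_atTop_nhds_zero_nat.comp hφ.tendsto_atTop
  obtain ⟨g, hg, hLim⟩ := H h hpos h0 lam htan
  -- the derivative of the log density
  have hw1 : HasFDerivAt (fun z : ℝ × ℝ => w z.1)
      ((ContinuousLinearMap.fst ℝ ℝ ℝ).smulRight (-σ)) (v, t) := by
    have h1 : HasFDerivAt w (ContinuousLinearMap.smulRight (1 : ℝ →L[ℝ] ℝ) (-σ)) v :=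
      hw.hasFDerivAt
    have h2 := h1.comp (v, t) (hasFDerivAt_fst (𝕜 := ℝ) (E := ℝ) (F := ℝ) (p := (v, t)))
    refine h2.congr_fderiv ?_
    ext <;> simp
  have hP : HasFDerivAt (fun z : ℝ × ℝ => ν (X6 z.1 (k * z.1) z.2) - w z.1 + (2 + k) * z.1 +
      2 * z.2) (L - (ContinuousLinearMap.fst ℝ ℝ ℝ).smulRight (-σ) +
        (2 + k) • ContinuousLinearMap.fst ℝ ℝ ℝ + (2 : ℝ) • ContinuousLinearMap.snd ℝ ℝ ℝ)
      (v, t) := by
    exact ((hL.sub hw1).add ((hasFDerivAt_fst (𝕜 := ℝ) (E := ℝ) (F := ℝ)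
      (p := (v, t))).const_mul (2 + k))).add
      ((hasFDerivAt_snd (𝕜 := ℝ) (E := ℝ) (F := ℝ) (p := (v, t))).const_mul 2)
  -- bounds for the rate
  have hquot : ∀ᶠ y : ℝ in 𝓝[>] (0 : ℝ), 0 ≤ (ν (X6 v (k * v) t) -
      ν (X6 v (k * v) t + y • Dl848.e 2)) / y ∧ (ν (X6 v (k * v) t) -
      ν (X6 v (k * v) t + y • Dl848.e 2)) / y ≤ 1 := by
    have h1 : ∀ᶠ y in 𝓝[>] (0 : ℝ), y < M - (t + v + k * v) := by
      refine Filter.Eventually.filter_mono nhdsWithin_le_nhds ?_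
      exact Iio_mem_nhds (by linarith)
    filter_upwards [self_mem_nhdsWithin, h1] with y hy h2
    have hy : 0 < y := hy
    have e0 : (X6 v (k * v) t + y • Dl848.e 2) 0 = t + v + k * v := by
      simp [X6, Dl848.e_20]
    have e1 : (X6 v (k * v) t + y • Dl848.e 2) 1 = t + k * v := by
      simp [X6, Dl848.e_21]
    have e2 : (X6 v (k * v) t + y • Dl848.e 2) 2 = t + y := by
      simp [X6, Dl848.e_22]
    have e3 : (X6 v (k * v) t + y • Dl848.e 2) 3 = t + v := by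
      simp [X6, Dl848.e_23]
    have e4 : (X6 v (k * v) t + y • Dl848.e 2) 4 = v := by
      simp [X6, Dl848.e_24]
    have e5 : (X6 v (k * v) t + y • Dl848.e 2) 5 = k * v := by
      simp [X6, Dl848.e_25]
    have m1 : X6 v (k * v) t ∈ LEG M := by
      rw [mem_LEG]
      refine ⟨fun a => ?_, ?_, ?_, ?_, ?_⟩
      · fin_cases a
        · show 0 ≤ t + v + k * v ∧ t + v + k * v ≤ M; constructor <;> linarith
        · show 0 ≤ t + k * v ∧ t + k * v ≤ M; constructor <;> linarith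
        · show 0 ≤ t ∧ t ≤ M; constructor <;> linarith
        · show 0 ≤ t + v ∧ t + v ≤ M; constructor <;> linarith
        · show 0 ≤ v ∧ v ≤ M; constructor <;> linarith
        · show 0 ≤ k * v ∧ k * v ≤ M; constructor <;> linarith
      · show t + v + k * v ≤ t + k * v + v; linarith
      · show t + v ≤ t + v; exact le_rfl
      · show t + v + k * v ≤ k * v + (t + v); linarith
      · show t + k * v ≤ k * v + t; linarith
    have m2 : X6 v (k * v) t + y • Dl848.e 2 ∈ LEG M := by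
      rw [mem_LEG, e0, e1, e2, e3, e4, e5]
      refine ⟨fun a => ?_, ?_, ?_, ?_, ?_⟩
      · fin_cases a
        · show 0 ≤ (X6 v (k * v) t + y • Dl848.e 2) 0 ∧ (X6 v (k * v) t + y • Dl848.e 2) 0 ≤ M
          rw [e0]; constructor <;> linarith
        · show 0 ≤ (X6 v (k * v) t + y • Dl848.e 2) 1 ∧ (X6 v (k * v) t + y • Dl848.e 2) 1 ≤ M
          rw [e1]; constructor <;> linarith
        · show 0 ≤ (X6 v (k * v) t + y • Dl848.e 2) 2 ∧ (X6 v (k * v) t + y • Dl848.e 2) 2 ≤ M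
          rw [e2]; constructor <;> linarith
        · show 0 ≤ (X6 v (k * v) t + y • Dl848.e 2) 3 ∧ (X6 v (k * v) t + y • Dl848.e 2) 3 ≤ M
          rw [e3]; constructor <;> linarith
        · show 0 ≤ (X6 v (k * v) t + y • Dl848.e 2) 4 ∧ (X6 v (k * v) t + y • Dl848.e 2) 4 ≤ M
          rw [e4]; constructor <;> linarith
        · show 0 ≤ (X6 v (k * v) t + y • Dl848.e 2) 5 ∧ (X6 v (k * v) t + y • Dl848.e 2) 5 ≤ M
          rw [e5]; constructor <;> linarith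
      · linarith
      · linarith
      · linarith
      · linarith
    have hle : X6 v (k * v) t ≤ X6 v (k * v) t + y • Dl848.e 2 := by
      refine Dl848.le6 ?_ ?_ ?_ ?_ ?_ ?_
      · rw [e0]; exact le_rfl
      · rw [e1]; exact le_rfl
      · rw [e2]; show t ≤ t + y; linarith
      · rw [e3]; exact le_rfl
      · rw [e4]; exact le_rfl
      · rw [e5]; exact le_rfl
    obtain ⟨l1, l2⟩ := hE.lip _ m1 _ m2 hle
    rw [Fin.sum_univ_six, e0, e1, e2, e3, e4, e5] at l2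
    have l3 : ν (X6 v (k * v) t) - ν (X6 v (k * v) t + y • Dl848.e 2) ≤ y := by
      have f0 : X6 v (k * v) t 0 = t + v + k * v := rfl
      have f1 : X6 v (k * v) t 1 = t + k * v := rfl
      have f2 : X6 v (k * v) t 2 = t := rfl
      have f3 : X6 v (k * v) t 3 = t + v := rfl
      have f4 : X6 v (k * v) t 4 = v := rfl
      have f5 : X6 v (k * v) t 5 = k * v := rfl
      rw [f0, f1, f2, f3, f4, f5] at l2
      linarith
    exact ⟨div_nonneg l1 hy.le, by rw [div_le_one hy]; exact l3⟩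
  refine ⟨r2, _, ge_of_tendsto hr2 (hquot.mono fun y hy => hy.1),
    le_of_tendsto hr2 (hquot.mono fun y hy => hy.2), hr2, hP, fun hm => ?_⟩
  obtain ⟨c1, c2⟩ := hE.at_point hv0 hv1 ht.le hw hpos h0 htan hg hLim hm
  have d1 : (L - (ContinuousLinearMap.fst ℝ ℝ ℝ).smulRight (-σ) +
      (2 + k) • ContinuousLinearMap.fst ℝ ℝ ℝ + (2 : ℝ) • ContinuousLinearMap.snd ℝ ℝ ℝ) (1, 0) =
      L (1, 0) + σ + (2 + k) := by
    simp
  have d2 : (L - (ContinuousLinearMap.fst ℝ ℝ ℝ).smulRight (-σ) +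
      (2 + k) • ContinuousLinearMap.fst ℝ ℝ ℝ + (2 : ℝ) • ContinuousLinearMap.snd ℝ ℝ ℝ) (0, 1) =
      L (0, 1) + 2 := by
    simp
  rw [d1, d2]
  exact ⟨c1, c2⟩

/-- **The a.e. table over the frame-free interface**, with local own slope `σ = -w'(v)`. -/
theorem ExtB.ae_table (hE : ExtB B I x line ν own M k u₀ u₁ w) (hDl : DlOut ν M k) :
    ∀ᵐ z : ℝ × ℝ, u₀ < z.1 → z.1 < u₁ → 0 < z.2 → (1 + k) * z.1 + z.2 < M →
      ∃ (σ m : ℝ) (D : ℝ × ℝ →L[ℝ] ℝ), HasDerivAt w (-σ) z.1 ∧ 0 ≤ σ ∧ σ ≤ 1 ∧ 0 ≤ m ∧ m ≤ 1 ∧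
      Tendsto (fun h : ℝ => (ν (X6 z.1 (k * z.1) z.2) -
        ν (X6 z.1 (k * z.1) z.2 + h • Dl848.e 2)) / h) (𝓝[>] 0) (𝓝 m) ∧
      HasFDerivAt (fun z : ℝ × ℝ => ν (X6 z.1 (k * z.1) z.2) - w z.1 + (2 + k) * z.1 + 2 * z.2)
        D z ∧
      (0 < m → (k ≠ 1 → D (1, 0) - k / 2 * D (0, 1) ≤ 2 * (1 - σ)) ∧
        (k = 1 → D (1, 0) - D (0, 1) ≤ (1 - σ) + m ∧ (1 - σ < m → D (1, 0) ≤ 2 * (1 - σ)))) := by
  have h1 : ∀ᵐ z : ℝ × ℝ, u₀ < z.1 → z.1 < u₁ → ∃ σ, HasDerivAt w (-σ) z.1 :=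
    Measure.quasiMeasurePreserving_fst.ae hE.ae_w
  filter_upwards [h1, hDl] with z hz1 hz2 hv0 hv1 ht hM
  obtain ⟨σ, hσ⟩ := hz1 hv0 hv1
  obtain ⟨s0, s1⟩ := hE.slope_mem hv0 hv1 hσ
  obtain ⟨m, D, a1, a2, a3, a4, a5⟩ := hE.table_at hv0 hv1 ht hM hσ
    (hz2 (lt_of_le_of_lt hE.u0 hv0) ht hM)
  exact ⟨σ, m, D, hσ, s0, s1, a1, a2, a3, a4, a5⟩

end

section

variable {ι : ℕ → Type} [∀ n, DecidableEq (ι n)]
variable {B : Base} {I : ∀ n, Finset (ι n)}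
    {x : ∀ n, ι n → Inc} {line : ∀ n, ι n → ℕ} {ν : (Fin 6 → ℝ) → ℝ} {own : (Fin 2 → ℝ) → ℝ}
    {M s b q k θ c₀ : ℝ}

/-- the rate of the a.e. table is 120's `mT` -/
theorem mT_eq {k v t m : ℝ} (hm0 : 0 ≤ m) (hm1 : m ≤ 1)
    (h : Tendsto (fun h : ℝ => (ν (X6 v (k * v) t) - ν (X6 v (k * v) t + h • Dl848.e 2)) / h)
      (𝓝[>] 0) (𝓝 m)) : P120.mT ν k v t = m := by
  refine P120.mT_eq_of_tendsto hm0 hm1 ?_
  have h1 : Tendsto (fun j : ℕ => 1 / ((j : ℝ) + 1)) atTop (𝓝[>] 0) := by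
    rw [tendsto_nhdsWithin_iff]
    exact ⟨tendsto_one_div_add_atTop_nhds_zero_nat,
      Eventually.of_forall fun j => by show (0 : ℝ) < 1 / ((j : ℝ) + 1); positivity⟩
  have h2 := h.comp h1
  refine h2.congr fun j => ?_
  show (ν (X6 v (k * v) t) - ν (X6 v (k * v) t + (1 / ((j : ℝ) + 1)) • Dl848.e 2)) /
    (1 / ((j : ℝ) + 1)) = ((j : ℝ) + 1) * (ν (P120.W k v t t 0) -
      ν (P120.W k v t t (1 / ((j : ℝ) + 1))))
  have e1 : X6 v (k * v) t + (1 / ((j : ℝ) + 1)) • Dl848.e 2 =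
      P120.W k v t t (1 / ((j : ℝ) + 1)) := by
    refine Dl848.ext6 ?_ ?_ ?_ ?_ ?_ ?_
    · simp [X6, P120.W, Dl848.e_20]; ring
    · simp [X6, P120.W, Dl848.e_21]; ring
    · simp [X6, P120.W, Dl848.e_22]
    · simp [X6, P120.W, Dl848.e_23]; ring
    · simp [X6, P120.W, Dl848.e_24]
    · simp [X6, P120.W, Dl848.e_25]
  rw [e1, P120.X6_eq]
  have hj : (0 : ℝ) < (j : ℝ) + 1 := by positivity
  field_simp

/-- **120's `Table`** -/
theorem ExtP.table_of_DlOut (hE : ExtP B I x line ν own M s b q k θ c₀) (hDl : DlOut ν M k) :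
    P120.Table ν k s M := by
  have h1 := hE.toB.ae_table hDl
  unfold P120.Table
  filter_upwards [h1] with z hz hzD hm
  obtain ⟨σ, m, D, hσ, s0, s1, m0, m1, hmt, hD, hc⟩ := hz hzD.1 hzD.2.1 hzD.2.2.1 hzD.2.2.2
  have hmT := mT_eq m0 m1 hmt
  have hder : HasDerivAt (fun v : ℝ => (1 - s) * (1 - v)) (-(1 - s)) z.1 := by
    have := ((hasDerivAt_id z.1).const_sub 1).const_mul (1 - s)
    simpa using this
  have hσs : σ = 1 - s := by
    have := hσ.unique hder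
    linarith
  rw [hmT] at hm ⊢
  refine ⟨D, hD, ?_, ?_⟩
  · intro hk1
    have := (hc hm).1 hk1
    rw [hσs] at this
    linarith
  · intro hk1
    obtain ⟨a1, a2⟩ := (hc hm).2 hk1
    rw [hσs] at a1 a2
    refine ⟨by linarith, fun hsm => ?_⟩
    have := a2 (by linarith)
    linarith

/-- `EXT` is contradictory, modulo the decoupling theorem -/
theorem ExtP.false_of_DlOut (hE : ExtP B I x line ν own M s b q k θ c₀) (hDl : DlOut ν M k) :
    False :=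
  P120.ExtP.false_of_table hE (ExtP.table_of_DlOut hE hDl)

end

end Crest.Agent.R138.AeT501
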