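import Mathlib
import Crest.Agent.R138.BCT2_191

/-!
# Trilinear restriction, file 3 (row 138, helper191): partial convolutions in three variables and
the one-step inequality (star)
-/

set_option autoImplicit false

open MeasureTheory Set
open scoped ENNReal FourierTransform SchwartzMap

namespace Crest.Agent.R138.BCT191

open Crest.Agent.R138.Defs (ee)

/-- three-space with the sup structure -/
abbrev P3 := Fin 3 → ℝ

/-- partial convolution in the variable `i` -/
noncomputable def Cv (i : Fin 3) (k : ℝ → ℝ≥0∞) (u : P3 → ℝ≥0∞) (y : P3) : ℝ≥0∞ :=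
  ∫⁻ z, k (y i - z) * u (Function.update y i z)

/-- positive linear operators commuting with integrals over a parameter -/
structure Good (T : (P3 → ℝ≥0∞) → P3 → ℝ≥0∞) : Prop where
  mono : ∀ u v : P3 → ℝ≥0∞, (∀ y, u y ≤ v y) → ∀ y, T u y ≤ T v y
  smul : ∀ c : ℝ≥0∞, c ≠ ⊤ → ∀ (u : P3 → ℝ≥0∞) (y : P3), T (fun y => c * u y) y = c * T u y
  meas : ∀ U : ℝ → P3 → ℝ≥0∞, Measurable (Function.uncurry U) →
    Measurable (Function.uncurry fun θ => T (U θ))
  int : ∀ U : ℝ → P3 → ℝ≥0∞, Measurable (Function.uncurry U) →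
    ∀ y, T (fun y => ∫⁻ θ, U θ y) y = ∫⁻ θ, T (U θ) y

lemma Good.meas1 {T : (P3 → ℝ≥0∞) → P3 → ℝ≥0∞} (h : Good T) {u : P3 → ℝ≥0∞} (hu : Measurable u) :
    Measurable (T u) := by
  have h1 := h.meas (fun _ => u) (hu.comp measurable_snd)
  exact h1.comp (by fun_prop : Measurable (fun y : P3 => ((0 : ℝ), y)))

lemma Good.comp {T T' : (P3 → ℝ≥0∞) → P3 → ℝ≥0∞} (h : Good T) (h' : Good T') :
    Good (fun u => T (T' u)) where
  mono u v huv y := h.mono _ _ (fun y => h'.mono _ _ huv y) y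
  smul c hc u y := by
    have : T' (fun y => c * u y) = fun y => c * T' u y := funext fun y => h'.smul c hc u y
    rw [this, h.smul c hc]
  meas U hU := h.meas _ (h'.meas U hU)
  int U hU y := by
    have : T' (fun y => ∫⁻ θ, U θ y) = fun y => ∫⁻ θ, T' (U θ) y := funext fun y => h'.int U hU y
    rw [this]
    exact h.int (fun θ => T' (U θ)) (h'.meas U hU) y

lemma Good.le_smul {T : (P3 → ℝ≥0∞) → P3 → ℝ≥0∞} (h : Good T) {u v : P3 → ℝ≥0∞} {c : ℝ≥0∞}
    (hc : c ≠ ⊤) (huv : ∀ y, u y ≤ c * v y) (y : P3) : T u y ≤ c * T v y := by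
  rw [← h.smul c hc]
  exact h.mono _ _ huv y

lemma good_Cv (i : Fin 3) {k : ℝ → ℝ≥0∞} (hk : Measurable k) : Good (Cv i k) where
  mono u v huv y := lintegral_mono fun _ => mul_le_mul_right (huv _) _
  smul c hc u y := by
    unfold Cv
    rw [← lintegral_const_mul' _ _ hc]
    refine lintegral_congr fun z => ?_
    ring
  meas U hU := by
    unfold Cv
    have h1 : Measurable (fun p : (ℝ × P3) × ℝ =>
        k (p.1.2 i - p.2) * U p.1.1 (Function.update p.1.2 i p.2)) := by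
      have h2 : Measurable (fun p : (ℝ × P3) × ℝ => Function.update p.1.2 i p.2) :=
        measurable_update'.comp (by fun_prop : Measurable (fun p : (ℝ × P3) × ℝ => (p.1.2, p.2)))
      have h3 : Measurable (fun p : (ℝ × P3) × ℝ => U p.1.1 (Function.update p.1.2 i p.2)) :=
        hU.comp ((measurable_fst.comp measurable_fst).prodMk h2)
      have h4 : Measurable (fun p : (ℝ × P3) × ℝ => k (p.1.2 i - p.2)) := by fun_prop
      exact h4.mul h3
    exact h1.lintegral_prod_right'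
  int U hU y := by
    unfold Cv
    have h1 : Measurable (fun p : ℝ × ℝ => k (y i - p.1) * U p.2 (Function.update y i p.1)) := by
      have h2 : Measurable (fun p : ℝ × ℝ => Function.update y i p.1) :=
        (measurable_update y).comp measurable_fst
      have h3 : Measurable (fun p : ℝ × ℝ => U p.2 (Function.update y i p.1)) :=
        hU.comp (measurable_snd.prodMk h2)
      have h4 : Measurable (fun p : ℝ × ℝ => k (y i - p.1)) := by fun_prop
      exact h4.mul h3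
    rw [← lintegral_lintegral_swap (f := fun z θ => k (y i - z) * U θ (Function.update y i z))
      h1.aemeasurable]
    refine lintegral_congr fun z => ?_
    rw [lintegral_const_mul]
    exact hU.comp (by fun_prop : Measurable (fun θ : ℝ => (θ, Function.update y i z)))

lemma Cv_mono_left (i : Fin 3) {k l : ℝ → ℝ≥0∞} (h : ∀ z, k z ≤ l z) (u : P3 → ℝ≥0∞) (y : P3) :
    Cv i k u y ≤ Cv i l u y := lintegral_mono fun _ => mul_le_mul_left (h _) _

lemma Cv_const_left (i : Fin 3) {k l : ℝ → ℝ≥0∞} {c : ℝ≥0∞} (hc : c ≠ ⊤) (h : ∀ z, k z ≤ c * l z)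
    (u : P3 → ℝ≥0∞) (y : P3) : Cv i k u y ≤ c * Cv i l u y := by
  unfold Cv
  rw [← lintegral_const_mul' _ _ hc]
  refine lintegral_mono fun z => ?_
  rw [← mul_assoc]
  exact mul_le_mul_left (h _) _

/-- partial convolutions in different variables commute -/
lemma Cv_comm {i j : Fin 3} (hij : i ≠ j) {k l : ℝ → ℝ≥0∞} (hk : Measurable k) (hl : Measurable l)
    {u : P3 → ℝ≥0∞} (hu : Measurable u) : Cv i k (Cv j l u) = Cv j l (Cv i k u) := by
  funext y
  unfold Cv
  have h1 : Measurable (fun p : ℝ × ℝ => k (y i - p.1) * (l (y j - p.2) *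
      u (Function.update (Function.update y i p.1) j p.2))) := by
    have h2 : Measurable (fun p : ℝ × ℝ => Function.update (Function.update y i p.1) j p.2) := by
      have h3 : Measurable (fun p : ℝ × ℝ => Function.update y i p.1) :=
        (measurable_update y).comp measurable_fst
      exact measurable_update'.comp (h3.prodMk measurable_snd)
    have h4 : Measurable (fun p : ℝ × ℝ => k (y i - p.1)) := by fun_prop
    have h5 : Measurable (fun p : ℝ × ℝ => l (y j - p.2)) := by fun_prop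
    exact h4.mul (h5.mul (hu.comp h2))
  have e1 : ∀ z, k (y i - z) * ∫⁻ z', l (Function.update y i z j - z') *
      u (Function.update (Function.update y i z) j z') =
      ∫⁻ z', k (y i - z) * (l (y j - z') * u (Function.update (Function.update y i z) j z')) := by
    intro z
    rw [Function.update_of_ne hij.symm, lintegral_const_mul]
    have h2 : Measurable (fun z' : ℝ => Function.update (Function.update y i z) j z') :=
      measurable_update _
    exact (by fun_prop : Measurable fun z' : ℝ => l (y j - z')).mul (hu.comp h2)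
  have e2 : ∀ z', l (y j - z') * ∫⁻ z, k (Function.update y j z' i - z) *
      u (Function.update (Function.update y j z') i z) =
      ∫⁻ z, k (y i - z) * (l (y j - z') * u (Function.update (Function.update y i z) j z')) := by
    intro z'
    rw [Function.update_of_ne hij, ← lintegral_const_mul]
    · refine lintegral_congr fun z => ?_
      rw [Function.update_comm hij.symm]
      ring
    · have h2 : Measurable (fun z : ℝ => Function.update (Function.update y j z') i z) :=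
        measurable_update _
      exact (by fun_prop : Measurable fun z : ℝ => k (y i - z)).mul (hu.comp h2)
  simp_rw [e1, e2]
  exact lintegral_lintegral_swap h1.aemeasurable

/-- composition of partial convolutions in the same variable -/
lemma Cv_comp {i : Fin 3} {k l m : ℝ → ℝ≥0∞} (hk : Measurable k) (hl : Measurable l)
    (h : ∀ t, ∫⁻ z, k (t - z) * l z ≤ m t) {u : P3 → ℝ≥0∞} (hu : Measurable u) (y : P3) :
    Cv i k (Cv i l u) y ≤ Cv i m u y := by
  unfold Cv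
  have hu' : Measurable (fun z : ℝ => u (Function.update y i z)) := hu.comp (measurable_update y)
  have e1 : ∀ z, k (y i - z) * ∫⁻ z', l (Function.update y i z i - z') *
      u (Function.update (Function.update y i z) i z') =
      ∫⁻ z', k (y i - z) * (l (z - z') * u (Function.update y i z')) := by
    intro z
    simp only [Function.update_self, Function.update_idem]
    rw [lintegral_const_mul _ (by fun_prop)]
  simp_rw [e1]
  rw [lintegral_lintegral_swap (by fun_prop)]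
  refine lintegral_mono fun z' => ?_
  have e2 : ∫⁻ z, k (y i - z) * (l (z - z') * u (Function.update y i z')) =
      (∫⁻ z, k (y i - z) * l (z - z')) * u (Function.update y i z') := by
    rw [← lintegral_mul_const _ (by fun_prop)]
    refine lintegral_congr fun z => ?_
    ring
  rw [e2]
  refine mul_le_mul_left ?_ _
  rw [← lintegral_add_left_eq_self (fun z => k (y i - z) * l (z - z')) z']
  refine le_trans (le_of_eq ?_) (h (y i - z'))
  refine lintegral_congr fun z => ?_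
  congr 2
  · ring
  · ring

/-! ### three-dimensional superpositions -/

section

set_option linter.unusedSectionVars false

variable {Ω : Type*} [MeasurableSpace Ω] (μ : Measure Ω)

/-- three-dimensional superposition of exponentials -/
noncomputable def S3 (a : Ω → ℂ) (γ : Ω → P3) (y : P3) : ℂ := ∫ ω, a ω * ee (∑ i, y i * γ ω i) ∂μ

/-- its square -/
noncomputable def F3 (a : Ω → ℂ) (γ : Ω → P3) (y : P3) : ℝ≥0∞ := ‖S3 μ a γ y‖ₑ ^ 2

/-- the amplitude with frozen variables -/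
noncomputable def frz (i : Fin 3) (y : P3) (a : Ω → ℂ) (γ : Ω → P3) (ω : Ω) : ℂ :=
  a ω * ee (∑ l ∈ Finset.univ.erase i, y l * γ ω l)

lemma S3_update (i : Fin 3) (a : Ω → ℂ) (γ : Ω → P3) (y : P3) (t : ℝ) :
    S3 μ a γ (Function.update y i t) = S1 μ (frz i y a γ) (fun ω => γ ω i) t := by
  unfold S3 S1 frz
  refine integral_congr_ae (Filter.Eventually.of_forall fun ω => ?_)
  simp only
  rw [mul_assoc, ← ee_add]
  congr 2
  rw [← Finset.add_sum_erase _ _ (Finset.mem_univ i), Function.update_self, add_comm]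
  congr 1
  refine Finset.sum_congr rfl fun l hl => ?_
  rw [Function.update_of_ne (Finset.ne_of_mem_erase hl)]

lemma S3_eq (i : Fin 3) (a : Ω → ℂ) (γ : Ω → P3) (y : P3) :
    S3 μ a γ y = S1 μ (frz i y a γ) (fun ω => γ ω i) (y i) := by
  rw [← S3_update, Function.update_eq_self]

/-- localisation in the variable `i` -/
noncomputable def loc3 (i : Fin 3) (r θ : ℝ) (a : Ω → ℂ) (γ : Ω → P3) (ω : Ω) : ℂ :=
  a ω * q0 (r * (γ ω i - θ))

lemma loc_frz (i : Fin 3) (r θ : ℝ) (y : P3) (a : Ω → ℂ) (γ : Ω → P3) :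
    loc r θ (frz i y a γ) (fun ω => γ ω i) = frz i y (loc3 i r θ a γ) γ := by
  funext ω
  unfold loc frz loc3
  ring

lemma frz_ne_zero {i : Fin 3} {y : P3} {a : Ω → ℂ} {γ : Ω → P3} {ω : Ω} (h : frz i y a γ ω ≠ 0) :
    a ω ≠ 0 := by
  intro h0
  apply h
  unfold frz
  rw [h0, zero_mul]

lemma loc3_ne_zero {i : Fin 3} {r θ : ℝ} {a : Ω → ℂ} {γ : Ω → P3} {ω : Ω}
    (h : loc3 i r θ a γ ω ≠ 0) : a ω ≠ 0 ∧ |r * (γ ω i - θ)| < 2 := by
  constructor
  · intro h0
    apply h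
    unfold loc3
    rw [h0, zero_mul]
  · by_contra h0
    push Not at h0
    apply h
    unfold loc3
    rw [q0_zero h0, mul_zero]

lemma measurable_frz (i : Fin 3) (y : P3) {a : Ω → ℂ} {γ : Ω → P3} (ha : Measurable a)
    (hγ : Measurable γ) : Measurable (frz i y a γ) := by
  unfold frz
  fun_prop

variable {μ}

lemma integrable_frz (i : Fin 3) (y : P3) {a : Ω → ℂ} {γ : Ω → P3} (ha : Integrable a μ)
    (hγ : Measurable γ) : Integrable (frz i y a γ) μ := by
  refine ha.mono (ha.aestronglyMeasurable.mul (by fun_prop)) ?_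
  exact Filter.Eventually.of_forall fun ω => by simp [frz]

lemma measurable_loc3 (i : Fin 3) (r θ : ℝ) {a : Ω → ℂ} {γ : Ω → P3} (ha : Measurable a)
    (hγ : Measurable γ) : Measurable (loc3 i r θ a γ) := by
  unfold loc3
  fun_prop

lemma integrable_loc3 [SFinite μ] (i : Fin 3) (r θ : ℝ) {a : Ω → ℂ} {γ : Ω → P3} (ha : Integrable a μ)
    (hγ : Measurable γ) : Integrable (loc3 i r θ a γ) μ :=
  integrable_loc (α := fun ω => γ ω i) ha (by fun_prop) r θ

lemma measurable_S3_family [SFinite μ] {Θ : Type*} [MeasurableSpace Θ] {a : Θ → Ω → ℂ}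
    {γ : Ω → P3} (ha : Measurable (Function.uncurry a)) (hγ : Measurable γ) :
    Measurable (fun p : Θ × P3 => S3 μ (a p.1) γ p.2) := by
  unfold S3
  have h : StronglyMeasurable (fun q : (Θ × P3) × Ω => a q.1.1 q.2 *
      ee (∑ i, q.1.2 i * γ q.2 i)) := by
    apply Measurable.stronglyMeasurable
    have h1 : Measurable (fun q : (Θ × P3) × Ω => a q.1.1 q.2) :=
      ha.comp (by fun_prop : Measurable (fun q : (Θ × P3) × Ω => (q.1.1, q.2)))
    fun_prop
  exact h.integral_prod_right'.measurable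

lemma measurable_F3_family [SFinite μ] {Θ : Type*} [MeasurableSpace Θ] {a : Θ → Ω → ℂ}
    {γ : Ω → P3} (ha : Measurable (Function.uncurry a)) (hγ : Measurable γ) :
    Measurable (Function.uncurry fun θ => F3 μ (a θ) γ) := by
  have h := measurable_S3_family (μ := μ) ha hγ
  have h2 : Measurable (fun p : Θ × P3 => ‖S3 μ (a p.1) γ p.2‖ₑ ^ 2) := h.enorm.pow_const 2
  exact h2

lemma measurable_F3 [SFinite μ] {a : Ω → ℂ} {γ : Ω → P3} (ha : Measurable a) (hγ : Measurable γ) :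
    Measurable (F3 μ a γ) := by
  have h : StronglyMeasurable (fun q : P3 × Ω => a q.2 * ee (∑ i, q.1 i * γ q.2 i)) := by
    apply Measurable.stronglyMeasurable
    fun_prop
  have h2 : Measurable (fun y : P3 => S3 μ a γ y) := h.integral_prod_right'.measurable
  exact h2.enorm.pow_const 2

lemma measurable_loc3_family (i : Fin 3) (r : ℝ) {a : Ω → ℂ} {γ : Ω → P3} (ha : Measurable a)
    (hγ : Measurable γ) : Measurable (Function.uncurry fun θ => loc3 i r θ a γ) := by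
  unfold loc3
  fun_prop

end

/-- locally constant property, three variables -/
theorem lc3 (M : ℕ) (hM : 2 ≤ M) : ∃ C : ℝ, 0 < C ∧ ∀ {Ω : Type*} [MeasurableSpace Ω]
    (μ : Measure Ω) [SFinite μ] (a : Ω → ℂ) (γ : Ω → P3), Integrable a μ → Measurable γ →
    ∀ (i : Fin 3) (r c : ℝ), 0 < r → (∀ ω, a ω ≠ 0 → r * |γ ω i - c| ≤ 1) → ∀ y,
      F3 μ a γ y ≤ ENNReal.ofReal C * Cv i (w M r) (F3 μ a γ) y := by
  obtain ⟨C, hC, h⟩ := lc1 M hM
  refine ⟨C, hC, ?_⟩
  intro Ω _ μ _ a γ ha hγ i r c hr hs y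
  have h1 := h μ (frz i y a γ) (fun ω => γ ω i) (integrable_frz i y ha hγ) (by fun_prop) r c hr
    (fun ω hω => hs ω (frz_ne_zero hω)) (y i)
  unfold Cv F3
  simp_rw [S3_update]
  rw [S3_eq μ i]
  exact h1

/-- Bessel, three variables -/
theorem be3 (M : ℕ) : ∃ C : ℝ, 0 < C ∧ ∀ {Ω : Type*} [MeasurableSpace Ω]
    (μ : Measure Ω) [SFinite μ] (a : Ω → ℂ) (γ : Ω → P3), Integrable a μ → Measurable γ →
    ∀ (i : Fin 3) (r : ℝ), 0 < r → ∀ y,
      ENNReal.ofReal r * ∫⁻ θ, F3 μ (loc3 i r θ a γ) γ y ≤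
        ENNReal.ofReal C * Cv i (w M r) (F3 μ a γ) y := by
  obtain ⟨C, hC, h⟩ := be1 M
  refine ⟨C, hC, ?_⟩
  intro Ω _ μ _ a γ ha hγ i r hr y
  have h1 := h μ (frz i y a γ) (fun ω => γ ω i) (integrable_frz i y ha hγ) (by fun_prop) r hr (y i)
  unfold Cv F3
  simp_rw [S3_update, S3_eq μ i, ← loc_frz]
  exact h1

/-- local orthogonality, three variables -/
theorem lo3 (N : ℕ) : ∃ C : ℝ, 0 < C ∧ ∀ {Ω : Type*} [MeasurableSpace Ω]
    (μ : Measure Ω) [SFinite μ] (a : Ω → ℂ) (γ : Ω → P3), Measurable a → Integrable a μ →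
    Measurable γ → ∀ (i : Fin 3) (r : ℝ), 0 < r → ∀ y,
      Cv i (w N r) (F3 μ a γ) y ≤
        ENNReal.ofReal C * (ENNReal.ofReal r * ∫⁻ θ, Cv i (w N r) (F3 μ (loc3 i r θ a γ) γ) y) := by
  obtain ⟨C, hC, h⟩ := lo1 N
  refine ⟨C, hC, ?_⟩
  intro Ω _ μ _ a γ ham ha hγ i r hr y
  have h1 := h μ (frz i y a γ) (fun ω => γ ω i) (measurable_frz i y ham hγ)
    (integrable_frz i y ha hγ) (by fun_prop) r hr (y i)
  unfold Cv F3
  simp_rw [S3_update, ← loc_frz]
  exact h1

/-- flatness in the direction `j` -/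
def Lip {Ω : Type*} (K : ℝ) (j : Fin 3) (a : Ω → ℂ) (γ : Ω → P3) : Prop :=
  ∀ ω ω', a ω ≠ 0 → a ω' ≠ 0 → ∀ δ : ℝ, (∀ i, i ≠ j → |γ ω i - γ ω' i| ≤ δ) →
    K * |γ ω j - γ ω' j| ≤ δ

lemma fin3_cases {i1 i2 j : Fin 3} (h12 : i1 ≠ i2) (h1 : i1 ≠ j) (h2 : i2 ≠ j) (i : Fin 3)
    (hi : i ≠ j) : i = i1 ∨ i = i2 := by
  omega

lemma conv_same' {N : ℕ} {r : ℝ} (hr : 0 < r) (t : ℝ) :
    ∫⁻ z, w N r (t - z) * w (2 + N) r z ≤ I 2 * w N r t := by
  have h := conv_same (N := N) hr (κ := w (2 + N) r) (C := 1) (fun z => by simp) t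
  rw [one_mul] at h
  refine le_trans (le_of_eq ?_) h
  refine lintegral_congr fun z => ?_
  ring

/-- the last algebraic step of `star` -/
lemma star_comm {N : ℕ} {r ρ : ℝ} (hr : 0 < r) {i1 i2 j : Fin 3} (h12 : i1 ≠ i2) (h1 : i1 ≠ j)
    (h2 : i2 ≠ j) {F : P3 → ℝ≥0∞} (hF : Measurable F) (y : P3) :
    Cv i2 (w N r) (Cv i1 (w N r) (Cv j (w N ρ) (Cv i1 (w (2 + N) r) (Cv i2 (w (2 + N) r) F)))) y ≤
      I 2 * I 2 * Cv i2 (w N r) (Cv i1 (w N r) (Cv j (w N ρ) F)) y := by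
  have hI : I 2 ≠ ⊤ := I_ne_top le_rfl
  have g1 := good_Cv i1 (measurable_w N r)
  have g2 := good_Cv i2 (measurable_w N r)
  have g1' := good_Cv i1 (measurable_w (2 + N) r)
  have g2' := good_Cv i2 (measurable_w (2 + N) r)
  have gj := good_Cv j (measurable_w N ρ)
  rw [← Cv_comm h1 (measurable_w _ _) (measurable_w _ _) (g2'.meas1 hF),
    ← Cv_comm h2 (measurable_w _ _) (measurable_w _ _) hF]
  have hG : Measurable (Cv j (w N ρ) F) := gj.meas1 hF
  set G := Cv j (w N ρ) F with hGdef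
  have e1 : ∀ u : P3 → ℝ≥0∞, Measurable u → ∀ y,
      Cv i1 (w N r) (Cv i1 (w (2 + N) r) u) y ≤ I 2 * Cv i1 (w N r) u y := by
    intro u hu y
    refine (Cv_comp (m := fun t => I 2 * w N r t) (measurable_w _ _) (measurable_w _ _)
      (conv_same' hr) hu y).trans ?_
    exact Cv_const_left i1 hI (fun z => le_rfl) u y
  have e2 : ∀ u : P3 → ℝ≥0∞, Measurable u → ∀ y,
      Cv i2 (w N r) (Cv i2 (w (2 + N) r) u) y ≤ I 2 * Cv i2 (w N r) u y := by
    intro u hu y
    refine (Cv_comp (m := fun t => I 2 * w N r t) (measurable_w _ _) (measurable_w _ _)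
      (conv_same' hr) hu y).trans ?_
    exact Cv_const_left i2 hI (fun z => le_rfl) u y
  calc Cv i2 (w N r) (Cv i1 (w N r) (Cv i1 (w (2 + N) r) (Cv i2 (w (2 + N) r) G))) y
      ≤ I 2 * Cv i2 (w N r) (Cv i1 (w N r) (Cv i2 (w (2 + N) r) G)) y :=
        g2.le_smul hI (e1 _ (g2'.meas1 hG)) y
    _ = I 2 * Cv i2 (w N r) (Cv i2 (w (2 + N) r) (Cv i1 (w N r) G)) y := by
        rw [Cv_comm h12 (measurable_w _ _) (measurable_w _ _) hG]
    _ ≤ I 2 * (I 2 * Cv i2 (w N r) (Cv i1 (w N r) G) y) :=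
        mul_le_mul_right (e2 _ (g1.meas1 hG) y) _
    _ = _ := by rw [mul_assoc]

/-- **the one-step inequality** -/
theorem star (N : ℕ) (hN : 2 ≤ N) : ∃ C : ℝ≥0∞, C ≠ ⊤ ∧ ∀ {Ω : Type*} [MeasurableSpace Ω]
    (μ : Measure Ω) [SFinite μ] (a : Ω → ℂ) (γ : Ω → P3), Measurable a → Integrable a μ →
    Measurable γ → ∀ (i1 i2 j : Fin 3), i1 ≠ i2 → i1 ≠ j → i2 ≠ j → ∀ r K : ℝ, 0 < r → 0 < K →
    Lip K j a γ → ∀ y,
      Cv i2 (w N r) (Cv i1 (w N r) (F3 μ a γ)) y ≤
        C * Cv i2 (w N r) (Cv i1 (w N r) (Cv j (w N (K * r)) (F3 μ a γ))) y := by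
  obtain ⟨c1, hc1, hlo⟩ := lo3 N
  obtain ⟨c2, hc2, hlc⟩ := lc3 N hN
  obtain ⟨c3, hc3, hbe⟩ := be3 (2 + N)
  have hI : I 2 ≠ ⊤ := I_ne_top le_rfl
  set C1 := ENNReal.ofReal c1 with hC1
  set C2 := ENNReal.ofReal c2 with hC2
  set C3 := ENNReal.ofReal c3 with hC3
  have hC1t : C1 ≠ ⊤ := ENNReal.ofReal_ne_top
  have hC2t : C2 ≠ ⊤ := ENNReal.ofReal_ne_top
  have hC3t : C3 ≠ ⊤ := ENNReal.ofReal_ne_top
  refine ⟨C1 * C1 * (C2 * 4) * C3 * C3 * (I 2 * I 2), by finiteness, ?_⟩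
  intro Ω _ μ _ a γ ham ha hγ i1 i2 j h12 h1 h2 r K hr hK hL y
  have hρ : 0 < K * r := by positivity
  set ρ := K * r with hρd
  set R := ENNReal.ofReal r with hR
  have hRt : R ≠ ⊤ := ENNReal.ofReal_ne_top
  have g1 := good_Cv i1 (measurable_w N r)
  have g2 := good_Cv i2 (measurable_w N r)
  have g1' := good_Cv i1 (measurable_w (2 + N) r)
  have gj := good_Cv j (measurable_w N ρ)
  have hA := g2.comp g1
  have hT := hA.comp gj
  have hT' := hT.comp g1'
  have mF : Measurable (F3 μ a γ) := measurable_F3 ham hγ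
  have m2 : Measurable (Function.uncurry fun θ => loc3 i2 r θ a γ) :=
    measurable_loc3_family i2 r ham hγ
  have mF2 : Measurable (Function.uncurry fun θ => F3 μ (loc3 i2 r θ a γ) γ) :=
    measurable_F3_family m2 hγ
  have m2' : ∀ θ, Measurable (loc3 i2 r θ a γ) := fun θ => measurable_loc3 i2 r θ ham hγ
  have n2' : ∀ θ, Integrable (loc3 i2 r θ a γ) μ := fun θ => integrable_loc3 i2 r θ ha hγ
  have mF2' : ∀ θ, Measurable (F3 μ (loc3 i2 r θ a γ) γ) := fun θ => measurable_F3 (m2' θ) hγ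
  have mF12 : ∀ θ2, Measurable (Function.uncurry fun θ =>
      F3 μ (loc3 i1 r θ (loc3 i2 r θ2 a γ) γ) γ) := fun θ2 =>
    measurable_F3_family (measurable_loc3_family i1 r (m2' θ2) hγ) hγ
  -- step 1
  have s1 : ∀ y, Cv i2 (w N r) (Cv i1 (w N r) (F3 μ a γ)) y ≤
      C1 * R * ∫⁻ θ2, Cv i2 (w N r) (Cv i1 (w N r) (F3 μ (loc3 i2 r θ2 a γ) γ)) y := by
    intro y
    rw [Cv_comm h12.symm (measurable_w _ _) (measurable_w _ _) mF]
    have e : ∀ θ2, Cv i2 (w N r) (Cv i1 (w N r) (F3 μ (loc3 i2 r θ2 a γ) γ)) =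
        Cv i1 (w N r) (Cv i2 (w N r) (F3 μ (loc3 i2 r θ2 a γ) γ)) := fun θ2 =>
      Cv_comm h12.symm (measurable_w _ _) (measurable_w _ _) (mF2' θ2)
    simp_rw [e]
    rw [← g1.int (fun θ2 => Cv i2 (w N r) (F3 μ (loc3 i2 r θ2 a γ) γ)) (g2.meas _ mF2)]
    refine g1.le_smul (by finiteness) (fun y => ?_) y
    rw [mul_assoc]
    exact hlo μ a γ ham ha hγ i2 r hr y
  -- step 2
  have s2 : ∀ θ2 y, Cv i2 (w N r) (Cv i1 (w N r) (F3 μ (loc3 i2 r θ2 a γ) γ)) y ≤
      C1 * R * ∫⁻ θ1, Cv i2 (w N r) (Cv i1 (w N r)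
        (F3 μ (loc3 i1 r θ1 (loc3 i2 r θ2 a γ) γ) γ)) y := by
    intro θ2 y
    rw [← g2.int (fun θ1 => Cv i1 (w N r) (F3 μ (loc3 i1 r θ1 (loc3 i2 r θ2 a γ) γ) γ))
      (g1.meas _ (mF12 θ2))]
    refine g2.le_smul (by finiteness) (fun y => ?_) y
    rw [mul_assoc]
    exact hlo μ _ γ (m2' θ2) (n2' θ2) hγ i1 r hr y
  -- step 3
  have s3 : ∀ θ1 θ2 y, Cv i2 (w N r) (Cv i1 (w N r)
        (F3 μ (loc3 i1 r θ1 (loc3 i2 r θ2 a γ) γ) γ)) y ≤
      C2 * 4 * Cv i2 (w N r) (Cv i1 (w N r) (Cv j (w N ρ)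
        (F3 μ (loc3 i1 r θ1 (loc3 i2 r θ2 a γ) γ) γ))) y := by
    intro θ1 θ2 y
    refine hA.le_smul (by finiteness) (fun y => ?_) y
    set a' := loc3 i1 r θ1 (loc3 i2 r θ2 a γ) γ with ha'
    have na' : Integrable a' μ := integrable_loc3 i1 r θ1 (n2' θ2) hγ
    by_cases hz : ∃ ω0, a' ω0 ≠ 0
    · obtain ⟨ω0, hω0⟩ := hz
      have hs : ∀ ω, a' ω ≠ 0 → ρ / 4 * |γ ω j - γ ω0 j| ≤ 1 := by
        intro ω hω
        obtain ⟨p1, p2⟩ := loc3_ne_zero hω
        obtain ⟨p3, p4⟩ := loc3_ne_zero p1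
        obtain ⟨q1, q2⟩ := loc3_ne_zero hω0
        obtain ⟨q3, q4⟩ := loc3_ne_zero q1
        have key : K * |γ ω j - γ ω0 j| ≤ 4 / r := by
          refine hL ω ω0 p3 q3 (4 / r) fun i hi => ?_
          rw [le_div_iff₀ hr]
          rcases fin3_cases h12 h1 h2 i hi with rfl | rfl
          · have e : (γ ω i - γ ω0 i) * r = r * (γ ω i - θ1) - r * (γ ω0 i - θ1) := by ring
            calc |γ ω i - γ ω0 i| * r = |(γ ω i - γ ω0 i) * r| := by
                  rw [abs_mul, abs_of_pos hr]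
              _ ≤ |r * (γ ω i - θ1)| + |r * (γ ω0 i - θ1)| := by rw [e]; exact abs_sub _ _
              _ ≤ 4 := by linarith
          · have e : (γ ω i - γ ω0 i) * r = r * (γ ω i - θ2) - r * (γ ω0 i - θ2) := by ring
            calc |γ ω i - γ ω0 i| * r = |(γ ω i - γ ω0 i) * r| := by
                  rw [abs_mul, abs_of_pos hr]
              _ ≤ |r * (γ ω i - θ2)| + |r * (γ ω0 i - θ2)| := by rw [e]; exact abs_sub _ _
              _ ≤ 4 := by linarith
        rw [le_div_iff₀ hr] at key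
        have : ρ / 4 * |γ ω j - γ ω0 j| = (K * |γ ω j - γ ω0 j| * r) / 4 := by
          rw [hρd]; ring
        rw [this]
        linarith
      have h3 := hlc μ a' γ na' hγ j (ρ / 4) (γ ω0 j) (by positivity) hs y
      refine h3.trans ?_
      rw [mul_assoc]
      refine mul_le_mul_right ?_ _
      refine Cv_const_left j (by finiteness) (fun z => ?_) _ y
      have h4 := w_comp (N := N) (r := ρ / 4) (ρ := ρ) (k := 4) (by positivity) (by linarith)
        (by linarith) z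
      refine h4.trans (le_of_eq ?_)
      congr 1
      norm_num
    · push Not at hz
      have : F3 μ a' γ y = 0 := by
        unfold F3 S3
        simp [hz]
      rw [this]
      exact bot_le
  -- step 4
  have s4 : ∀ θ2 y, R * ∫⁻ θ1, Cv i2 (w N r) (Cv i1 (w N r) (Cv j (w N ρ)
        (F3 μ (loc3 i1 r θ1 (loc3 i2 r θ2 a γ) γ) γ))) y ≤
      C3 * Cv i2 (w N r) (Cv i1 (w N r) (Cv j (w N ρ)
        (Cv i1 (w (2 + N) r) (F3 μ (loc3 i2 r θ2 a γ) γ)))) y := by
    intro θ2 y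
    rw [← hT.int _ (mF12 θ2), ← hT.smul R hRt]
    refine hT.le_smul hC3t (fun y => ?_) y
    exact hbe μ _ γ (n2' θ2) hγ i1 r hr y
  -- step 5
  have s5 : ∀ y, R * ∫⁻ θ2, Cv i2 (w N r) (Cv i1 (w N r) (Cv j (w N ρ)
        (Cv i1 (w (2 + N) r) (F3 μ (loc3 i2 r θ2 a γ) γ)))) y ≤
      C3 * Cv i2 (w N r) (Cv i1 (w N r) (Cv j (w N ρ)
        (Cv i1 (w (2 + N) r) (Cv i2 (w (2 + N) r) (F3 μ a γ))))) y := by
    intro y
    rw [← hT'.int _ mF2, ← hT'.smul R hRt]
    refine hT'.le_smul hC3t (fun y => ?_) y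
    exact hbe μ _ γ ha hγ i2 r hr y
  calc Cv i2 (w N r) (Cv i1 (w N r) (F3 μ a γ)) y
      ≤ C1 * R * ∫⁻ θ2, Cv i2 (w N r) (Cv i1 (w N r) (F3 μ (loc3 i2 r θ2 a γ) γ)) y := s1 y
    _ ≤ C1 * R * ∫⁻ θ2, C1 * (C2 * 4) * C3 * Cv i2 (w N r) (Cv i1 (w N r) (Cv j (w N ρ)
        (Cv i1 (w (2 + N) r) (F3 μ (loc3 i2 r θ2 a γ) γ)))) y := by
        refine mul_le_mul_right (lintegral_mono fun θ2 => ?_) _
        calc Cv i2 (w N r) (Cv i1 (w N r) (F3 μ (loc3 i2 r θ2 a γ) γ)) y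
            ≤ C1 * R * ∫⁻ θ1, Cv i2 (w N r) (Cv i1 (w N r)
              (F3 μ (loc3 i1 r θ1 (loc3 i2 r θ2 a γ) γ) γ)) y := s2 θ2 y
          _ ≤ C1 * R * ∫⁻ θ1, C2 * 4 * Cv i2 (w N r) (Cv i1 (w N r) (Cv j (w N ρ)
              (F3 μ (loc3 i1 r θ1 (loc3 i2 r θ2 a γ) γ) γ))) y :=
            mul_le_mul_right (lintegral_mono fun θ1 => s3 θ1 θ2 y) _
          _ = C1 * (C2 * 4) * (R * ∫⁻ θ1, Cv i2 (w N r) (Cv i1 (w N r) (Cv j (w N ρ)
              (F3 μ (loc3 i1 r θ1 (loc3 i2 r θ2 a γ) γ) γ))) y) := by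
            rw [lintegral_const_mul' _ _ (by finiteness)]
            ring
          _ ≤ C1 * (C2 * 4) * (C3 * Cv i2 (w N r) (Cv i1 (w N r) (Cv j (w N ρ)
              (Cv i1 (w (2 + N) r) (F3 μ (loc3 i2 r θ2 a γ) γ)))) y) :=
            mul_le_mul_right (s4 θ2 y) _
          _ = _ := by ring
    _ = C1 * (C1 * (C2 * 4) * C3) * (R * ∫⁻ θ2, Cv i2 (w N r) (Cv i1 (w N r) (Cv j (w N ρ)
        (Cv i1 (w (2 + N) r) (F3 μ (loc3 i2 r θ2 a γ) γ)))) y) := by
        rw [lintegral_const_mul' _ _ (by finiteness)]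
        ring
    _ ≤ C1 * (C1 * (C2 * 4) * C3) * (C3 * (I 2 * I 2 *
        Cv i2 (w N r) (Cv i1 (w N r) (Cv j (w N ρ) (F3 μ a γ))) y)) := by
        refine mul_le_mul_right ((s5 y).trans (mul_le_mul_right ?_ _)) _
        exact star_comm hr h12 h1 h2 mF y
    _ = _ := by ring

end Crest.Agent.R138.BCT191
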