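import Mathlib
import Crest.Agent.R138.BCT3_191

/-!
# Trilinear restriction, file 4 (row 138, helper191): the chain of scales
-/

set_option autoImplicit false

open MeasureTheory Set
open scoped ENNReal FourierTransform SchwartzMap

namespace Crest.Agent.R138.BCT191

open Crest.Agent.R138.Defs (ee)
open Crest.Agent.R138.Bct383 (sq_mul sq_mono sq_mul_self measurable_sq)

local notation "rt" => Crest.Agent.R138.Bct383.sq

/-- composition of partial convolutions, exact form -/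
lemma Cv_comp_eq {i : Fin 3} {k l : ℝ → ℝ≥0∞} (hk : Measurable k) (hl : Measurable l)
    {u : P3 → ℝ≥0∞} (hu : Measurable u) (y : P3) :
    Cv i k (Cv i l u) y = Cv i (fun t => ∫⁻ z, k (t - z) * l z) u y := by
  unfold Cv
  have hu' : Measurable (fun z : ℝ => u (Function.update y i z)) := hu.comp (measurable_update y)
  have e1 : ∀ z, k (y i - z) * ∫⁻ z', l (Function.update y i z i - z') *
      u (Function.update (Function.update y i z) i z') =
      ∫⁻ z', k (y i - z) * (l (z - z') * u (Function.update y i z')) := by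
    intro z
    simp only [Function.update_self, Function.update_idem]
    rw [lintegral_const_mul _ (by fun_prop)]
  simp_rw [e1]
  rw [lintegral_lintegral_swap (by fun_prop)]
  refine lintegral_congr fun z' => ?_
  have e2 : ∫⁻ z, k (y i - z) * (l (z - z') * u (Function.update y i z')) =
      (∫⁻ z, k (y i - z) * l (z - z')) * u (Function.update y i z') := by
    rw [← lintegral_mul_const _ (by fun_prop)]
    refine lintegral_congr fun z => ?_
    ring
  rw [e2]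
  congr 1
  rw [← lintegral_add_left_eq_self (fun z => k (y i - z) * l (z - z')) z']
  refine lintegral_congr fun z => ?_
  congr 2
  · ring
  · ring

/-- full convolution with a product kernel -/
noncomputable def CW (k : Fin 3 → ℝ → ℝ≥0∞) (u : P3 → ℝ≥0∞) : P3 → ℝ≥0∞ :=
  Cv 0 (k 0) (Cv 1 (k 1) (Cv 2 (k 2) u))

lemma good_CW {k : Fin 3 → ℝ → ℝ≥0∞} (hk : ∀ i, Measurable (k i)) : Good (CW k) :=
  (good_Cv 0 (hk 0)).comp ((good_Cv 1 (hk 1)).comp (good_Cv 2 (hk 2)))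

/-- the order of the partial convolutions is irrelevant -/
lemma CW_perm {k : Fin 3 → ℝ → ℝ≥0∞} (hk : ∀ i, Measurable (k i)) {i2 i1 j : Fin 3}
    (h12 : i1 ≠ i2) (h1 : i1 ≠ j) (h2 : i2 ≠ j) {u : P3 → ℝ≥0∞} (hu : Measurable u) :
    CW k u = Cv i2 (k i2) (Cv i1 (k i1) (Cv j (k j) u)) := by
  have m : ∀ i, Measurable (Cv i (k i) u) := fun i => (good_Cv i (hk i)).meas1 hu
  unfold CW
  fin_cases i2 <;> fin_cases i1 <;> fin_cases j <;> simp at h12 h1 h2
  · rfl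
  · show Cv 0 (k 0) (Cv 1 (k 1) (Cv 2 (k 2) u)) = Cv 0 (k 0) (Cv 2 (k 2) (Cv 1 (k 1) u))
    rw [Cv_comm (by decide) (hk 1) (hk 2) hu]
  · show Cv 0 (k 0) (Cv 1 (k 1) (Cv 2 (k 2) u)) = Cv 1 (k 1) (Cv 0 (k 0) (Cv 2 (k 2) u))
    rw [Cv_comm (by decide) (hk 0) (hk 1) (m 2)]
  · show Cv 0 (k 0) (Cv 1 (k 1) (Cv 2 (k 2) u)) = Cv 1 (k 1) (Cv 2 (k 2) (Cv 0 (k 0) u))
    rw [Cv_comm (by decide) (hk 0) (hk 1) (m 2), Cv_comm (by decide) (hk 0) (hk 2) hu]
  · show Cv 0 (k 0) (Cv 1 (k 1) (Cv 2 (k 2) u)) = Cv 2 (k 2) (Cv 0 (k 0) (Cv 1 (k 1) u))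
    rw [Cv_comm (by decide) (hk 1) (hk 2) hu, Cv_comm (by decide) (hk 0) (hk 2) (m 1)]
  · show Cv 0 (k 0) (Cv 1 (k 1) (Cv 2 (k 2) u)) = Cv 2 (k 2) (Cv 1 (k 1) (Cv 0 (k 0) u))
    rw [Cv_comm (by decide) (hk 1) (hk 2) hu, Cv_comm (by decide) (hk 0) (hk 2) (m 1),
      Cv_comm (by decide) (hk 0) (hk 1) hu]

/-- the other two indices -/
lemma exists_other (j : Fin 3) : ∃ i1 i2 : Fin 3, i1 ≠ i2 ∧ i1 ≠ j ∧ i2 ≠ j := by
  fin_cases j
  · exact ⟨1, 2, by decide, by decide, by decide⟩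
  · exact ⟨0, 2, by decide, by decide, by decide⟩
  · exact ⟨0, 1, by decide, by decide, by decide⟩

/-- the kernels of `G j` -/
noncomputable def kG (N : ℕ) (r ρ : ℝ) (j : Fin 3) : Fin 3 → ℝ → ℝ≥0∞ :=
  Function.update (fun _ => w N r) j (w N ρ)

lemma measurable_kG (N : ℕ) (r ρ : ℝ) (j i : Fin 3) : Measurable (kG N r ρ j i) := by
  unfold kG
  by_cases h : i = j
  · subst h; rw [Function.update_self]; fun_prop
  · rw [Function.update_of_ne h]; fun_prop

lemma kG_self (N : ℕ) (r ρ : ℝ) (j : Fin 3) : kG N r ρ j j = w N ρ := by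
  unfold kG; rw [Function.update_self]

lemma kG_of_ne (N : ℕ) (r ρ : ℝ) {j i : Fin 3} (h : i ≠ j) : kG N r ρ j i = w N r := by
  unfold kG; rw [Function.update_of_ne h]

/-- the average at scale `r` -/
noncomputable def Av (N : ℕ) (r : ℝ) (u : P3 → ℝ≥0∞) : P3 → ℝ≥0∞ := CW (fun _ => w N r) u

lemma good_Av (N : ℕ) (r : ℝ) : Good (Av N r) :=
  good_CW (k := fun _ => w N r) fun _ => measurable_w N r

/-- step one: thicken the weight in the direction `j` -/
theorem thicken (N : ℕ) (hN : 2 ≤ N) : ∃ C : ℝ≥0∞, C ≠ ⊤ ∧ ∀ {Ω : Type*} [MeasurableSpace Ω]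
    (μ : Measure Ω) [SFinite μ] (a : Ω → ℂ) (γ : Ω → P3), Measurable a → Integrable a μ →
    Measurable γ → ∀ (j : Fin 3) (r K : ℝ), 0 < r → 1 ≤ K → Lip K j a γ → ∀ y,
      Av N r (F3 μ a γ) y ≤ C * CW (kG N r (K * r) j) (F3 μ a γ) y := by
  obtain ⟨C, hC, h⟩ := star N hN
  refine ⟨C * Cc N N, ENNReal.mul_ne_top hC (Cc_ne_top hN hN), ?_⟩
  intro Ω _ μ _ a γ ham ha hγ j r K hr hK hL y
  obtain ⟨i1, i2, h12, h1, h2⟩ := exists_other j
  have hs := h μ a γ ham ha hγ i1 i2 j h12 h1 h2 r K hr (by linarith) hL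
  have mF : Measurable (F3 μ a γ) := measurable_F3 ham hγ
  set F := F3 μ a γ with hF
  have hρ : r ≤ K * r := by nlinarith
  set ρ := K * r with hρd
  have g1 := good_Cv i1 (measurable_w N r)
  have g2 := good_Cv i2 (measurable_w N r)
  have gj := good_Cv j (measurable_w N r)
  have gj' := good_Cv j (measurable_w N ρ)
  have e1 : Av N r F = Cv j (w N r) (Cv i2 (w N r) (Cv i1 (w N r) F)) :=
    CW_perm (k := fun _ => w N r) (fun _ => by fun_prop) (i2 := j) (i1 := i2) (j := i1)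
      h2 h12.symm h1.symm mF
  have e2 : CW (kG N r ρ j) F = Cv i2 (w N r) (Cv i1 (w N r) (Cv j (w N ρ) F)) := by
    rw [CW_perm (measurable_kG N r ρ j) h12 h1 h2 mF, kG_self, kG_of_ne _ _ _ h1,
      kG_of_ne _ _ _ h2]
  have e3 : Cv j (w N r) (Cv i2 (w N r) (Cv i1 (w N r) (Cv j (w N ρ) F))) =
      Cv i2 (w N r) (Cv i1 (w N r) (Cv j (w N r) (Cv j (w N ρ) F))) := by
    rw [Cv_comm h2.symm (measurable_w _ _) (measurable_w _ _) (g1.meas1 (gj'.meas1 mF)),
      Cv_comm h1.symm (measurable_w _ _) (measurable_w _ _) (gj'.meas1 mF)]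
  rw [e1, e2]
  calc Cv j (w N r) (Cv i2 (w N r) (Cv i1 (w N r) F)) y
      ≤ C * Cv j (w N r) (Cv i2 (w N r) (Cv i1 (w N r) (Cv j (w N ρ) F))) y :=
        gj.le_smul hC hs y
    _ = C * Cv i2 (w N r) (Cv i1 (w N r) (Cv j (w N r) (Cv j (w N ρ) F))) y := by rw [e3]
    _ ≤ C * (Cc N N * Cv i2 (w N r) (Cv i1 (w N r) (Cv j (w N ρ) F)) y) := by
        refine mul_le_mul_right ?_ _
        refine (g2.comp g1).le_smul (Cc_ne_top hN hN) (fun y => ?_) y
        refine (Cv_comp (m := fun t => Cc N N * w N ρ t) (measurable_w _ _) (measurable_w _ _)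
          (conv_le hN le_rfl hr hρ) mF y).trans ?_
        exact Cv_const_left j (Cc_ne_top hN hN) (fun z => le_rfl) F y
    _ = _ := by rw [mul_assoc]

/-- shift of the outer variable -/
lemma Cv_shift {N : ℕ} {ρ : ℝ} (hρ : 0 < ρ) (j : Fin 3) (u : P3 → ℝ≥0∞) (y : P3) (s : ℝ) :
    Cv j (w N ρ) u y ≤ ENNReal.ofReal (br ρ (s - y j) ^ N) *
      Cv j (w N ρ) u (Function.update y j s) := by
  unfold Cv
  rw [← lintegral_const_mul' _ _ ENNReal.ofReal_ne_top]
  refine lintegral_mono fun z => ?_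
  simp only [Function.update_self, Function.update_idem]
  rw [← mul_assoc]
  refine mul_le_mul_left ?_ _
  have h := w_shift (N := N) hρ (s - z) (y j - s)
  have e1 : s - z + (y j - s) = y j - z := by ring
  have e2 : br ρ (y j - s) = br ρ (s - y j) := by rw [← br_neg]; congr 1; ring
  rw [e1, e2] at h
  exact h

lemma conv_le' {N M : ℕ} (hN : 2 ≤ N) (hM : N ≤ M) {r ρ : ℝ} (hr : 0 < r) (hρ : r ≤ ρ) (t : ℝ) :
    ∫⁻ z, w M ρ (t - z) * w N r z ≤ Cc N M * w N ρ t := by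
  refine le_trans (le_of_eq ?_) (conv_le hN hM hr hρ t)
  rw [← lintegral_sub_left (f := fun z => w M ρ (t - z) * w N r z) t]
  refine lintegral_congr fun z => ?_
  rw [sub_sub_cancel, mul_comm]

/-- the inner averages of the Loomis-Whitney step -/
lemma inner_le {N : ℕ} (hN : 2 ≤ N) {r ρ : ℝ} (hr : 0 < r) (hρ : r ≤ ρ) {i1 i2 j : Fin 3}
    (h12 : i1 ≠ i2) (h1 : i1 ≠ j) (h2 : i2 ≠ j) {F : P3 → ℝ≥0∞} (hF : Measurable F) (y : P3) :
    Cv i1 (w (N + 2) ρ) (Cv i2 (w (N + 2) ρ) (CW (kG N r ρ j) F)) y ≤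
      Cc N (N + 2) * Cc N (N + 2) * Av N ρ F y := by
  have hC : Cc N (N + 2) ≠ ⊤ := Cc_ne_top hN (by omega)
  set C := Cc N (N + 2) with hCd
  have e2 : CW (kG N r ρ j) F = Cv i2 (w N r) (Cv i1 (w N r) (Cv j (w N ρ) F)) := by
    rw [CW_perm (measurable_kG N r ρ j) h12 h1 h2 hF, kG_self, kG_of_ne _ _ _ h1,
      kG_of_ne _ _ _ h2]
  have e1 : Av N ρ F = Cv i2 (w N ρ) (Cv i1 (w N ρ) (Cv j (w N ρ) F)) :=
    CW_perm (k := fun _ => w N ρ) (fun _ => by fun_prop) h12 h1 h2 hF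
  have hG : Measurable (Cv j (w N ρ) F) := (good_Cv j (measurable_w N ρ)).meas1 hF
  rw [e1, e2]
  set G := Cv j (w N ρ) F with hGd
  have g1 := good_Cv i1 (measurable_w N r)
  have g1' := good_Cv i1 (measurable_w (N + 2) ρ)
  have g2' := good_Cv i2 (measurable_w N ρ)
  have q : ∀ (i : Fin 3) (u : P3 → ℝ≥0∞), Measurable u → ∀ y,
      Cv i (w (N + 2) ρ) (Cv i (w N r) u) y ≤ C * Cv i (w N ρ) u y := by
    intro i u hu y
    refine (Cv_comp (m := fun t => C * w N ρ t) (measurable_w _ _) (measurable_w _ _)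
      (conv_le' hN (by omega) hr hρ) hu y).trans ?_
    exact Cv_const_left i hC (fun z => le_rfl) u y
  calc Cv i1 (w (N + 2) ρ) (Cv i2 (w (N + 2) ρ) (Cv i2 (w N r) (Cv i1 (w N r) G))) y
      ≤ C * Cv i1 (w (N + 2) ρ) (Cv i2 (w N ρ) (Cv i1 (w N r) G)) y :=
        g1'.le_smul hC (q i2 _ (g1.meas1 hG)) y
    _ = C * Cv i2 (w N ρ) (Cv i1 (w (N + 2) ρ) (Cv i1 (w N r) G)) y := by
        rw [Cv_comm h12 (measurable_w _ _) (measurable_w _ _) (g1.meas1 hG)]
    _ ≤ C * (C * Cv i2 (w N ρ) (Cv i1 (w N ρ) G) y) :=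
        mul_le_mul_right (g2'.le_smul hC (q i1 G hG) y) _
    _ = _ := by rw [mul_assoc]

/-- the point with coordinates -/
def pt3 (a b c : ℝ) : P3 := ![a, b, c]

lemma measurable_pt3 {α : Type*} [MeasurableSpace α] {a b c : α → ℝ} (ha : Measurable a)
    (hb : Measurable b) (hc : Measurable c) : Measurable (fun x => pt3 (a x) (b x) (c x)) := by
  unfold pt3
  rw [measurable_pi_iff]
  intro i
  fin_cases i
  · exact ha
  · exact hb
  · exact hc

lemma upd2 (x : P3) (a b c : ℝ) : Function.update (Function.update (Function.update x 0 a) 1 b) 2 c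
    = pt3 a b c := by
  funext i
  fin_cases i
  · simp [pt3]
  · simp [pt3]
  · simp [pt3]

/-- the full convolution as an iterated integral -/
lemma Cv3_eq (k0 k1 k2 : ℝ → ℝ≥0∞) (u : P3 → ℝ≥0∞) (x : P3) :
    Cv 0 k0 (Cv 1 k1 (Cv 2 k2 u)) x =
      ∫⁻ a, k0 (x 0 - a) * ∫⁻ b, k1 (x 1 - b) * ∫⁻ c, k2 (x 2 - c) * u (pt3 a b c) := by
  unfold Cv
  simp only [upd2]
  simp

lemma Cv12_eq (k1 k2 : ℝ → ℝ≥0∞) (u : P3 → ℝ≥0∞) (x : P3) :
    Cv 1 k1 (Cv 2 k2 u) x = ∫⁻ b, k1 (x 1 - b) * ∫⁻ c, k2 (x 2 - c) * u (pt3 (x 0) b c) := by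
  have e : ∀ b c, Function.update (Function.update x 1 b) 2 c = pt3 (x 0) b c := by
    intro b c
    have := upd2 x (x 0) b c
    rwa [Function.update_eq_self] at this
  unfold Cv
  simp only [e]
  simp

lemma Cv02_eq (k1 k2 : ℝ → ℝ≥0∞) (u : P3 → ℝ≥0∞) (x : P3) :
    Cv 0 k1 (Cv 2 k2 u) x = ∫⁻ a, k1 (x 0 - a) * ∫⁻ c, k2 (x 2 - c) * u (pt3 a (x 1) c) := by
  have e : ∀ a c, Function.update (Function.update x 0 a) 2 c = pt3 a (x 1) c := by
    intro a c
    funext i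
    fin_cases i <;> simp [pt3]
  unfold Cv
  simp only [e]
  simp

lemma Cv01_eq (k1 k2 : ℝ → ℝ≥0∞) (u : P3 → ℝ≥0∞) (x : P3) :
    Cv 0 k1 (Cv 1 k2 u) x = ∫⁻ a, k1 (x 0 - a) * ∫⁻ b, k2 (x 1 - b) * u (pt3 a b (x 2)) := by
  have e : ∀ a b, Function.update (Function.update x 0 a) 1 b = pt3 a b (x 2) := by
    intro a b
    funext i
    fin_cases i <;> simp [pt3]
  unfold Cv
  simp only [e]
  simp

/-- weighted Loomis-Whitney -/
lemma lw_weighted {l0 l1 l2 : ℝ → ℝ≥0∞} (h0 : Measurable l0) (h1 : Measurable l1)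
    (h2 : Measurable l2) {f g h : ℝ → ℝ → ℝ≥0∞} (hf : Measurable (Function.uncurry f))
    (hg : Measurable (Function.uncurry g)) (hh : Measurable (Function.uncurry h)) :
    ∫⁻ a, l0 a * ∫⁻ b, l1 b * ∫⁻ c, l2 c * (rt (f b c) * rt (g a c) * rt (h a b)) ≤
      rt (∫⁻ b, l1 b * ∫⁻ c, l2 c * f b c) * rt (∫⁻ a, l0 a * ∫⁻ c, l2 c * g a c) *
        rt (∫⁻ a, l0 a * ∫⁻ b, l1 b * h a b) := by
  have hf' : ∀ b, Measurable (f b) := fun b => hf.comp measurable_prodMk_left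
  have hg' : ∀ a, Measurable (g a) := fun b => hg.comp measurable_prodMk_left
  have hh' : ∀ a, Measurable (h a) := fun b => hh.comp measurable_prodMk_left
  have mrt : Measurable Bct383.sq := measurable_sq
  have key := Bct383.lw (f := fun b c => l1 b * (l2 c * f b c)) (g := fun a c => l0 a * (l2 c * g a c))
    (h := fun a b => l0 a * (l1 b * h a b))
    ((h1.comp measurable_fst).mul ((h2.comp measurable_snd).mul hf))
    ((h0.comp measurable_fst).mul ((h2.comp measurable_snd).mul hg))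
    ((h0.comp measurable_fst).mul ((h1.comp measurable_snd).mul hh))
  have e : ∀ a b c, rt (l1 b * (l2 c * f b c)) * rt (l0 a * (l2 c * g a c)) *
      rt (l0 a * (l1 b * h a b)) = l0 a * (l1 b * (l2 c * (rt (f b c) * rt (g a c) * rt (h a b)))) := by
    intro a b c
    simp only [sq_mul]
    calc Bct383.sq (l1 b) * (Bct383.sq (l2 c) * Bct383.sq (f b c)) *
          (Bct383.sq (l0 a) * (Bct383.sq (l2 c) * Bct383.sq (g a c))) *
          (Bct383.sq (l0 a) * (Bct383.sq (l1 b) * Bct383.sq (h a b)))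
        = (Bct383.sq (l0 a) * Bct383.sq (l0 a)) * ((Bct383.sq (l1 b) * Bct383.sq (l1 b)) *
          ((Bct383.sq (l2 c) * Bct383.sq (l2 c)) *
            (Bct383.sq (f b c) * Bct383.sq (g a c) * Bct383.sq (h a b)))) := by ring
      _ = _ := by rw [sq_mul_self, sq_mul_self, sq_mul_self]
  simp_rw [e] at key
  have q1 : ∀ b, ∫⁻ c, l1 b * (l2 c * f b c) = l1 b * ∫⁻ c, l2 c * f b c := fun b =>
    lintegral_const_mul _ (h2.mul (hf' b))
  have q2 : ∀ a, ∫⁻ c, l0 a * (l2 c * g a c) = l0 a * ∫⁻ c, l2 c * g a c := fun b =>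
    lintegral_const_mul _ (h2.mul (hg' b))
  have q3 : ∀ a, ∫⁻ b, l0 a * (l1 b * h a b) = l0 a * ∫⁻ b, l1 b * h a b := fun b =>
    lintegral_const_mul _ (h1.mul (hh' b))
  simp_rw [q1, q2, q3] at key
  refine le_trans (le_of_eq ?_) key
  have m3 : ∀ a b, Measurable (fun c => l2 c * (rt (f b c) * rt (g a c) * rt (h a b))) := by
    intro a b
    exact h2.mul (((mrt.comp (hf' b)).mul (mrt.comp (hg' a))).mul measurable_const)
  have m2 : ∀ a, Measurable (Function.uncurry fun b c =>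
      l2 c * (rt (f b c) * rt (g a c) * rt (h a b))) := by
    intro a
    refine (h2.comp measurable_snd).mul (((mrt.comp hf).mul ?_).mul ?_)
    · exact mrt.comp ((hg' a).comp measurable_snd)
    · exact mrt.comp ((hh' a).comp measurable_fst)
  have m2' : ∀ a, Measurable (fun b => ∫⁻ c, l2 c * (rt (f b c) * rt (g a c) * rt (h a b))) :=
    fun a => (m2 a).lintegral_prod_right'
  refine lintegral_congr fun a => ?_
  have m1 : Measurable (fun b => l1 b * ∫⁻ c, l2 c * (rt (f b c) * rt (g a c) * rt (h a b))) :=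
    h1.mul (m2' a)
  rw [← lintegral_const_mul _ m1]
  refine lintegral_congr fun b => ?_
  rw [← lintegral_const_mul _ (m3 a b), ← lintegral_const_mul _ ((m3 a b).const_mul _)]

/-- the square root of a number at least one -/
lemma rt_le_self {a : ℝ≥0∞} (h : 1 ≤ a) : rt a ≤ a := by
  have : (1 : ℝ≥0∞) ≤ Bct383.sq a := by
    rw [← Bct383.sq_one]; exact sq_mono h
  calc Bct383.sq a = 1 * Bct383.sq a := (one_mul _).symm
    _ ≤ Bct383.sq a * Bct383.sq a := mul_le_mul_left this _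
    _ = a := sq_mul_self a

/-- the multiscale product -/
noncomputable def Mr (N : ℕ) (r : ℝ) (F : Fin 3 → P3 → ℝ≥0∞) (y : P3) : ℝ≥0∞ :=
  rt (Av N r (F 0) y) * rt (Av N r (F 1) y) * rt (Av N r (F 2) y)

/-- **Loomis-Whitney step** -/
lemma lw_step {N : ℕ} (hN : 2 ≤ N) {r ρ : ℝ} (hr : 0 < r) (hρ : r ≤ ρ) {F : Fin 3 → P3 → ℝ≥0∞}
    (hF : ∀ j, Measurable (F j)) (x : P3) :
    CW (fun _ => w (N + 2 + N) ρ) (fun y => rt (CW (kG N r ρ 0) (F 0) y) *
      rt (CW (kG N r ρ 1) (F 1) y) * rt (CW (kG N r ρ 2) (F 2) y)) x ≤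
      (Cc N (N + 2)) ^ 3 * Mr N ρ F x := by
  have hρ0 : 0 < ρ := hr.trans_le hρ
  have mrt : Measurable Bct383.sq := measurable_sq
  have mG : ∀ j, Measurable (CW (kG N r ρ j) (F j)) := fun j =>
    (good_CW (measurable_kG N r ρ j)).meas1 (hF j)
  set G : Fin 3 → P3 → ℝ≥0∞ := fun j => CW (kG N r ρ j) (F j) with hG
  have hshift : ∀ (j : Fin 3) (y : P3) (s : ℝ), w (N + 2 + N) ρ (s - y j) * rt (G j y) ≤
      w (N + 2) ρ (s - y j) * rt (G j (Function.update y j s)) := by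
    intro j y s
    obtain ⟨i1, i2, h12, h1, h2⟩ := exists_other j
    have e : G j = Cv j (w N ρ) (Cv i2 (w N r) (Cv i1 (w N r) (F j))) := by
      have := CW_perm (measurable_kG N r ρ j) (i2 := j) (i1 := i2) (j := i1) h2 h12.symm h1.symm (hF j)
      rw [kG_self, kG_of_ne _ _ _ h1, kG_of_ne _ _ _ h2] at this
      exact this
    rw [e]
    have h3 := Cv_shift (N := N) hρ0 j (Cv i2 (w N r) (Cv i1 (w N r) (F j))) y s
    have h4 := sq_mono h3
    rw [sq_mul] at h4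
    have h5 : Bct383.sq (ENNReal.ofReal (br ρ (s - y j) ^ N)) ≤
        ENNReal.ofReal (br ρ (s - y j) ^ N) := by
      apply rt_le_self
      rw [← ENNReal.ofReal_one]
      exact ENNReal.ofReal_le_ofReal (one_le_pow₀ (one_le_br hρ0 _))
    calc w (N + 2 + N) ρ (s - y j) *
          Bct383.sq (Cv j (w N ρ) (Cv i2 (w N r) (Cv i1 (w N r) (F j))) y)
        ≤ w (N + 2 + N) ρ (s - y j) * (ENNReal.ofReal (br ρ (s - y j) ^ N) *
          Bct383.sq (Cv j (w N ρ) (Cv i2 (w N r) (Cv i1 (w N r) (F j))) (Function.update y j s))) :=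
          mul_le_mul_right (h4.trans (mul_le_mul_left h5 _)) _
      _ = (ENNReal.ofReal (br ρ (s - y j) ^ N) * w (N + 2 + N) ρ (s - y j)) *
          Bct383.sq (Cv j (w N ρ) (Cv i2 (w N r) (Cv i1 (w N r) (F j))) (Function.update y j s)) := by
          ring
      _ = _ := by rw [br_pow_mul_w hρ0]
  set W := w (N + 2 + N) ρ with hW
  set l := w (N + 2) ρ with hl
  have u0 : ∀ a b c, Function.update (pt3 a b c) 0 (x 0) = pt3 (x 0) b c := by
    intro a b c; funext i; fin_cases i <;> simp [pt3]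
  have u1 : ∀ a b c, Function.update (pt3 a b c) 1 (x 1) = pt3 a (x 1) c := by
    intro a b c; funext i; fin_cases i <;> simp [pt3]
  have u2 : ∀ a b c, Function.update (pt3 a b c) 2 (x 2) = pt3 a b (x 2) := by
    intro a b c; funext i; fin_cases i <;> simp [pt3]
  have hpt : ∀ a b c, W (x 0 - a) * (W (x 1 - b) * (W (x 2 - c) *
      (rt (G 0 (pt3 a b c)) * rt (G 1 (pt3 a b c)) * rt (G 2 (pt3 a b c))))) ≤
      l (x 0 - a) * (l (x 1 - b) * (l (x 2 - c) *
      (rt (G 0 (pt3 (x 0) b c)) * rt (G 1 (pt3 a (x 1) c)) * rt (G 2 (pt3 a b (x 2)))))) := by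
    intro a b c
    have k0 := hshift 0 (pt3 a b c) (x 0)
    have k1 := hshift 1 (pt3 a b c) (x 1)
    have k2 := hshift 2 (pt3 a b c) (x 2)
    rw [u0] at k0
    rw [u1] at k1
    rw [u2] at k2
    have p0 : pt3 a b c 0 = a := rfl
    have p1 : pt3 a b c 1 = b := rfl
    have p2 : pt3 a b c 2 = c := rfl
    rw [p0] at k0
    rw [p1] at k1
    rw [p2] at k2
    calc W (x 0 - a) * (W (x 1 - b) * (W (x 2 - c) *
          (Bct383.sq (G 0 (pt3 a b c)) * Bct383.sq (G 1 (pt3 a b c)) * Bct383.sq (G 2 (pt3 a b c)))))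
        = (W (x 0 - a) * Bct383.sq (G 0 (pt3 a b c))) * ((W (x 1 - b) *
          Bct383.sq (G 1 (pt3 a b c))) * (W (x 2 - c) * Bct383.sq (G 2 (pt3 a b c)))) := by ring
      _ ≤ (l (x 0 - a) * Bct383.sq (G 0 (pt3 (x 0) b c))) * ((l (x 1 - b) *
          Bct383.sq (G 1 (pt3 a (x 1) c))) * (l (x 2 - c) * Bct383.sq (G 2 (pt3 a b (x 2))))) :=
          mul_le_mul' k0 (mul_le_mul' k1 k2)
      _ = _ := by ring
  have hWt : ∀ t, W t ≠ ⊤ := fun t => w_ne_top _ _ _
  have hlt : ∀ t, l t ≠ ⊤ := fun t => w_ne_top _ _ _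
  have m0 : ∀ j (A B C : ℝ × ℝ → ℝ), Measurable A → Measurable B → Measurable C →
      Measurable (fun p => G j (pt3 (A p) (B p) (C p))) := fun j A B C hA hB hC =>
    (mG j).comp (measurable_pt3 hA hB hC)
  have key := lw_weighted (l0 := fun a => l (x 0 - a)) (l1 := fun b => l (x 1 - b))
    (l2 := fun c => l (x 2 - c)) (f := fun b c => G 0 (pt3 (x 0) b c))
    (g := fun a c => G 1 (pt3 a (x 1) c)) (h := fun a b => G 2 (pt3 a b (x 2)))
    (by fun_prop) (by fun_prop) (by fun_prop)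
    (m0 0 _ _ _ measurable_const measurable_fst measurable_snd)
    (m0 1 _ _ _ measurable_fst measurable_const measurable_snd)
    (m0 2 _ _ _ measurable_fst measurable_snd measurable_const)
  rw [← Cv12_eq l l (G 0) x, ← Cv02_eq l l (G 1) x, ← Cv01_eq l l (G 2) x] at key
  have i0 := inner_le hN hr hρ (i1 := 1) (i2 := 2) (j := 0) (by decide) (by decide) (by decide)
    (hF 0) x
  have i1 := inner_le hN hr hρ (i1 := 0) (i2 := 2) (j := 1) (by decide) (by decide) (by decide)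
    (hF 1) x
  have i2 := inner_le hN hr hρ (i1 := 0) (i2 := 1) (j := 2) (by decide) (by decide) (by decide)
    (hF 2) x
  have hfin : ∀ j, ∀ A : ℝ≥0∞, A ≤ Cc N (N + 2) * Cc N (N + 2) * Av N ρ (F j) x →
      rt A ≤ Cc N (N + 2) * rt (Av N ρ (F j) x) := by
    intro j A hA
    refine (sq_mono hA).trans (le_of_eq ?_)
    rw [sq_mul, sq_mul, sq_mul_self]
  calc CW (fun _ => W) (fun y => rt (G 0 y) * rt (G 1 y) * rt (G 2 y)) x
      = ∫⁻ a, ∫⁻ b, ∫⁻ c, W (x 0 - a) * (W (x 1 - b) * (W (x 2 - c) *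
        (rt (G 0 (pt3 a b c)) * rt (G 1 (pt3 a b c)) * rt (G 2 (pt3 a b c))))) := by
        unfold CW
        rw [Cv3_eq]
        refine lintegral_congr fun a => ?_
        rw [← lintegral_const_mul' _ _ (hWt _)]
        refine lintegral_congr fun b => ?_
        rw [← lintegral_const_mul' _ _ (hWt _), ← lintegral_const_mul' _ _ (hWt _)]
    _ ≤ ∫⁻ a, ∫⁻ b, ∫⁻ c, l (x 0 - a) * (l (x 1 - b) * (l (x 2 - c) *
        (rt (G 0 (pt3 (x 0) b c)) * rt (G 1 (pt3 a (x 1) c)) * rt (G 2 (pt3 a b (x 2)))))) :=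
        lintegral_mono fun a => lintegral_mono fun b => lintegral_mono fun c => hpt a b c
    _ = ∫⁻ a, l (x 0 - a) * ∫⁻ b, l (x 1 - b) * ∫⁻ c, l (x 2 - c) *
        (rt (G 0 (pt3 (x 0) b c)) * rt (G 1 (pt3 a (x 1) c)) * rt (G 2 (pt3 a b (x 2)))) := by
        refine lintegral_congr fun a => ?_
        rw [← lintegral_const_mul' _ _ (hlt _)]
        refine lintegral_congr fun b => ?_
        rw [← lintegral_const_mul' _ _ (hlt _), ← lintegral_const_mul' _ _ (hlt _)]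
    _ ≤ _ := key
    _ ≤ (Cc N (N + 2) * rt (Av N ρ (F 0) x)) * (Cc N (N + 2) * rt (Av N ρ (F 1) x)) *
        (Cc N (N + 2) * rt (Av N ρ (F 2) x)) :=
        mul_le_mul' (mul_le_mul' (hfin 0 _ i0) (hfin 1 _ i1)) (hfin 2 _ i2)
    _ = _ := by unfold Mr; ring

end Crest.Agent.R138.BCT191
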