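import Mathlib
import Crest.Agent.R138.BCT4_191

/-!
# Trilinear restriction, file 5 (row 138, helper191): iteration of the chain, axis theorem
-/

set_option autoImplicit false

open MeasureTheory Set
open scoped ENNReal FourierTransform SchwartzMap

namespace Crest.Agent.R138.BCT191

open Crest.Agent.R138.Defs (ee)
open Crest.Agent.R138.Bct383 (sq_mul sq_mono sq_mul_self measurable_sq)

local notation "rt" => Crest.Agent.R138.Bct383.sq

lemma rt_ne_top {a : ℝ≥0∞} (h : a ≠ ⊤) : rt a ≠ ⊤ := by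
  intro h0
  have := sq_mul_self a
  rw [h0] at this
  simp at this
  exact h this.symm

lemma measurable_Mr (N : ℕ) (r : ℝ) {F : Fin 3 → P3 → ℝ≥0∞} (hF : ∀ j, Measurable (F j)) :
    Measurable (Mr N r F) := by
  have mrt : Measurable Bct383.sq := measurable_sq
  have h : ∀ j, Measurable (fun y => rt (Av N r (F j) y)) := fun j =>
    mrt.comp ((good_Av N r).meas1 (hF j))
  exact ((h 0).mul (h 1)).mul (h 2)

/-- the chain step -/
theorem chain_step (N : ℕ) (hN : 2 ≤ N) : ∃ C : ℝ≥0∞, C ≠ ⊤ ∧ ∀ {Ω : Type*} [MeasurableSpace Ω]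
    (μ : Measure Ω) [SFinite μ] (a : Fin 3 → Ω → ℂ) (γ : Fin 3 → Ω → P3), (∀ j, Measurable (a j)) →
    (∀ j, Integrable (a j) μ) → (∀ j, Measurable (γ j)) → ∀ (r K : ℝ), 0 < r → 1 ≤ K →
    (∀ j, Lip K j (a j) (γ j)) → ∀ x,
      CW (fun _ => w (N + 2 + N) (K * r)) (Mr N r fun j => F3 μ (a j) (γ j)) x ≤
        C * Mr N (K * r) (fun j => F3 μ (a j) (γ j)) x := by
  obtain ⟨C, hC, h⟩ := thicken N hN
  have hrC := rt_ne_top hC
  have hCc : Cc N (N + 2) ≠ ⊤ := Cc_ne_top hN (by omega)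
  refine ⟨rt C ^ 3 * Cc N (N + 2) ^ 3, by finiteness, ?_⟩
  intro Ω _ μ _ a γ ham ha hγ r K hr hK hL x
  have mF : ∀ j, Measurable (F3 μ (a j) (γ j)) := fun j => measurable_F3 (ham j) (hγ j)
  have hρ : r ≤ K * r := by nlinarith
  have h1 : ∀ y, Mr N r (fun j => F3 μ (a j) (γ j)) y ≤ rt C ^ 3 *
      (rt (CW (kG N r (K * r) 0) (F3 μ (a 0) (γ 0)) y) *
      rt (CW (kG N r (K * r) 1) (F3 μ (a 1) (γ 1)) y) *
      rt (CW (kG N r (K * r) 2) (F3 μ (a 2) (γ 2)) y)) := by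
    intro y
    have q : ∀ j, rt (Av N r (F3 μ (a j) (γ j)) y) ≤
        rt C * rt (CW (kG N r (K * r) j) (F3 μ (a j) (γ j)) y) := by
      intro j
      rw [← sq_mul]
      exact sq_mono (h μ (a j) (γ j) (ham j) (ha j) (hγ j) j r K hr hK (hL j) y)
    calc Mr N r (fun j => F3 μ (a j) (γ j)) y
        ≤ (rt C * rt (CW (kG N r (K * r) 0) (F3 μ (a 0) (γ 0)) y)) *
          (rt C * rt (CW (kG N r (K * r) 1) (F3 μ (a 1) (γ 1)) y)) *
          (rt C * rt (CW (kG N r (K * r) 2) (F3 μ (a 2) (γ 2)) y)) :=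
          mul_le_mul' (mul_le_mul' (q 0) (q 1)) (q 2)
      _ = _ := by ring
  have h2 := (good_CW (k := fun _ => w (N + 2 + N) (K * r)) fun _ => measurable_w _ _).le_smul
    (by finiteness) h1 x
  refine h2.trans ?_
  rw [mul_assoc]
  exact mul_le_mul_right (lw_step hN hr hρ mF x) _

/-- replacing a product kernel by a convolution of two product kernels -/
lemma CW_ge {m k l : ℝ → ℝ≥0∞} (hm : Measurable m) (hk : Measurable k) (hl : Measurable l)
    {c : ℝ≥0∞} (hc : c ≠ ⊤) (h : ∀ t, m t ≤ c * ∫⁻ z, k (t - z) * l z) {u : P3 → ℝ≥0∞}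
    (hu : Measurable u) (y : P3) :
    CW (fun _ => m) u y ≤ c ^ 3 * CW (fun _ => k) (CW (fun _ => l) u) y := by
  have gm : ∀ i, Good (Cv i m) := fun i => good_Cv i hm
  have gk : ∀ i, Good (Cv i k) := fun i => good_Cv i hk
  have gl : ∀ i, Good (Cv i l) := fun i => good_Cv i hl
  have q : ∀ (i : Fin 3) (v : P3 → ℝ≥0∞), Measurable v → ∀ y,
      Cv i m v y ≤ c * Cv i k (Cv i l v) y := by
    intro i v hv y
    rw [Cv_comp_eq hk hl hv]
    exact Cv_const_left i hc h v y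
  unfold CW
  calc Cv 0 m (Cv 1 m (Cv 2 m u)) y
      ≤ c * Cv 0 m (Cv 1 m (Cv 2 k (Cv 2 l u))) y :=
        ((gm 0).comp (gm 1)).le_smul hc (q 2 u hu) y
    _ ≤ c * (c * Cv 0 m (Cv 1 k (Cv 1 l (Cv 2 k (Cv 2 l u)))) y) :=
        mul_le_mul_right ((gm 0).le_smul hc (q 1 _ ((gk 2).meas1 ((gl 2).meas1 hu))) y) _
    _ ≤ c * (c * (c * Cv 0 k (Cv 0 l (Cv 1 k (Cv 1 l (Cv 2 k (Cv 2 l u))))) y)) :=
        mul_le_mul_right (mul_le_mul_right (q 0 _ ((gk 1).meas1 ((gl 1).meas1 ((gk 2).meas1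
          ((gl 2).meas1 hu)))) y) _) _
    _ = c ^ 3 * Cv 0 k (Cv 1 k (Cv 2 k (Cv 0 l (Cv 1 l (Cv 2 l u))))) y := by
        rw [Cv_comm (i := 1) (j := 2) (by decide) hl hk ((gl 2).meas1 hu),
          Cv_comm (i := 0) (j := 1) (by decide) hl hk
            ((gk 2).meas1 ((gl 1).meas1 ((gl 2).meas1 hu))),
          Cv_comm (i := 0) (j := 2) (by decide) hl hk ((gl 1).meas1 ((gl 2).meas1 hu))]
        ring

/-- one step of the iteration -/
theorem iter_step (N : ℕ) (hN : 2 ≤ N) : ∃ C : ℝ≥0∞, C ≠ ⊤ ∧ ∀ {Ω : Type*} [MeasurableSpace Ω]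
    (μ : Measure Ω) [SFinite μ] (a : Fin 3 → Ω → ℂ) (γ : Fin 3 → Ω → P3), (∀ j, Measurable (a j)) →
    (∀ j, Integrable (a j) μ) → (∀ j, Measurable (γ j)) → ∀ (r K R : ℝ), 0 < r → 1 ≤ K →
    K * r ≤ R → (∀ j, Lip K j (a j) (γ j)) → ∀ x,
      CW (fun _ => w (N + 2 + N) R) (Mr N r fun j => F3 μ (a j) (γ j)) x ≤
        C * CW (fun _ => w (N + 2 + N) R) (Mr N (K * r) fun j => F3 μ (a j) (γ j)) x := by
  obtain ⟨C, hC, h⟩ := chain_step N hN
  set M := N + 2 + N with hM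
  have hc0 : I (M + M) ≠ 0 := I_ne_zero _
  have hct : I (M + M) ≠ ⊤ := I_ne_top (by omega)
  have hci : (I (M + M))⁻¹ ≠ ⊤ := ENNReal.inv_ne_top.2 hc0
  refine ⟨(I (M + M))⁻¹ ^ 3 * C, ENNReal.mul_ne_top (ENNReal.pow_ne_top hci) hC, ?_⟩
  intro Ω _ μ _ a γ ham ha hγ r K R hr hK hR hL x
  have mF : ∀ j, Measurable (F3 μ (a j) (γ j)) := fun j => measurable_F3 (ham j) (hγ j)
  have hρ0 : 0 < K * r := by positivity
  have h1 : ∀ t, w M R t ≤ (I (M + M))⁻¹ * ∫⁻ z, w M R (t - z) * w M (K * r) z := by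
    intro t
    have h2 := conv_ge (M := M) hρ0 hR t
    calc w M R t = (I (M + M))⁻¹ * (I (M + M) * w M R t) := by
          rw [← mul_assoc, ENNReal.inv_mul_cancel hc0 hct, one_mul]
      _ ≤ _ := mul_le_mul_right h2 _
  have h2 := CW_ge (m := w M R) (k := w M R) (l := w M (K * r)) (measurable_w _ _)
    (measurable_w _ _) (measurable_w _ _) hci h1 (measurable_Mr N r mF) x
  refine h2.trans ?_
  rw [mul_assoc]
  refine mul_le_mul_right ?_ _
  exact (good_CW (k := fun _ => w M R) fun _ => measurable_w _ _).le_smul hC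
    (h μ a γ ham ha hγ r K hr hK hL) x

/-- comparison of averages at comparable scales -/
lemma Av_comp {N : ℕ} {r R K : ℝ} (hr : 0 < r) (hR : r ≤ R) (hK : R ≤ K * r) (u : P3 → ℝ≥0∞)
    (y : P3) : Av N r u y ≤ ENNReal.ofReal K ^ 3 * Av N R u y := by
  have gr : ∀ i, Good (Cv i (w N r)) := fun i => good_Cv i (measurable_w N r)
  have q : ∀ (i : Fin 3) (v : P3 → ℝ≥0∞) (y : P3), Cv i (w N r) v y ≤
      ENNReal.ofReal K * Cv i (w N R) v y := fun i v y =>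
    Cv_const_left i (by finiteness) (w_comp hr hR hK) v y
  unfold Av CW
  calc Cv 0 (w N r) (Cv 1 (w N r) (Cv 2 (w N r) u)) y
      ≤ ENNReal.ofReal K * Cv 0 (w N r) (Cv 1 (w N r) (Cv 2 (w N R) u)) y :=
        ((gr 0).comp (gr 1)).le_smul (by finiteness) (q 2 u) y
    _ ≤ ENNReal.ofReal K * (ENNReal.ofReal K * Cv 0 (w N r) (Cv 1 (w N R) (Cv 2 (w N R) u)) y) :=
        mul_le_mul_right ((gr 0).le_smul (by finiteness) (q 1 _) y) _
    _ ≤ ENNReal.ofReal K * (ENNReal.ofReal K * (ENNReal.ofReal K *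
        Cv 0 (w N R) (Cv 1 (w N R) (Cv 2 (w N R) u)) y)) :=
        mul_le_mul_right (mul_le_mul_right (q 0 _ y) _) _
    _ = _ := by ring

/-- shift of all variables -/
lemma Av_shift {N : ℕ} {R : ℝ} (hR : 0 < R) {u : P3 → ℝ≥0∞} (hu : Measurable u) (x : P3)
    (a b c : ℝ) : Av N R u (pt3 a b c) ≤
      ENNReal.ofReal (br R (x 0 - a) ^ N) * (ENNReal.ofReal (br R (x 1 - b) ^ N) *
        (ENNReal.ofReal (br R (x 2 - c) ^ N) * Av N R u x)) := by
  have hw : ∀ i : Fin 3, Measurable ((fun _ : Fin 3 => w N R) i) := fun _ => measurable_w N R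
  have e0 : Av N R u = Cv 0 (w N R) (Cv 1 (w N R) (Cv 2 (w N R) u)) := rfl
  have e1 : Av N R u = Cv 1 (w N R) (Cv 0 (w N R) (Cv 2 (w N R) u)) :=
    CW_perm hw (by decide) (by decide) (by decide) hu
  have e2 : Av N R u = Cv 2 (w N R) (Cv 0 (w N R) (Cv 1 (w N R) u)) :=
    CW_perm hw (by decide) (by decide) (by decide) hu
  have s0 : Av N R u (pt3 a b c) ≤ ENNReal.ofReal (br R (x 0 - a) ^ N) *
      Av N R u (pt3 (x 0) b c) := by
    have := Cv_shift (N := N) hR 0 (Cv 1 (w N R) (Cv 2 (w N R) u)) (pt3 a b c) (x 0)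
    have e : Function.update (pt3 a b c) 0 (x 0) = pt3 (x 0) b c := by
      funext i; fin_cases i <;> simp [pt3]
    rw [e, ← e0] at this
    exact this
  have s1 : Av N R u (pt3 (x 0) b c) ≤ ENNReal.ofReal (br R (x 1 - b) ^ N) *
      Av N R u (pt3 (x 0) (x 1) c) := by
    have := Cv_shift (N := N) hR 1 (Cv 0 (w N R) (Cv 2 (w N R) u)) (pt3 (x 0) b c) (x 1)
    have e : Function.update (pt3 (x 0) b c) 1 (x 1) = pt3 (x 0) (x 1) c := by
      funext i; fin_cases i <;> simp [pt3]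
    rw [e, ← e1] at this
    exact this
  have s2 : Av N R u (pt3 (x 0) (x 1) c) ≤ ENNReal.ofReal (br R (x 2 - c) ^ N) *
      Av N R u x := by
    have := Cv_shift (N := N) hR 2 (Cv 0 (w N R) (Cv 1 (w N R) u)) (pt3 (x 0) (x 1) c) (x 2)
    have e : Function.update (pt3 (x 0) (x 1) c) 2 (x 2) = x := by
      funext i; fin_cases i <;> simp [pt3]
    rw [e, ← e2] at this
    exact this
  exact s0.trans (mul_le_mul_right (s1.trans (mul_le_mul_right s2 _)) _)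

/-- the last scale -/
lemma last_scale {N : ℕ} {R : ℝ} (hR : 0 < R) {F : Fin 3 → P3 → ℝ≥0∞} (hF : ∀ j, Measurable (F j))
    (x : P3) : CW (fun _ => w (N + 2 + N) R) (Mr N R F) x ≤ I 2 ^ 3 * Mr N R F x := by
  have h1 : ∀ a b c, w (N + 2 + N) R (x 0 - a) * (w (N + 2 + N) R (x 1 - b) *
      (w (N + 2 + N) R (x 2 - c) * Mr N R F (pt3 a b c))) ≤
      w 2 R (x 0 - a) * (w 2 R (x 1 - b) * (w 2 R (x 2 - c) * Mr N R F x)) := by
    intro a b c
    set B0 := ENNReal.ofReal (br R (x 0 - a) ^ N) with hB0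
    set B1 := ENNReal.ofReal (br R (x 1 - b) ^ N) with hB1
    set B2 := ENNReal.ofReal (br R (x 2 - c) ^ N) with hB2
    have hB : 1 ≤ B0 * (B1 * B2) := by
      have q : ∀ t, 1 ≤ ENNReal.ofReal (br R t ^ N) := fun t => by
        rw [← ENNReal.ofReal_one]
        exact ENNReal.ofReal_le_ofReal (one_le_pow₀ (one_le_br hR _))
      exact one_le_mul (q _) (one_le_mul (q _) (q _))
    have q : ∀ j, rt (Av N R (F j) (pt3 a b c)) ≤ rt (B0 * (B1 * B2)) * rt (Av N R (F j) x) := by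
      intro j
      rw [← sq_mul]
      refine sq_mono ((Av_shift hR (hF j) x a b c).trans (le_of_eq ?_))
      ring
    have hM : Mr N R F (pt3 a b c) ≤ (B0 * (B1 * B2)) * (B0 * (B1 * B2)) * Mr N R F x := by
      calc Mr N R F (pt3 a b c) ≤ (rt (B0 * (B1 * B2)) * rt (Av N R (F 0) x)) *
            (rt (B0 * (B1 * B2)) * rt (Av N R (F 1) x)) *
            (rt (B0 * (B1 * B2)) * rt (Av N R (F 2) x)) :=
            mul_le_mul' (mul_le_mul' (q 0) (q 1)) (q 2)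
        _ = (rt (B0 * (B1 * B2)) * rt (B0 * (B1 * B2))) * rt (B0 * (B1 * B2)) * Mr N R F x := by
            unfold Mr; ring
        _ ≤ _ := by
            rw [sq_mul_self]
            exact mul_le_mul_left (mul_le_mul_right (rt_le_self hB) _) _
    have hw : ∀ t, ENNReal.ofReal (br R t ^ N) * (ENNReal.ofReal (br R t ^ N) *
        w (N + 2 + N) R t) = w 2 R t := by
      intro t
      rw [br_pow_mul_w hR, show N + 2 = 2 + N by ring, br_pow_mul_w hR]
    calc w (N + 2 + N) R (x 0 - a) * (w (N + 2 + N) R (x 1 - b) *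
          (w (N + 2 + N) R (x 2 - c) * Mr N R F (pt3 a b c)))
        ≤ w (N + 2 + N) R (x 0 - a) * (w (N + 2 + N) R (x 1 - b) *
          (w (N + 2 + N) R (x 2 - c) * ((B0 * (B1 * B2)) * (B0 * (B1 * B2)) * Mr N R F x))) :=
          mul_le_mul_right (mul_le_mul_right (mul_le_mul_right hM _) _) _
      _ = (B0 * (B0 * w (N + 2 + N) R (x 0 - a))) * ((B1 * (B1 * w (N + 2 + N) R (x 1 - b))) *
          ((B2 * (B2 * w (N + 2 + N) R (x 2 - c))) * Mr N R F x)) := by ring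
      _ = _ := by rw [hB0, hB1, hB2, hw, hw, hw]
  have e : ∀ (i : Fin 3) (c : ℝ≥0∞), ∫⁻ a, w 2 R (x i - a) * c = I 2 * c := fun i c => by
    rw [lintegral_mul_const _ (by fun_prop), lintegral_sub_left (f := w 2 R), lintegral_w hR]
  have hwt : ∀ t, w (N + 2 + N) R t ≠ ⊤ := fun t => w_ne_top _ _ _
  calc CW (fun _ => w (N + 2 + N) R) (Mr N R F) x
      = ∫⁻ a, ∫⁻ b, ∫⁻ c, w (N + 2 + N) R (x 0 - a) * (w (N + 2 + N) R (x 1 - b) *
      (w (N + 2 + N) R (x 2 - c) * Mr N R F (pt3 a b c))) := by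
        unfold CW
        rw [Cv3_eq]
        refine lintegral_congr fun a => ?_
        rw [← lintegral_const_mul' _ _ (hwt _)]
        refine lintegral_congr fun b => ?_
        rw [← lintegral_const_mul' _ _ (hwt _), ← lintegral_const_mul' _ _ (hwt _)]
    _ ≤ ∫⁻ a, ∫⁻ b, ∫⁻ c, w 2 R (x 0 - a) * (w 2 R (x 1 - b) * (w 2 R (x 2 - c) * Mr N R F x)) :=
        lintegral_mono fun a => lintegral_mono fun b => lintegral_mono fun c => h1 a b c
    _ = ∫⁻ a, w 2 R (x 0 - a) * ∫⁻ b, w 2 R (x 1 - b) * ∫⁻ c, w 2 R (x 2 - c) * Mr N R F x := by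
        refine lintegral_congr fun a => ?_
        rw [← lintegral_const_mul' _ _ (w_ne_top _ _ _)]
        refine lintegral_congr fun b => ?_
        rw [← lintegral_const_mul' _ _ (w_ne_top _ _ _), ← lintegral_const_mul' _ _ (w_ne_top _ _ _)]
    _ = _ := by
        rw [e 2, e 1, e 0]
        ring

/-- the first scale -/
lemma first_scale (N : ℕ) (hN : 2 ≤ N) (L : ℝ) (hL : 1 ≤ L) : ∃ C : ℝ≥0∞, C ≠ ⊤ ∧
    ∀ {Ω : Type*} [MeasurableSpace Ω] (μ : Measure Ω) [SFinite μ] (a : Ω → ℂ) (γ : Ω → P3),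
    Measurable a → Integrable a μ → Measurable γ → (∀ ω, a ω ≠ 0 → ∀ i, |γ ω i| ≤ L) → ∀ y,
      F3 μ a γ y ≤ C * Av N 1 (F3 μ a γ) y := by
  obtain ⟨c, hc, h⟩ := lc3 N hN
  have hL0 : 0 < L := by linarith
  set C := ENNReal.ofReal c * ENNReal.ofReal L with hC
  have hCt : C ≠ ⊤ := by finiteness
  refine ⟨C ^ 3, by finiteness, ?_⟩
  intro Ω _ μ _ a γ ham ha hγ hb y
  have q : ∀ (i : Fin 3) (y : P3), F3 μ a γ y ≤ C * Cv i (w N 1) (F3 μ a γ) y := by
    intro i y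
    have h1 := h μ a γ ha hγ i L⁻¹ 0 (by positivity) (fun ω hω => by
      rw [sub_zero, inv_mul_le_iff₀ hL0, mul_one]
      exact hb ω hω i) y
    refine h1.trans ?_
    rw [hC, mul_assoc]
    refine mul_le_mul_right ?_ _
    refine Cv_const_left i (by finiteness) (fun z => ?_) _ y
    have hL1 : L⁻¹ ≤ 1 := inv_le_one_of_one_le₀ hL
    exact w_comp (by positivity) hL1 (by rw [mul_inv_cancel₀ hL0.ne']) z
  have g0 := good_Cv 0 (measurable_w N 1)
  have g1 := good_Cv 1 (measurable_w N 1)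
  calc F3 μ a γ y ≤ C * Cv 0 (w N 1) (F3 μ a γ) y := q 0 y
    _ ≤ C * (C * Cv 0 (w N 1) (Cv 1 (w N 1) (F3 μ a γ)) y) :=
        mul_le_mul_right (g0.le_smul hCt (q 1) y) _
    _ ≤ C * (C * (C * Cv 0 (w N 1) (Cv 1 (w N 1) (Cv 2 (w N 1) (F3 μ a γ))) y)) :=
        mul_le_mul_right (mul_le_mul_right ((g0.comp g1).le_smul hCt (q 2) y) _) _
    _ = _ := by unfold Av CW; ring

/-- **trilinear restriction, axis form** -/
theorem axis (N : ℕ) (hN : 2 ≤ N) (ε : ℝ) (hε : 0 < ε) : ∃ K : ℝ, 1 < K ∧ ∀ L : ℝ, 1 ≤ L →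
    ∃ C : ℝ, 0 < C ∧ ∀ {Ω : Type*} [MeasurableSpace Ω]
    (μ : Measure Ω) [SFinite μ] (a : Fin 3 → Ω → ℂ) (γ : Fin 3 → Ω → P3), (∀ j, Measurable (a j)) →
    (∀ j, Integrable (a j) μ) → (∀ j, Measurable (γ j)) → (∀ j, Lip K j (a j) (γ j)) →
    (∀ j ω, a j ω ≠ 0 → ∀ i, |γ j ω i| ≤ L) → ∀ R : ℝ, 1 ≤ R → ∀ x,
      CW (fun _ => w (N + 2 + N) R) (fun y => ‖S3 μ (a 0) (γ 0) y‖ₑ * ‖S3 μ (a 1) (γ 1) y‖ₑ *
        ‖S3 μ (a 2) (γ 2) y‖ₑ) x ≤
        ENNReal.ofReal (C * R ^ ε) * Mr N R (fun j => F3 μ (a j) (γ j)) x := by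
  obtain ⟨C1, hC1, hiter⟩ := iter_step N hN
  set c1 : ℝ := C1.toReal + 1 with hc1
  have hc1p : 1 ≤ c1 := by rw [hc1]; have := ENNReal.toReal_nonneg (a := C1); linarith
  have hc1le : C1 ≤ ENNReal.ofReal c1 := by
    rw [hc1, ENNReal.ofReal_add (by positivity) (by norm_num), ENNReal.ofReal_toReal hC1]
    exact le_self_add
  set K : ℝ := 1 + c1 ^ (1 / ε) with hK
  have hK1 : 1 < K := by
    have : 0 < c1 ^ (1 / ε) := by positivity
    linarith
  have hKε : c1 ≤ K ^ ε := by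
    calc c1 = (c1 ^ (1 / ε)) ^ ε := by
          rw [← Real.rpow_mul (by linarith)]
          field_simp
          rw [Real.rpow_one]
      _ ≤ K ^ ε := Real.rpow_le_rpow (by positivity) (by linarith) hε.le
  refine ⟨K, hK1, fun L hL => ?_⟩
  obtain ⟨C2, hC2, hfirst⟩ := first_scale N hN L hL
  have hI : I 2 ≠ ⊤ := I_ne_top le_rfl
  set D : ℝ≥0∞ := rt C2 ^ 3 * (rt (ENNReal.ofReal K ^ 3) ^ 3 * I 2 ^ 3) with hD
  have hDt : D ≠ ⊤ := by
    have h1 := rt_ne_top hC2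
    have h2 : rt (ENNReal.ofReal K ^ 3) ≠ ⊤ := rt_ne_top (by finiteness)
    finiteness
  refine ⟨D.toReal + 1, by positivity, ?_⟩
  intro Ω _ μ _ a γ ham ha hγ hLip hb R hR x
  have mF : ∀ j, Measurable (F3 μ (a j) (γ j)) := fun j => measurable_F3 (ham j) (hγ j)
  set F : Fin 3 → P3 → ℝ≥0∞ := fun j => F3 μ (a j) (γ j) with hF
  have hR0 : 0 < R := by linarith
  obtain ⟨m, hm1, hm2⟩ := exists_nat_pow_near hR hK1
  -- the chain
  have hchain : ∀ n : ℕ, K ^ n ≤ R → CW (fun _ => w (N + 2 + N) R) (Mr N 1 F) x ≤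
      C1 ^ n * CW (fun _ => w (N + 2 + N) R) (Mr N (K ^ n) F) x := by
    intro n
    induction n with
    | zero => intro _; simp
    | succ n ih =>
      intro hn
      have hn' : K ^ n ≤ R := (pow_le_pow_right₀ hK1.le (Nat.le_succ n)).trans hn
      refine (ih hn').trans ?_
      have h1 := hiter μ a γ ham ha hγ (K ^ n) K R (by positivity) hK1.le
        (by rw [← pow_succ']; exact hn) hLip x
      rw [← pow_succ'] at h1
      calc C1 ^ n * CW (fun _ => w (N + 2 + N) R) (Mr N (K ^ n) F) x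
          ≤ C1 ^ n * (C1 * CW (fun _ => w (N + 2 + N) R) (Mr N (K ^ (n + 1)) F) x) :=
            mul_le_mul_right h1 _
        _ = _ := by ring
  have hgood := good_CW (k := fun _ => w (N + 2 + N) R) fun _ => measurable_w (N + 2 + N) R
  -- first scale
  have hf : ∀ y, ‖S3 μ (a 0) (γ 0) y‖ₑ * ‖S3 μ (a 1) (γ 1) y‖ₑ * ‖S3 μ (a 2) (γ 2) y‖ₑ ≤
      rt C2 ^ 3 * Mr N 1 F y := by
    intro y
    have q : ∀ j, ‖S3 μ (a j) (γ j) y‖ₑ ≤ rt C2 * rt (Av N 1 (F j) y) := by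
      intro j
      rw [← sq_mul, ← Bct383.sq_sq ‖S3 μ (a j) (γ j) y‖ₑ]
      exact sq_mono (hfirst μ (a j) (γ j) (ham j) (ha j) (hγ j) (hb j) y)
    refine (mul_le_mul' (mul_le_mul' (q 0) (q 1)) (q 2)).trans (le_of_eq ?_)
    unfold Mr
    ring
  -- last scale
  have hlast : CW (fun _ => w (N + 2 + N) R) (Mr N (K ^ m) F) x ≤
      (rt (ENNReal.ofReal K ^ 3) ^ 3 * I 2 ^ 3) * Mr N R F x := by
    have q : ∀ y, Mr N (K ^ m) F y ≤ rt (ENNReal.ofReal K ^ 3) ^ 3 * Mr N R F y := by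
      intro y
      have q1 : ∀ j, rt (Av N (K ^ m) (F j) y) ≤
          rt (ENNReal.ofReal K ^ 3) * rt (Av N R (F j) y) := by
        intro j
        rw [← sq_mul]
        exact sq_mono (Av_comp (by positivity) hm1 (by rw [← pow_succ']; exact hm2.le) (F j) y)
      refine (mul_le_mul' (mul_le_mul' (q1 0) (q1 1)) (q1 2)).trans (le_of_eq ?_)
      unfold Mr
      ring
    have h2 : rt (ENNReal.ofReal K ^ 3) ≠ ⊤ := rt_ne_top (by finiteness)
    refine (hgood.le_smul (by finiteness) q x).trans ?_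
    rw [mul_assoc]
    exact mul_le_mul_right (last_scale hR0 mF x) _
  have hpow : C1 ^ m ≤ ENNReal.ofReal (R ^ ε) := by
    calc C1 ^ m ≤ ENNReal.ofReal c1 ^ m := pow_le_pow_left' hc1le m
      _ = ENNReal.ofReal (c1 ^ m) := by rw [ENNReal.ofReal_pow (by linarith)]
      _ ≤ ENNReal.ofReal (R ^ ε) := by
          refine ENNReal.ofReal_le_ofReal ?_
          calc c1 ^ m ≤ (K ^ ε) ^ m := pow_le_pow_left₀ (by linarith) hKε m
            _ = (K ^ m) ^ ε := by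
                rw [← Real.rpow_natCast, ← Real.rpow_natCast, ← Real.rpow_mul (by linarith),
                  ← Real.rpow_mul (by linarith), mul_comm]
            _ ≤ R ^ ε := Real.rpow_le_rpow (by positivity) hm1 hε.le
  have hrC2 := rt_ne_top hC2
  calc CW (fun _ => w (N + 2 + N) R) (fun y => ‖S3 μ (a 0) (γ 0) y‖ₑ * ‖S3 μ (a 1) (γ 1) y‖ₑ *
        ‖S3 μ (a 2) (γ 2) y‖ₑ) x
      ≤ rt C2 ^ 3 * CW (fun _ => w (N + 2 + N) R) (Mr N 1 F) x :=
        hgood.le_smul (by finiteness) hf x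
    _ ≤ rt C2 ^ 3 * (ENNReal.ofReal (R ^ ε) * ((rt (ENNReal.ofReal K ^ 3) ^ 3 * I 2 ^ 3) *
        Mr N R F x)) := by
        refine mul_le_mul_right ((hchain m hm1).trans (mul_le_mul' hpow hlast)) _
    _ = D * ENNReal.ofReal (R ^ ε) * Mr N R F x := by rw [hD]; ring
    _ ≤ _ := by
        refine mul_le_mul_left ?_ _
        rw [ENNReal.ofReal_mul (by positivity)]
        refine mul_le_mul_left ?_ _
        rw [ENNReal.ofReal_add (by positivity) (by norm_num), ENNReal.ofReal_toReal hDt]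
        exact le_self_add

end Crest.Agent.R138.BCT191
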