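import Mathlib
import Crest.Agent.R138.BCT5_191

/-!
# Trilinear restriction, file 6 (row 138, helper191): linear change of variables, three small caps
-/

set_option autoImplicit false

open MeasureTheory Set
open scoped ENNReal FourierTransform SchwartzMap

namespace Crest.Agent.R138.BCT191

open Crest.Agent.R138.Defs (ee ext E2 cyl)
open Crest.Agent.R138.Bct383 (sq_mul sq_mono sq_mul_self measurable_sq)

local notation "rt" => Crest.Agent.R138.Bct383.sq

/-! ### iterated integrals -/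

lemma measurable_pt3' {α : Type*} [MeasurableSpace α] {a b c : α → ℝ} (ha : Measurable a)
    (hb : Measurable b) (hc : Measurable c) : Measurable (fun x => pt3 (a x) (b x) (c x)) :=
  measurable_pt3 ha hb hc

lemma lintegral_fin2 {f : (Fin 2 → ℝ) → ℝ≥0∞} (hf : Measurable f) :
    ∫⁻ y, f y = ∫⁻ a, ∫⁻ b, f ![a, b] := by
  have h := (volume_preserving_finTwoArrow ℝ).symm
  rw [← h.lintegral_comp_emb (MeasurableEquiv.measurableEmbedding _)]
  rw [Measure.volume_eq_prod, lintegral_prod _ (by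
    exact (hf.comp (MeasurableEquiv.measurable _)).aemeasurable)]
  rfl

lemma lintegral_P3 {f : P3 → ℝ≥0∞} (hf : Measurable f) :
    ∫⁻ y, f y = ∫⁻ a, ∫⁻ b, ∫⁻ c, f (pt3 a b c) := by
  have h := (volume_preserving_piFinSuccAbove (fun _ : Fin 3 => ℝ) 0).symm
  rw [← h.lintegral_comp_emb (MeasurableEquiv.measurableEmbedding _)]
  rw [Measure.volume_eq_prod, lintegral_prod _ (by
    exact (hf.comp (MeasurableEquiv.measurable _)).aemeasurable)]
  refine lintegral_congr fun a => ?_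
  have h2 : Measurable (fun q : Fin 2 → ℝ =>
      f ((MeasurableEquiv.piFinSuccAbove (fun _ : Fin 3 => ℝ) 0).symm (a, q))) :=
    hf.comp ((MeasurableEquiv.measurable _).comp (by fun_prop))
  rw [lintegral_fin2 h2]
  refine lintegral_congr fun b => lintegral_congr fun c => ?_
  congr 1
  funext i
  fin_cases i <;> rfl

lemma lintegral_E2 {f : E2 → ℝ≥0∞} (hf : Measurable f) :
    ∫⁻ x, f x = ∫⁻ a, ∫⁻ b, f (WithLp.toLp 2 ![a, b]) := by
  have h := PiLp.volume_preserving_toLp (Fin 2)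
  rw [← h.lintegral_comp hf]
  have h2 : Measurable (fun q : Fin 2 → ℝ => f (WithLp.toLp 2 q)) := hf.comp h.measurable
  exact lintegral_fin2 h2

/-- the space-time point as an element of `P3` -/
def emb (p : E2 × ℝ) : P3 := pt3 (p.1 0) (p.1 1) p.2

lemma measurable_emb : Measurable emb := by
  unfold emb
  exact measurable_pt3 (by fun_prop) (by fun_prop) (by fun_prop)

lemma lintegral_emb {f : P3 → ℝ≥0∞} (hf : Measurable f) :
    ∫⁻ p : E2 × ℝ, f (emb p) = ∫⁻ y, f y := by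
  have h1 : Measurable (fun q : E2 × ℝ => f (emb q)) := hf.comp measurable_emb
  rw [Measure.volume_eq_prod, lintegral_prod _ h1.aemeasurable, lintegral_P3 hf]
  have h2 : Measurable (fun x : E2 => ∫⁻ t : ℝ, f (emb (x, t))) := h1.lintegral_prod_right'
  rw [lintegral_E2 h2]
  rfl

/-- linear change of variables -/
lemma lintegral_mulVec {A : Matrix (Fin 3) (Fin 3) ℝ} (hA : A.det ≠ 0) {f : P3 → ℝ≥0∞}
    (hf : Measurable f) :
    ENNReal.ofReal |A.det| * ∫⁻ y : P3, f (A.mulVec y) = ∫⁻ x : P3, f x := by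
  have h := Real.map_matrix_volume_pi_eq_smul_volume_pi hA
  have hm : Measurable (Matrix.toLin' A : P3 → P3) :=
    (LinearMap.continuous_of_finiteDimensional _).measurable
  have e : ∫⁻ y : P3, f (A.mulVec y) = ENNReal.ofReal |A.det⁻¹| * ∫⁻ x : P3, f x := by
    have e1 : ∫⁻ y : P3, f (A.mulVec y) = ∫⁻ y : P3, f (Matrix.toLin' A y) := by
      refine lintegral_congr fun y => ?_
      rw [Matrix.toLin'_apply]
    rw [e1, ← lintegral_map hf hm, h, lintegral_smul_measure, smul_eq_mul]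
  rw [e, ← mul_assoc, ← ENNReal.ofReal_mul (abs_nonneg _), ← abs_mul, mul_inv_cancel₀ hA, abs_one,
    ENNReal.ofReal_one, one_mul]

/-- the full convolution at the origin -/
lemma CW_zero {W : ℝ → ℝ≥0∞} (hW : Measurable W) (hWt : ∀ t, W t ≠ ⊤) (hWe : ∀ t, W (-t) = W t)
    {u : P3 → ℝ≥0∞} (hu : Measurable u) :
    CW (fun _ => W) u 0 = ∫⁻ y : P3, W (y 0) * (W (y 1) * (W (y 2) * u y)) := by
  have hm : Measurable (fun y : P3 => W (y 0) * (W (y 1) * (W (y 2) * u y))) := by fun_prop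
  rw [lintegral_P3 hm]
  unfold CW
  rw [Cv3_eq]
  refine lintegral_congr fun a => ?_
  rw [← lintegral_const_mul' _ _ (hWt _)]
  refine lintegral_congr fun b => ?_
  rw [← lintegral_const_mul' _ _ (hWt _), ← lintegral_const_mul' _ _ (hWt _)]
  refine lintegral_congr fun c => ?_
  have e : ∀ s : ℝ, W (0 - s) = W s := fun s => by rw [zero_sub, hWe]
  show W (0 - a) * (W (0 - b) * (W (0 - c) * u (pt3 a b c))) =
    W a * (W b * (W c * u (pt3 a b c)))
  rw [e, e, e]

/-! ### the extension operator as a superposition -/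

/-- the spectral point -/
noncomputable def Xi (h : E2 → ℝ) (ξ : E2) : P3 := pt3 (ξ 0) (ξ 1) (h ξ - h 0)

lemma measurable_Xi {h : E2 → ℝ} (hh : Measurable h) : Measurable (Xi h) := by
  unfold Xi
  exact measurable_pt3 (by fun_prop) (by fun_prop) (by fun_prop)

lemma inner_E2 (x ξ : E2) : inner ℝ x ξ = x 0 * ξ 0 + x 1 * ξ 1 := by
  rw [EuclideanSpace.inner_eq_star_dotProduct]
  simp [dotProduct, Fin.sum_univ_two]
  ring

lemma enorm_ext (h : E2 → ℝ) (g : E2 → ℂ) (p : E2 × ℝ) :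
    ‖ext h g p.1 p.2‖ₑ = ‖S3 volume g (Xi h) (emb p)‖ₑ := by
  have e : ext h g p.1 p.2 = ee (p.2 * h 0) * S3 volume g (Xi h) (emb p) := by
    unfold Defs.ext S3
    rw [← integral_const_mul]
    refine integral_congr_ae (Filter.Eventually.of_forall fun ξ => ?_)
    simp only
    have e1 : ee (p.2 * h 0) * (g ξ * ee (∑ i, emb p i * Xi h ξ i)) =
        g ξ * (ee (p.2 * h 0) * ee (∑ i, emb p i * Xi h ξ i)) := by ring
    rw [e1, ← ee_add]
    congr 2
    rw [inner_E2, Fin.sum_univ_three]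
    simp only [emb, Xi, pt3]
    simp
    ring
  rw [e, enorm_mul, enorm_ee, one_mul]

/-- superpositions under a linear map -/
lemma S3_mulVec (g : E2 → ℂ) (Γ : E2 → P3) (T : Matrix (Fin 3) (Fin 3) ℝ) (y : P3) :
    S3 volume g (fun ξ => T.mulVec (Γ ξ)) y = S3 volume g Γ (T.transpose.mulVec y) := by
  unfold S3
  refine integral_congr_ae (Filter.Eventually.of_forall fun ξ => ?_)
  simp only
  congr 2
  simp only [Matrix.mulVec, dotProduct, Fin.sum_univ_three, Matrix.transpose_apply]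
  ring

/-- conservation of energy -/
lemma energy {h : E2 → ℝ} (hh : Measurable h) {g : E2 → ℂ} (h1 : Integrable g) (h2 : MemLp g 2)
    (t : ℝ) : ∫⁻ x : E2, ‖ext h g x t‖ₑ ^ 2 = ∫⁻ ξ, ‖g ξ‖ₑ ^ 2 := by
  have m : Measurable (fun ξ : E2 => ee (t * h ξ)) := by fun_prop
  have f1 : Integrable (fun ξ => g ξ * ee (t * h ξ)) := by
    refine h1.mono (h1.aestronglyMeasurable.mul m.aestronglyMeasurable) ?_
    exact Filter.Eventually.of_forall fun ξ => by simp
  have f2 : MemLp (fun ξ => g ξ * ee (t * h ξ)) 2 := by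
    refine h2.mono (h2.aestronglyMeasurable.mul m.aestronglyMeasurable) ?_
    exact Filter.Eventually.of_forall fun ξ => by simp
  have e : ∀ x : E2, ext h g x t = 𝓕⁻ (fun ξ => g ξ * ee (t * h ξ)) x := by
    intro x
    rw [Real.fourierInv_eq']
    unfold Defs.ext
    refine integral_congr_ae (Filter.Eventually.of_forall fun ξ => ?_)
    simp only [smul_eq_mul]
    rw [real_inner_comm, add_comm, ee_add]
    have : Complex.exp (↑(2 * Real.pi * inner ℝ ξ x) * Complex.I) = ee (inner ℝ ξ x) := rfl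
    rw [this]
    ring
  simp_rw [e]
  have hP := R070.Cs145.eLpNorm_fourier f1 f2
  have q : ∀ u : E2 → ℂ, eLpNorm u 2 volume ^ 2 = ∫⁻ x, ‖u x‖ₑ ^ 2 := by
    intro u
    rw [eLpNorm_eq_lintegral_rpow_enorm_toReal (by norm_num) (by norm_num)]
    simp only [ENNReal.toReal_ofNat]
    rw [← ENNReal.rpow_natCast, ← ENNReal.rpow_mul]
    norm_num
  have e2 : ∀ x : E2, 𝓕⁻ (fun ξ => g ξ * ee (t * h ξ)) x =
      𝓕 (fun ξ => g ξ * ee (t * h ξ)) (-x) := fun x => by
    rw [Real.fourierInv_eq_fourier_neg]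
  simp_rw [e2]
  rw [lintegral_neg_eq_self (μ := (volume : Measure E2))
    (fun x => ‖𝓕 (fun ξ => g ξ * ee (t * h ξ)) x‖ₑ ^ 2), ← q, hP, q]
  refine lintegral_congr fun ξ => ?_
  simp

/-! ### geometry -/

/-- twice the signed area of the triangle -/
def area (v : Fin 3 → E2) : ℝ :=
  (v 1 0 - v 0 0) * (v 2 1 - v 0 1) - (v 2 0 - v 0 0) * (v 1 1 - v 0 1)

/-- the matrix of the normals -/
def Tm (v : Fin 3 → E2) : Matrix (Fin 3) (Fin 3) ℝ := Matrix.of fun j => pt3 (-(v j 0)) (-(v j 1)) 1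

lemma det_Tm (v : Fin 3 → E2) : (Tm v).det = area v := by
  rw [Matrix.det_fin_three]
  simp [Tm, pt3, area]
  ring

lemma Tm_mulVec (v : Fin 3 → E2) (X : P3) (j : Fin 3) :
    (Tm v).mulVec X j = -(v j 0) * X 0 - v j 1 * X 1 + X 2 := by
  simp [Matrix.mulVec, dotProduct, Fin.sum_univ_three, Tm, pt3]
  ring

lemma TmT_mulVec0 (v : Fin 3 → E2) (Y : P3) :
    (Tm v).transpose.mulVec Y 0 = -(v 0 0) * Y 0 - v 1 0 * Y 1 - v 2 0 * Y 2 := by
  simp [Matrix.mulVec, dotProduct, Fin.sum_univ_three, Tm, pt3]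
  ring

lemma TmT_mulVec1 (v : Fin 3 → E2) (Y : P3) :
    (Tm v).transpose.mulVec Y 1 = -(v 0 1) * Y 0 - v 1 1 * Y 1 - v 2 1 * Y 2 := by
  simp [Matrix.mulVec, dotProduct, Fin.sum_univ_three, Tm, pt3]
  ring

lemma TmT_mulVec2 (v : Fin 3 → E2) (Y : P3) :
    (Tm v).transpose.mulVec Y 2 = Y 0 + Y 1 + Y 2 := by
  simp [Matrix.mulVec, dotProduct, Fin.sum_univ_three, Tm, pt3]

lemma abs_sub_le_two {a b M : ℝ} (ha : |a| ≤ M) (hb : |b| ≤ M) : |a - b| ≤ 2 * M := by
  have := abs_sub a b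
  linarith

/-- the spectral displacement is controlled by the three normal components -/
lemma area_bound {v : Fin 3 → E2} {M m x y z : ℝ} (hM : ∀ j i, |v j i| ≤ M)
    (hm : ∀ k, |-(v k 0) * x - v k 1 * y + z| ≤ m) :
    |area v| * |x| ≤ 8 * M * m ∧ |area v| * |y| ≤ 8 * M * m := by
  have hM0 : 0 ≤ M := (abs_nonneg _).trans (hM 0 0)
  have hm0 : 0 ≤ m := (abs_nonneg _).trans (hm 0)
  set e : Fin 3 → ℝ := fun k => -(v k 0) * x - v k 1 * y + z with he
  have h10 : |e 1 - e 0| ≤ 2 * m := abs_sub_le_two (hm 1) (hm 0)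
  have h20 : |e 2 - e 0| ≤ 2 * m := abs_sub_le_two (hm 2) (hm 0)
  have a10 : |v 1 0 - v 0 0| ≤ 2 * M := abs_sub_le_two (hM 1 0) (hM 0 0)
  have a20 : |v 2 0 - v 0 0| ≤ 2 * M := abs_sub_le_two (hM 2 0) (hM 0 0)
  have b10 : |v 1 1 - v 0 1| ≤ 2 * M := abs_sub_le_two (hM 1 1) (hM 0 1)
  have b20 : |v 2 1 - v 0 1| ≤ 2 * M := abs_sub_le_two (hM 2 1) (hM 0 1)
  have e1 : area v * x = (e 2 - e 0) * (v 1 1 - v 0 1) - (e 1 - e 0) * (v 2 1 - v 0 1) := by
    simp only [he, area]; ring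
  have e2 : area v * y = (e 1 - e 0) * (v 2 0 - v 0 0) - (e 2 - e 0) * (v 1 0 - v 0 0) := by
    simp only [he, area]; ring
  constructor
  · rw [← abs_mul, e1]
    calc |(e 2 - e 0) * (v 1 1 - v 0 1) - (e 1 - e 0) * (v 2 1 - v 0 1)|
        ≤ |(e 2 - e 0) * (v 1 1 - v 0 1)| + |(e 1 - e 0) * (v 2 1 - v 0 1)| := abs_sub _ _
      _ ≤ (2 * m) * (2 * M) + (2 * m) * (2 * M) := by
          rw [abs_mul, abs_mul]
          gcongr
      _ = _ := by ring
  · rw [← abs_mul, e2]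
    calc |(e 1 - e 0) * (v 2 0 - v 0 0) - (e 2 - e 0) * (v 1 0 - v 0 0)|
        ≤ |(e 1 - e 0) * (v 2 0 - v 0 0)| + |(e 2 - e 0) * (v 1 0 - v 0 0)| := abs_sub _ _
      _ ≤ (2 * m) * (2 * M) + (2 * m) * (2 * M) := by
          rw [abs_mul, abs_mul]
          gcongr
      _ = _ := by ring

lemma norm_E2_le (x : E2) : ‖x‖ ≤ |x 0| + |x 1| := by
  rw [EuclideanSpace.norm_eq, Fin.sum_univ_two]
  rw [Real.sqrt_le_left (by positivity)]
  simp only [Real.norm_eq_abs, sq_abs]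
  nlinarith [abs_nonneg (x 0), abs_nonneg (x 1), sq_abs (x 0), sq_abs (x 1),
    mul_nonneg (abs_nonneg (x 0)) (abs_nonneg (x 1))]

lemma abs_coord_le (x : E2) (i : Fin 2) : |x i| ≤ ‖x‖ := by
  have := PiLp.norm_apply_le x i
  simpa using this

/-- mean value inequality for the phase -/
lemma phase_mvt {h : E2 → ℝ} {L δ : ℝ} (hd : Differentiable ℝ h)
    (hL : ∀ ξ ξ', ‖gradient h ξ - gradient h ξ'‖ ≤ L * ‖ξ - ξ'‖) (hL0 : 0 ≤ L) {c ξ ξ' : E2}
    (h1 : ‖ξ - c‖ ≤ δ) (h2 : ‖ξ' - c‖ ≤ δ) :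
    |h ξ - h ξ' - inner ℝ (gradient h c) (ξ - ξ')| ≤ L * δ * ‖ξ - ξ'‖ := by
  set f : E2 → ℝ := fun x => h x - inner ℝ (gradient h c) x with hf
  set f' : E2 → E2 →L[ℝ] ℝ := fun x => InnerProductSpace.toDual ℝ E2 (gradient h x - gradient h c)
    with hf'
  have hder : ∀ x ∈ Metric.closedBall c δ, HasFDerivWithinAt f (f' x) (Metric.closedBall c δ) x := by
    intro x _
    have e1 := (hd x).hasGradientAt.hasFDerivAt
    have e2 : HasFDerivAt (fun x : E2 => inner ℝ (gradient h c) x)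
        (InnerProductSpace.toDual ℝ E2 (gradient h c)) x := by
      have := (InnerProductSpace.toDual ℝ E2 (gradient h c)).hasFDerivAt (x := x)
      exact this
    have e3 := e1.sub e2
    rw [← map_sub] at e3
    exact e3.hasFDerivWithinAt
  have hb : ∀ x ∈ Metric.closedBall c δ, ‖f' x‖ ≤ L * δ := by
    intro x hx
    simp only [hf']
    rw [LinearIsometryEquiv.norm_map]
    refine (hL x c).trans (mul_le_mul_of_nonneg_left ?_ hL0)
    rwa [Metric.mem_closedBall, dist_eq_norm] at hx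
  have h3 := (convex_closedBall c δ).norm_image_sub_le_of_norm_hasFDerivWithin_le hder hb
    (x := ξ') (y := ξ) (by rwa [Metric.mem_closedBall, dist_eq_norm])
    (by rwa [Metric.mem_closedBall, dist_eq_norm])
  have e : f ξ - f ξ' = h ξ - h ξ' - inner ℝ (gradient h c) (ξ - ξ') := by
    simp only [hf]
    rw [inner_sub_right]
    ring
  rw [e, Real.norm_eq_abs] at h3
  exact h3

/-- flatness of a small cap after the change of variables -/
lemma lip_cap {h : E2 → ℝ} {L M K ν δ : ℝ} (hd : Differentiable ℝ h)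
    (hL : ∀ ξ ξ', ‖gradient h ξ - gradient h ξ'‖ ≤ L * ‖ξ - ξ'‖) (hL0 : 0 ≤ L) (hK : 1 < K)
    (hν : 0 < ν) {v : Fin 3 → E2} (hM : ∀ j i, |v j i| ≤ M) (hv : ν ≤ |area v|) {j : Fin 3} {c : E2}
    (hc : v j = gradient h c) {g : E2 → ℂ} (hg : ∀ ξ, g ξ ≠ 0 → ‖ξ - c‖ ≤ δ)
    (hδ : K * (L * δ * (16 * M)) ≤ ν) (hδ0 : 0 ≤ δ) :
    Lip K j g (fun ξ => (Tm v).mulVec (Xi h ξ)) := by
  intro ξ ξ' h1 h2 η hη
  have hM0 : 0 ≤ M := (abs_nonneg _).trans (hM 0 0)
  obtain ⟨i0, hi0⟩ : ∃ i : Fin 3, i ≠ j := exists_ne j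
  have hη0 : 0 ≤ η := (abs_nonneg _).trans (hη i0 hi0)
  set x := ξ 0 - ξ' 0 with hx
  set y := ξ 1 - ξ' 1 with hy
  set z := h ξ - h ξ' with hz
  have hE : ∀ k, (Tm v).mulVec (Xi h ξ) k - (Tm v).mulVec (Xi h ξ') k =
      -(v k 0) * x - v k 1 * y + z := by
    intro k
    rw [Tm_mulVec, Tm_mulVec]
    simp only [Xi, pt3, hx, hy, hz]
    simp
    ring
  have hEj : |-(v j 0) * x - v j 1 * y + z| ≤ L * δ * ‖ξ - ξ'‖ := by
    have := phase_mvt hd hL hL0 (hg ξ h1) (hg ξ' h2)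
    rw [← hc, inner_E2] at this
    refine le_trans (le_of_eq ?_) this
    congr 1
    simp only [hx, hy, hz, PiLp.sub_apply]
    ring
  set m := max η |-(v j 0) * x - v j 1 * y + z| with hm
  have hmall : ∀ k, |-(v k 0) * x - v k 1 * y + z| ≤ m := by
    intro k
    by_cases hk : k = j
    · rw [hk]; exact le_max_right _ _
    · rw [← hE k]; exact (hη k hk).trans (le_max_left _ _)
  obtain ⟨b1, b2⟩ := area_bound hM hmall
  have hn : ‖ξ - ξ'‖ ≤ |x| + |y| := norm_E2_le (ξ - ξ')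
  have h3 : ν * ‖ξ - ξ'‖ ≤ 16 * M * m := by
    have hA : 0 ≤ |area v| := abs_nonneg _
    calc ν * ‖ξ - ξ'‖ ≤ |area v| * (|x| + |y|) := by gcongr
      _ = |area v| * |x| + |area v| * |y| := by ring
      _ ≤ _ := by linarith
  have hm0 : 0 ≤ m := hη0.trans (le_max_left _ _)
  set E := |-(v j 0) * x - v j 1 * y + z| with hEd
  have h4 : K * E ≤ m := by
    have h5 : ν * (K * E) ≤ ν * m := by
      calc ν * (K * E) ≤ ν * (K * (L * δ * ‖ξ - ξ'‖)) := by gcongr
        _ = K * (L * δ) * (ν * ‖ξ - ξ'‖) := by ring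
        _ ≤ K * (L * δ) * (16 * M * m) := by
            refine mul_le_mul_of_nonneg_left h3 (by positivity)
        _ = (K * (L * δ * (16 * M))) * m := by ring
        _ ≤ ν * m := by gcongr
    exact le_of_mul_le_mul_left h5 hν
  show K * |(Tm v).mulVec (Xi h ξ) j - (Tm v).mulVec (Xi h ξ') j| ≤ η
  rw [hE j]
  show K * E ≤ η
  rcases le_total E η with h6 | h6
  · rwa [hm, max_eq_left h6] at h4
  · rw [hm, max_eq_right h6] at h4
    have hE0 : 0 ≤ E := abs_nonneg _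
    have : E ≤ 0 := by nlinarith
    have hE00 : E = 0 := le_antisymm this hE0
    rw [hE00, mul_zero]
    exact hη0

end Crest.Agent.R138.BCT191
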