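import Mathlib
import Crest.Agent.R138.BCT6_191

/-!
# Trilinear restriction, file 7 (row 138, helper191): three small transversal caps
-/

set_option autoImplicit false

open MeasureTheory Set
open scoped ENNReal FourierTransform SchwartzMap

namespace Crest.Agent.R138.BCT191

open Crest.Agent.R138.Defs (ee E2 cyl)
open Crest.Agent.R138.Bct383 (sq_mul sq_mono sq_mul_self measurable_sq)

local notation "rt" => Crest.Agent.R138.Bct383.sq
local notation "ext'" => Crest.Agent.R138.Defs.ext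

/-- the energy of a function -/
noncomputable def En (g : E2 → ℂ) : ℝ≥0∞ := ∫⁻ ξ, ‖g ξ‖ₑ ^ 2

lemma br_add_le {r : ℝ} (hr : 0 < r) (a b : ℝ) : br r (a + b) ≤ br r a * br r b := by
  have := br_le_mul hr (a + b) (-b)
  rwa [br_neg, add_neg_cancel_right] at this

/-- product of three one-dimensional weights against the weight of the sum -/
lemma w3_le {N : ℕ} {r : ℝ} (hr : 0 < r) (a b c : ℝ) :
    w N r a * (w N r b * w N r c) ≤ ENNReal.ofReal r⁻¹ ^ 2 * w N r (a + b + c) := by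
  unfold w
  have ha := br_pos hr a
  have hb := br_pos hr b
  have hc := br_pos hr c
  have hs := br_pos hr (a + b + c)
  rw [← ENNReal.ofReal_pow (by positivity), ← ENNReal.ofReal_mul (by positivity),
    ← ENNReal.ofReal_mul (by positivity), ← ENNReal.ofReal_mul (by positivity)]
  refine ENNReal.ofReal_le_ofReal ?_
  have h1 : br r (a + b + c) ≤ br r a * br r b * br r c :=
    (br_add_le hr _ _).trans (mul_le_mul_of_nonneg_right (br_add_le hr _ _) hc.le)
  have h2 : br r (a + b + c) ^ N ≤ br r a ^ N * br r b ^ N * br r c ^ N := by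
    rw [← mul_pow, ← mul_pow]
    exact pow_le_pow_left₀ hs.le h1 N
  have h3 : (br r a ^ N * br r b ^ N * br r c ^ N)⁻¹ ≤ (br r (a + b + c) ^ N)⁻¹ :=
    inv_anti₀ (by positivity) h2
  calc r⁻¹ * (br r a ^ N)⁻¹ * (r⁻¹ * (br r b ^ N)⁻¹ * (r⁻¹ * (br r c ^ N)⁻¹))
      = r⁻¹ ^ 3 * (br r a ^ N * br r b ^ N * br r c ^ N)⁻¹ := by
        rw [mul_inv, mul_inv]; ring
    _ ≤ r⁻¹ ^ 3 * (br r (a + b + c) ^ N)⁻¹ := mul_le_mul_of_nonneg_left h3 (by positivity)
    _ = _ := by ring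

lemma measurable_F3_ext {h : E2 → ℝ} (hh : Measurable h) {g : E2 → ℂ} (hg : Measurable g) :
    Measurable (F3 volume g (Xi h)) := measurable_F3 hg (measurable_Xi hh)

/-- weighted energy over space-time -/
lemma weighted_energy {h : E2 → ℝ} (hh : Measurable h) {g : E2 → ℂ} (hg : Measurable g)
    (h1 : Integrable g) (h2 : MemLp g 2) {N : ℕ} {r : ℝ} (hr : 0 < r) :
    ∫⁻ X : P3, w N r (X 2) * F3 volume g (Xi h) X = I N * En g := by
  have hm : Measurable (fun X : P3 => w N r (X 2) * F3 volume g (Xi h) X) := by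
    have := measurable_F3_ext hh hg
    fun_prop
  rw [← lintegral_emb hm, Measure.volume_eq_prod]
  have hm2 : Measurable (fun p : E2 × ℝ => w N r (emb p 2) * F3 volume g (Xi h) (emb p)) :=
    hm.comp measurable_emb
  rw [lintegral_prod_symm _ hm2.aemeasurable]
  have e : ∀ t : ℝ, ∫⁻ x : E2, w N r (emb (x, t) 2) * F3 volume g (Xi h) (emb (x, t)) =
      w N r t * En g := by
    intro t
    have e1 : ∀ x : E2, w N r (emb (x, t) 2) * F3 volume g (Xi h) (emb (x, t)) =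
        w N r t * ‖ext' h g x t‖ₑ ^ 2 := by
      intro x
      have := enorm_ext h g (x, t)
      simp only at this
      rw [this]
      rfl
    simp_rw [e1]
    rw [lintegral_const_mul' _ _ (w_ne_top _ _ _), energy hh h1 h2 t]
    rfl
  simp_rw [e]
  rw [lintegral_mul_const _ (by fun_prop), lintegral_w hr]

/-- the average of the superposition after the change of variables -/
lemma Av_le {h : E2 → ℝ} (hh : Measurable h) {g : E2 → ℂ} (hg : Measurable g)
    (h1 : Integrable g) (h2 : MemLp g 2) {N : ℕ} {r : ℝ} (hr : 0 < r) {v : Fin 3 → E2}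
    (hv : area v ≠ 0) :
    ENNReal.ofReal |area v| * Av N r (F3 volume g fun ξ => (Tm v).mulVec (Xi h ξ)) 0 ≤
      ENNReal.ofReal r⁻¹ ^ 2 * (I N * En g) := by
  have hdet : (Tm v).transpose.det = area v := by rw [Matrix.det_transpose, det_Tm]
  have hm0 := measurable_F3_ext hh hg
  have hmv : ∀ A : Matrix (Fin 3) (Fin 3) ℝ, Measurable (fun y : P3 => A.mulVec y) := fun A => by
    have hc : Continuous (Matrix.toLin' A : P3 → P3) := LinearMap.continuous_of_finiteDimensional _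
    have e : (fun y : P3 => A.mulVec y) = (Matrix.toLin' A : P3 → P3) := by
      funext y
      rw [Matrix.toLin'_apply]
    rw [e]
    exact hc.measurable
  have hF : ∀ y, F3 volume g (fun ξ => (Tm v).mulVec (Xi h ξ)) y =
      F3 volume g (Xi h) ((Tm v).transpose.mulVec y) := by
    intro y
    unfold F3
    rw [S3_mulVec]
  have hm1 : Measurable (F3 volume g fun ξ => (Tm v).mulVec (Xi h ξ)) := by
    have : (F3 volume g fun ξ => (Tm v).mulVec (Xi h ξ)) =
      fun y => F3 volume g (Xi h) ((Tm v).transpose.mulVec y) := funext hF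
    rw [this]
    exact hm0.comp (hmv _)
  unfold Av
  rw [CW_zero (measurable_w N r) (fun t => w_ne_top _ _ _) (fun t => w_neg _ _ _) hm1]
  have hle : ∀ y : P3, w N r (y 0) * (w N r (y 1) * (w N r (y 2) *
      F3 volume g (fun ξ => (Tm v).mulVec (Xi h ξ)) y)) ≤
      ENNReal.ofReal r⁻¹ ^ 2 * (w N r ((Tm v).transpose.mulVec y 2) *
        F3 volume g (Xi h) ((Tm v).transpose.mulVec y)) := by
    intro y
    rw [hF, TmT_mulVec2]
    calc w N r (y 0) * (w N r (y 1) * (w N r (y 2) *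
          F3 volume g (Xi h) ((Tm v).transpose.mulVec y)))
        = (w N r (y 0) * (w N r (y 1) * w N r (y 2))) *
          F3 volume g (Xi h) ((Tm v).transpose.mulVec y) := by ring
      _ ≤ (ENNReal.ofReal r⁻¹ ^ 2 * w N r (y 0 + y 1 + y 2)) *
          F3 volume g (Xi h) ((Tm v).transpose.mulVec y) := mul_le_mul_left (w3_le hr _ _ _) _
      _ = _ := by ring
  have hm : Measurable (fun X : P3 => w N r (X 2) * F3 volume g (Xi h) X) := by fun_prop
  have hcv := lintegral_mulVec (A := (Tm v).transpose) (by rw [hdet]; exact hv) hm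
  rw [hdet, weighted_energy hh hg h1 h2 hr] at hcv
  calc ENNReal.ofReal |area v| * ∫⁻ y : P3, w N r (y 0) * (w N r (y 1) * (w N r (y 2) *
        F3 volume g (fun ξ => (Tm v).mulVec (Xi h ξ)) y))
      ≤ ENNReal.ofReal |area v| * ∫⁻ y : P3, ENNReal.ofReal r⁻¹ ^ 2 *
        (w N r ((Tm v).transpose.mulVec y 2) *
        F3 volume g (Xi h) ((Tm v).transpose.mulVec y)) :=
        mul_le_mul_right (lintegral_mono hle) _
    _ = ENNReal.ofReal r⁻¹ ^ 2 * (ENNReal.ofReal |area v| * ∫⁻ y : P3,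
        w N r ((Tm v).transpose.mulVec y 2) *
        F3 volume g (Xi h) ((Tm v).transpose.mulVec y)) := by
        rw [lintegral_const_mul' _ _ (by finiteness)]
        ring
    _ = _ := by rw [hcv]

/-- the inverse change of variables maps the cylinder to a ball -/
lemma inv_bound {v : Fin 3 → E2} {M R ν : ℝ} (hM1 : 1 ≤ M) (hM : ∀ j i, |v j i| ≤ M) (hν : 0 < ν)
    (hν1 : ν ≤ 1) (hv : ν ≤ |area v|) {Y : P3}
    (hY : ∀ i, |(Tm v).transpose.mulVec Y i| ≤ R) (i : Fin 3) :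
    |Y i| ≤ 18 * M ^ 2 * R / ν := by
  have hR0 : 0 ≤ R := (abs_nonneg _).trans (hY 0)
  set X0 := (Tm v).transpose.mulVec Y 0 with hX0
  set X1 := (Tm v).transpose.mulVec Y 1 with hX1
  set X2 := (Tm v).transpose.mulVec Y 2 with hX2
  have q0 : |X0| ≤ R := hY 0
  have q1 : |X1| ≤ R := hY 1
  have q2 : |X2| ≤ R := hY 2
  have a10 : |v 1 0 - v 0 0| ≤ 2 * M := abs_sub_le_two (hM 1 0) (hM 0 0)
  have a20 : |v 2 0 - v 0 0| ≤ 2 * M := abs_sub_le_two (hM 2 0) (hM 0 0)
  have b10 : |v 1 1 - v 0 1| ≤ 2 * M := abs_sub_le_two (hM 1 1) (hM 0 1)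
  have b20 : |v 2 1 - v 0 1| ≤ 2 * M := abs_sub_le_two (hM 2 1) (hM 0 1)
  have p0 : |X0 + v 0 0 * X2| ≤ 2 * M * R := by
    calc |X0 + v 0 0 * X2| ≤ |X0| + |v 0 0| * |X2| := by rw [← abs_mul]; exact abs_add_le _ _
      _ ≤ R + M * R := by
          have := hM 0 0
          gcongr
      _ ≤ 2 * M * R := by nlinarith
  have p1 : |X1 + v 0 1 * X2| ≤ 2 * M * R := by
    calc |X1 + v 0 1 * X2| ≤ |X1| + |v 0 1| * |X2| := by rw [← abs_mul]; exact abs_add_le _ _
      _ ≤ R + M * R := by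
          have := hM 0 1
          gcongr
      _ ≤ 2 * M * R := by nlinarith
  have e1 : area v * Y 1 = (X1 + v 0 1 * X2) * (v 2 0 - v 0 0) -
      (X0 + v 0 0 * X2) * (v 2 1 - v 0 1) := by
    rw [hX0, hX1, hX2, TmT_mulVec0, TmT_mulVec1, TmT_mulVec2, area]
    ring
  have e2 : area v * Y 2 = (X0 + v 0 0 * X2) * (v 1 1 - v 0 1) -
      (X1 + v 0 1 * X2) * (v 1 0 - v 0 0) := by
    rw [hX0, hX1, hX2, TmT_mulVec0, TmT_mulVec1, TmT_mulVec2, area]
    ring
  have f1 : ν * |Y 1| ≤ 8 * M ^ 2 * R := by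
    calc ν * |Y 1| ≤ |area v| * |Y 1| := by gcongr
      _ = |area v * Y 1| := (abs_mul _ _).symm
      _ ≤ |(X1 + v 0 1 * X2) * (v 2 0 - v 0 0)| + |(X0 + v 0 0 * X2) * (v 2 1 - v 0 1)| := by
          rw [e1]; exact abs_sub _ _
      _ ≤ (2 * M * R) * (2 * M) + (2 * M * R) * (2 * M) := by
          rw [abs_mul, abs_mul]
          gcongr
      _ = _ := by ring
  have f2 : ν * |Y 2| ≤ 8 * M ^ 2 * R := by
    calc ν * |Y 2| ≤ |area v| * |Y 2| := by gcongr
      _ = |area v * Y 2| := (abs_mul _ _).symm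
      _ ≤ |(X0 + v 0 0 * X2) * (v 1 1 - v 0 1)| + |(X1 + v 0 1 * X2) * (v 1 0 - v 0 0)| := by
          rw [e2]; exact abs_sub _ _
      _ ≤ (2 * M * R) * (2 * M) + (2 * M * R) * (2 * M) := by
          rw [abs_mul, abs_mul]
          gcongr
      _ = _ := by ring
  have f0 : ν * |Y 0| ≤ 17 * M ^ 2 * R := by
    have e0 : Y 0 = X2 - Y 1 - Y 2 := by rw [hX2, TmT_mulVec2]; ring
    have g : |Y 0| ≤ |X2| + |Y 1| + |Y 2| := by
      rw [e0]
      exact (abs_sub _ _).trans (add_le_add (abs_sub _ _) le_rfl)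
    have g2 : ν * |X2| ≤ M ^ 2 * R := by
      calc ν * |X2| ≤ 1 * R := by gcongr
        _ ≤ M ^ 2 * R := by
          refine mul_le_mul_of_nonneg_right ?_ hR0
          nlinarith
    calc ν * |Y 0| ≤ ν * (|X2| + |Y 1| + |Y 2|) := by gcongr
      _ = ν * |X2| + ν * |Y 1| + ν * |Y 2| := by ring
      _ ≤ _ := by linarith
  rw [le_div_iff₀ hν]
  have hpos : 0 ≤ M ^ 2 * R := by positivity
  fin_cases i
  · show |Y 0| * ν ≤ _
    nlinarith
  · show |Y 1| * ν ≤ _
    nlinarith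
  · show |Y 2| * ν ≤ _
    nlinarith

lemma rt_mono_of_le_one {ν : ℝ} (_hν : 0 ≤ ν) (hν1 : ν ≤ 1) :
    ENNReal.ofReal ν ≤ rt (ENNReal.ofReal ν) := by
  have h1 : Bct383.sq (ENNReal.ofReal ν) ≤ 1 := by
    rw [← Bct383.sq_one]
    refine sq_mono ?_
    rw [← ENNReal.ofReal_one]
    exact ENNReal.ofReal_le_ofReal hν1
  calc ENNReal.ofReal ν = rt (ENNReal.ofReal ν) * rt (ENNReal.ofReal ν) := (sq_mul_self _).symm
    _ ≤ rt (ENNReal.ofReal ν) * 1 := mul_le_mul_right h1 _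
    _ = _ := mul_one _

lemma measurable_congr_fun {α : Type*} [MeasurableSpace α] {f g : α → ℝ≥0∞} (hf : Measurable f)
    (h : ∀ x, f x = g x) : Measurable g := by
  have : f = g := funext h
  rwa [← this]

/-- **trilinear restriction for three small transversal caps** -/
theorem cap (L M : ℝ) (hL0 : 0 ≤ L) (hM1 : 1 ≤ M) (ε : ℝ) (hε : 0 < ε) :
    ∃ K : ℝ, 1 < K ∧ ∃ C : ℝ, 0 < C ∧ ∀ h : E2 → ℝ, Differentiable ℝ h →
    (∀ ξ ξ', ‖gradient h ξ - gradient h ξ'‖ ≤ L * ‖ξ - ξ'‖) →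
    (∀ ξ, ‖ξ‖ ≤ 2 → ‖gradient h ξ‖ ≤ M) → ∀ ν R δ : ℝ, 0 < ν → ν ≤ 1 → 1 ≤ R → 0 ≤ δ →
    K * (L * δ * (16 * M)) ≤ ν → ∀ g : Fin 3 → E2 → ℂ, (∀ j, Measurable (g j)) →
    (∀ j, Integrable (g j)) → (∀ j, MemLp (g j) 2) → (∀ j ξ, g j ξ ≠ 0 → ‖ξ‖ ≤ 2) →
    ∀ c : Fin 3 → E2, (∀ j, ‖c j‖ ≤ 2) → (∀ j ξ, g j ξ ≠ 0 → ‖ξ - c j‖ ≤ δ) →
    ν ≤ |area fun j => gradient h (c j)| →
      ∫⁻ p in cyl R, ‖ext' h (g 0) p.1 p.2‖ₑ * ‖ext' h (g 1) p.1 p.2‖ₑ * ‖ext' h (g 2) p.1 p.2‖ₑ ≤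
        ENNReal.ofReal (C * (R / ν) ^ ε * ν⁻¹) * (rt (En (g 0)) * rt (En (g 1)) * rt (En (g 2))) := by
  obtain ⟨K, hK, hax⟩ := axis 2 le_rfl ε hε
  obtain ⟨C, hC, hax⟩ := hax (6 * M) (by linarith)
  have hI : I 2 ≠ ⊤ := I_ne_top le_rfl
  have hrI : rt (I 2) ≠ ⊤ := rt_ne_top hI
  set c3 : ℝ := (rt (I 2)).toReal + 1 with hc3
  have hc3p : 0 < c3 := by positivity
  have hc3le : rt (I 2) ≤ ENNReal.ofReal c3 := by
    rw [hc3, ENNReal.ofReal_add (by positivity) (by norm_num), ENNReal.ofReal_toReal hrI]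
    exact le_self_add
  refine ⟨K, hK, 64 ^ 3 * C * (18 * M ^ 2) ^ ε * c3 ^ 3, by positivity, ?_⟩
  intro h hd hL hG ν R δ hν hν1 hR hδ hKδ g hgm hgi hg2 hgs c hc hgc harea
  have hh : Measurable h := hd.continuous.measurable
  set v : Fin 3 → E2 := fun j => gradient h (c j) with hv
  have hvM : ∀ j i, |v j i| ≤ M := fun j i => (abs_coord_le _ i).trans (hG _ (hc j))
  have hv0 : area v ≠ 0 := by
    intro h0
    rw [h0, abs_zero] at harea
    linarith
  set R' : ℝ := 18 * M ^ 2 * R / ν with hR'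
  have hR'1 : 1 ≤ R' := by
    rw [hR', le_div_iff₀ hν]
    nlinarith
  have hR'0 : 0 < R' := by linarith
  set W := w (2 + 2 + 2) R' with hW
  set γ : Fin 3 → E2 → P3 := fun _ ξ => (Tm v).mulVec (Xi h ξ) with hγ
  have hXi := measurable_Xi hh
  have hmv : ∀ A : Matrix (Fin 3) (Fin 3) ℝ, Measurable (fun y : P3 => A.mulVec y) := fun A => by
    have hc : Continuous (Matrix.toLin' A : P3 → P3) := LinearMap.continuous_of_finiteDimensional _
    have e : (fun y : P3 => A.mulVec y) = (Matrix.toLin' A : P3 → P3) := by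
      funext y
      rw [Matrix.toLin'_apply]
    rw [e]
    exact hc.measurable
  have hγm : ∀ j, Measurable (γ j) := fun j => (hmv _).comp hXi
  have hLip : ∀ j, Lip K j (g j) (γ j) := fun j =>
    lip_cap hd hL hL0 hK hν hvM harea rfl (hgc j) hKδ hδ
  have hbd : ∀ j ξ, g j ξ ≠ 0 → ∀ i, |γ j ξ i| ≤ 6 * M := by
    intro j ξ hξ i
    have hξ2 := hgs j ξ hξ
    simp only [hγ]
    rw [Tm_mulVec]
    have x0 : |Xi h ξ 0| ≤ 2 := (abs_coord_le ξ 0).trans hξ2
    have x1 : |Xi h ξ 1| ≤ 2 := (abs_coord_le ξ 1).trans hξ2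
    have x2 : |Xi h ξ 2| ≤ 2 * M := by
      show |h ξ - h 0| ≤ 2 * M
      have hder : ∀ x ∈ Metric.closedBall (0 : E2) 2, HasFDerivWithinAt h
          (InnerProductSpace.toDual ℝ E2 (gradient h x)) (Metric.closedBall (0 : E2) 2) x :=
        fun x _ => (hd x).hasGradientAt.hasFDerivAt.hasFDerivWithinAt
      have hb : ∀ x ∈ Metric.closedBall (0 : E2) 2,
          ‖InnerProductSpace.toDual ℝ E2 (gradient h x)‖ ≤ M := by
        intro x hx
        rw [LinearIsometryEquiv.norm_map]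
        exact hG x (by simpa using hx)
      have h3 := (convex_closedBall (0 : E2) 2).norm_image_sub_le_of_norm_hasFDerivWithin_le hder hb
        (x := 0) (y := ξ) (by simp) (by simpa using hξ2)
      rw [Real.norm_eq_abs, sub_zero] at h3
      calc |h ξ - h 0| ≤ M * ‖ξ‖ := h3
        _ ≤ M * 2 := by gcongr
        _ = 2 * M := by ring
    have hv0' := hvM i 0
    have hv1' := hvM i 1
    calc |-(v i 0) * Xi h ξ 0 - v i 1 * Xi h ξ 1 + Xi h ξ 2|
        ≤ |v i 0| * |Xi h ξ 0| + |v i 1| * |Xi h ξ 1| + |Xi h ξ 2| := by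
          refine (abs_add_le _ _).trans (add_le_add ((abs_sub _ _).trans ?_) le_rfl)
          rw [abs_mul, abs_neg, abs_mul]
      _ ≤ M * 2 + M * 2 + 2 * M := by gcongr
      _ = 6 * M := by ring
  have key := hax volume g γ hgm hgi hγm hLip hbd R' hR'1 0
  set A := (Tm v).transpose with hA
  have hdet : A.det = area v := by rw [hA, Matrix.det_transpose, det_Tm]
  set D := ENNReal.ofReal |area v| with hD
  -- the integrand
  have mS : ∀ j, Measurable (fun X => ‖S3 volume (g j) (Xi h) X‖ₑ) := by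
    intro j
    have h1 := measurable_F3_ext hh (hgm j)
    have h2 : Measurable (fun X => rt (F3 volume (g j) (Xi h) X)) :=
      Bct383.measurable_sq.comp h1
    refine (measurable_congr_fun h2 fun X => ?_)
    unfold F3
    rw [Bct383.sq_sq]
  set u : P3 → ℝ≥0∞ := fun X => ‖S3 volume (g 0) (Xi h) X‖ₑ * ‖S3 volume (g 1) (Xi h) X‖ₑ *
    ‖S3 volume (g 2) (Xi h) X‖ₑ with hu
  have hum : Measurable u := ((mS 0).mul (mS 1)).mul (mS 2)
  set B : Set P3 := {X | ∀ i, |X i| ≤ R} with hB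
  have hBm : MeasurableSet B := by
    rw [hB, ofPred_forall]
    exact MeasurableSet.iInter fun i => measurableSet_le (by fun_prop) measurable_const
  have hcm : MeasurableSet (cyl R) := by
    have e : cyl R = {p : E2 × ℝ | ‖p.1‖ ≤ R} ∩ {p : E2 × ℝ | |p.2| ≤ R} := rfl
    rw [e]
    have m1 : Measurable (fun p : E2 × ℝ => ‖p.1‖) := by fun_prop
    have m2 : Measurable (fun p : E2 × ℝ => |p.2|) := by fun_prop
    exact (measurableSet_le m1 measurable_const).inter (measurableSet_le m2 measurable_const)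
  have hBu : Measurable (B.indicator u) := hum.indicator hBm
  have s1 : ∫⁻ p in cyl R, ‖ext' h (g 0) p.1 p.2‖ₑ * ‖ext' h (g 1) p.1 p.2‖ₑ *
      ‖ext' h (g 2) p.1 p.2‖ₑ ≤ ∫⁻ X, B.indicator u X := by
    rw [← lintegral_emb hBu]
    refine le_trans ?_ (setLIntegral_le_lintegral (cyl R) _)
    refine setLIntegral_mono' hcm fun p hp => ?_
    have hpB : emb p ∈ B := by
      intro i
      obtain ⟨hp1, hp2⟩ := hp
      fin_cases i
      · exact (abs_coord_le p.1 0).trans hp1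
      · exact (abs_coord_le p.1 1).trans hp1
      · exact hp2
    rw [indicator_of_mem hpB, enorm_ext, enorm_ext, enorm_ext]
  have s2 : ∫⁻ X, B.indicator u X = D * ∫⁻ Y : P3, B.indicator u (A.mulVec Y) := by
    rw [hD, ← hdet, lintegral_mulVec (by rw [hdet]; exact hv0) hBu]
  have hWY : ∀ t, |t| ≤ R' → 1 ≤ ENNReal.ofReal (64 * R') * W t := by
    intro t ht
    have hb := br_pos hR'0 t
    have hb2 : br R' t ≤ 2 := by
      unfold br
      have : |t| / R' ≤ 1 := by rw [div_le_one hR'0]; exact ht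
      linarith
    rw [hW]
    unfold w
    rw [← ENNReal.ofReal_mul (by positivity), ← ENNReal.ofReal_one]
    refine ENNReal.ofReal_le_ofReal ?_
    have hb6 : br R' t ^ (2 + 2 + 2) ≤ 64 := by
      calc br R' t ^ (2 + 2 + 2) ≤ 2 ^ (2 + 2 + 2) := pow_le_pow_left₀ hb.le hb2 _
        _ = 64 := by norm_num
    have e : 64 * R' * (R'⁻¹ * (br R' t ^ (2 + 2 + 2))⁻¹) = 64 * (br R' t ^ (2 + 2 + 2))⁻¹ := by
      field_simp
    rw [e, ← div_eq_mul_inv, le_div_iff₀ (by positivity), one_mul]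
    exact hb6
  have s3 : ∀ Y : P3, B.indicator u (A.mulVec Y) ≤ ENNReal.ofReal (64 * R') ^ 3 *
      (W (Y 0) * (W (Y 1) * (W (Y 2) * u (A.mulVec Y)))) := by
    intro Y
    by_cases hY : A.mulVec Y ∈ B
    · rw [indicator_of_mem hY]
      have hi := inv_bound hM1 hvM hν hν1 harea hY
      have k0 := hWY _ (hi 0)
      have k1 := hWY _ (hi 1)
      have k2 := hWY _ (hi 2)
      calc u (A.mulVec Y) = 1 * (1 * (1 * u (A.mulVec Y))) := by simp
        _ ≤ (ENNReal.ofReal (64 * R') * W (Y 0)) * ((ENNReal.ofReal (64 * R') * W (Y 1)) *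
            ((ENNReal.ofReal (64 * R') * W (Y 2)) * u (A.mulVec Y))) := by gcongr
        _ = _ := by ring
    · rw [indicator_of_notMem hY]
      exact bot_le
  have huA : Measurable (fun Y : P3 => u (A.mulVec Y)) := hum.comp (hmv A)
  have s4 : ∫⁻ Y : P3, W (Y 0) * (W (Y 1) * (W (Y 2) * u (A.mulVec Y))) =
      CW (fun _ => W) (fun y => ‖S3 volume (g 0) (γ 0) y‖ₑ * ‖S3 volume (g 1) (γ 1) y‖ₑ *
        ‖S3 volume (g 2) (γ 2) y‖ₑ) 0 := by
    rw [← CW_zero (measurable_w _ _) (fun t => w_ne_top _ _ _) (fun t => w_neg _ _ _) huA]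
    congr 1
    funext y
    simp only [hγ, hu, S3_mulVec, hA]
  set F : Fin 3 → P3 → ℝ≥0∞ := fun j => F3 volume (g j) (γ j) with hF
  have hAv : ∀ j, D * Av 2 R' (F j) 0 ≤ ENNReal.ofReal R'⁻¹ ^ 2 * (I 2 * En (g j)) := fun j =>
    Av_le hh (hgm j) (hgi j) (hg2 j) hR'0 hv0
  have hAv2 : ∀ j, rt D * rt (Av 2 R' (F j) 0) ≤
      ENNReal.ofReal R'⁻¹ * (ENNReal.ofReal c3 * rt (En (g j))) := by
    intro j
    have h1 := sq_mono (hAv j)
    rw [sq_mul, sq_mul, sq_mul, Bct383.sq_sq] at h1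
    exact h1.trans (mul_le_mul_right (mul_le_mul_left hc3le _) _)
  have s5 : D * Mr 2 R' F 0 ≤ ENNReal.ofReal ν⁻¹ * ((ENNReal.ofReal R'⁻¹ * ENNReal.ofReal c3) ^ 3 *
      (rt (En (g 0)) * rt (En (g 1)) * rt (En (g 2)))) := by
    have h1 : ENNReal.ofReal ν ≤ rt D :=
      (rt_mono_of_le_one hν.le hν1).trans (sq_mono (ENNReal.ofReal_le_ofReal harea))
    have h2 : ENNReal.ofReal ν⁻¹ * ENNReal.ofReal ν = 1 := by
      rw [← ENNReal.ofReal_mul (by positivity), inv_mul_cancel₀ hν.ne', ENNReal.ofReal_one]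
    calc D * Mr 2 R' F 0 = ENNReal.ofReal ν⁻¹ * (ENNReal.ofReal ν * (D * Mr 2 R' F 0)) := by
          rw [← mul_assoc, h2, one_mul]
      _ ≤ ENNReal.ofReal ν⁻¹ * (rt D * (D * Mr 2 R' F 0)) :=
          mul_le_mul_right (mul_le_mul_left h1 _) _
      _ = ENNReal.ofReal ν⁻¹ * ((rt D * rt (Av 2 R' (F 0) 0)) * (rt D * rt (Av 2 R' (F 1) 0)) *
          (rt D * rt (Av 2 R' (F 2) 0))) := by
          have e : D = rt D * rt D := (sq_mul_self D).symm
          congr 1
          calc rt D * (D * Mr 2 R' F 0) = rt D * ((rt D * rt D) * Mr 2 R' F 0) := by rw [← e]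
            _ = _ := by unfold Mr; ring
      _ ≤ ENNReal.ofReal ν⁻¹ * ((ENNReal.ofReal R'⁻¹ * (ENNReal.ofReal c3 * rt (En (g 0)))) *
          (ENNReal.ofReal R'⁻¹ * (ENNReal.ofReal c3 * rt (En (g 1)))) *
          (ENNReal.ofReal R'⁻¹ * (ENNReal.ofReal c3 * rt (En (g 2))))) :=
          mul_le_mul_right (mul_le_mul' (mul_le_mul' (hAv2 0) (hAv2 1)) (hAv2 2)) _
      _ = _ := by ring
  calc ∫⁻ p in cyl R, ‖ext' h (g 0) p.1 p.2‖ₑ * ‖ext' h (g 1) p.1 p.2‖ₑ *
        ‖ext' h (g 2) p.1 p.2‖ₑ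
      ≤ D * ∫⁻ Y : P3, B.indicator u (A.mulVec Y) := s1.trans (le_of_eq s2)
    _ ≤ D * ∫⁻ Y : P3, ENNReal.ofReal (64 * R') ^ 3 *
        (W (Y 0) * (W (Y 1) * (W (Y 2) * u (A.mulVec Y)))) :=
        mul_le_mul_right (lintegral_mono s3) _
    _ = D * (ENNReal.ofReal (64 * R') ^ 3 * CW (fun _ => W) (fun y =>
        ‖S3 volume (g 0) (γ 0) y‖ₑ * ‖S3 volume (g 1) (γ 1) y‖ₑ *
        ‖S3 volume (g 2) (γ 2) y‖ₑ) 0) := by
        rw [lintegral_const_mul' _ _ (by finiteness), s4]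
    _ ≤ D * (ENNReal.ofReal (64 * R') ^ 3 * (ENNReal.ofReal (C * R' ^ ε) * Mr 2 R' F 0)) :=
        mul_le_mul_right (mul_le_mul_right key _) _
    _ = ENNReal.ofReal (64 * R') ^ 3 * (ENNReal.ofReal (C * R' ^ ε) * (D * Mr 2 R' F 0)) := by ring
    _ ≤ ENNReal.ofReal (64 * R') ^ 3 * (ENNReal.ofReal (C * R' ^ ε) * (ENNReal.ofReal ν⁻¹ *
        ((ENNReal.ofReal R'⁻¹ * ENNReal.ofReal c3) ^ 3 *
        (rt (En (g 0)) * rt (En (g 1)) * rt (En (g 2)))))) :=
        mul_le_mul_right (mul_le_mul_right s5 _) _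
    _ = (ENNReal.ofReal (64 * R') ^ 3 * (ENNReal.ofReal (C * R' ^ ε) * (ENNReal.ofReal ν⁻¹ *
        (ENNReal.ofReal R'⁻¹ * ENNReal.ofReal c3) ^ 3))) *
        (rt (En (g 0)) * rt (En (g 1)) * rt (En (g 2))) := by ring
    _ = _ := by
        congr 1
        rw [← ENNReal.ofReal_pow (by positivity), ← ENNReal.ofReal_mul (by positivity),
          ← ENNReal.ofReal_pow (by positivity), ← ENNReal.ofReal_mul (by positivity),
          ← ENNReal.ofReal_mul (by positivity), ← ENNReal.ofReal_mul (by positivity)]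
        congr 1
        have e : R' ^ ε = (18 * M ^ 2) ^ ε * (R / ν) ^ ε := by
          rw [← Real.mul_rpow (by positivity) (by positivity), hR']
          congr 1
          ring
        rw [e]
        field_simp

end Crest.Agent.R138.BCT191
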