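import Mathlib
import Crest.Agent.R138.BCT7_191

/-!
# Trilinear restriction, file 8 (row 138, helper191): sum over small caps, final statement
-/

set_option autoImplicit false

open MeasureTheory Set
open scoped ENNReal

namespace Crest.Agent.R138.BCT191

open Crest.Agent.R138.Defs (E2 cyl)
open Crest.Agent.R138.Bct383 (sq_mul sq_mono sq_mul_self measurable_sq)

local notation "rt" => Crest.Agent.R138.Bct383.sq
local notation "ext'" => Crest.Agent.R138.Defs.ext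

/-- the index of the cell -/
noncomputable def cell (s : ℝ) (ξ : E2) : ℤ × ℤ := (⌊ξ 0 / s⌋, ⌊ξ 1 / s⌋)

lemma measurable_cell (s : ℝ) : Measurable (cell s) := by
  unfold cell
  exact (Int.measurable_floor.comp (by fun_prop)).prodMk (Int.measurable_floor.comp (by fun_prop))

lemma cell_close {s : ℝ} (hs : 0 < s) {ξ ξ' : E2} (h : cell s ξ = cell s ξ') :
    ‖ξ - ξ'‖ ≤ 2 * s := by
  have h0 : ⌊ξ 0 / s⌋ = ⌊ξ' 0 / s⌋ := congrArg Prod.fst h
  have h1 : ⌊ξ 1 / s⌋ = ⌊ξ' 1 / s⌋ := congrArg Prod.snd h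
  have k : ∀ a b : ℝ, ⌊a / s⌋ = ⌊b / s⌋ → |a - b| ≤ s := by
    intro a b hab
    have := Int.abs_sub_lt_one_of_floor_eq_floor hab
    rw [← sub_div, abs_div, abs_of_pos hs, div_lt_one hs] at this
    exact this.le
  have := norm_E2_le (ξ - ξ')
  have a0 := k _ _ h0
  have a1 := k _ _ h1
  simp only [PiLp.sub_apply] at this
  linarith

/-- the finite set of cells meeting the disc of radius two -/
noncomputable def cells (s : ℝ) : Finset (ℤ × ℤ) :=
  (Finset.Icc (-⌈2 / s⌉ - 1) ⌈2 / s⌉) ×ˢ (Finset.Icc (-⌈2 / s⌉ - 1) ⌈2 / s⌉)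

lemma mem_cells {s : ℝ} (hs : 0 < s) {ξ : E2} (h : ‖ξ‖ ≤ 2) : cell s ξ ∈ cells s := by
  have k : ∀ a : ℝ, |a| ≤ 2 → ⌊a / s⌋ ∈ Finset.Icc (-⌈2 / s⌉ - 1) ⌈2 / s⌉ := by
    intro a ha
    rw [abs_le] at ha
    rw [Finset.mem_Icc]
    have h1 : a / s ≤ 2 / s := div_le_div_of_nonneg_right ha.2 hs.le
    have h2 : -(2 / s) ≤ a / s := by
      rw [← neg_div]; exact div_le_div_of_nonneg_right ha.1 hs.le
    have h3 := Int.le_ceil (2 / s)
    constructor
    · rw [Int.le_floor]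
      push_cast
      linarith
    · have := Int.floor_le (a / s)
      have h4 : (⌊a / s⌋ : ℝ) ≤ (⌈2 / s⌉ : ℝ) := by linarith
      exact_mod_cast h4
  unfold cells cell
  rw [Finset.mem_product]
  exact ⟨k _ ((abs_coord_le ξ 0).trans h), k _ ((abs_coord_le ξ 1).trans h)⟩

lemma card_cells {s : ℝ} (hs : 0 < s) (hs1 : s ≤ 1) : ((cells s).card : ℝ) ≤ (8 / s) ^ 2 := by
  unfold cells
  rw [Finset.card_product, Int.card_Icc]
  have h0 : (0 : ℝ) < 2 / s := by positivity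
  have hc : (0 : ℤ) < ⌈2 / s⌉ := Int.ceil_pos.2 h0
  have h1 : (((⌈2 / s⌉ + 1 - (-⌈2 / s⌉ - 1)).toNat : ℕ) : ℝ) ≤ 8 / s := by
    have h2 : (((⌈2 / s⌉ + 1 - (-⌈2 / s⌉ - 1)).toNat : ℕ) : ℤ) = ⌈2 / s⌉ + 1 - (-⌈2 / s⌉ - 1) :=
      Int.toNat_of_nonneg (by omega)
    have h3 : (((⌈2 / s⌉ + 1 - (-⌈2 / s⌉ - 1)).toNat : ℕ) : ℝ) =
        ((⌈2 / s⌉ + 1 - (-⌈2 / s⌉ - 1) : ℤ) : ℝ) := by exact_mod_cast h2
    rw [h3]
    push_cast
    have h4 := (Int.ceil_lt_add_one (2 / s)).le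
    have h5 : 8 / s = 2 * (2 / s) + 4 / s := by ring
    have h6 : 4 ≤ 4 / s := by rw [le_div_iff₀ hs]; linarith
    rw [h5]
    linarith
  push_cast
  rw [sq]
  exact mul_le_mul h1 h1 (by positivity) (by positivity)

/-- the piece of `g` in a cell -/
noncomputable def piece (s : ℝ) (g : E2 → ℂ) (k : ℤ × ℤ) : E2 → ℂ := (cell s ⁻¹' {k}).indicator g

lemma measurableSet_cell (s : ℝ) (k : ℤ × ℤ) : MeasurableSet (cell s ⁻¹' {k}) :=
  (measurable_cell s) (measurableSet_singleton k)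

lemma piece_ne_zero {s : ℝ} {g : E2 → ℂ} {k : ℤ × ℤ} {ξ : E2} (h : piece s g k ξ ≠ 0) :
    cell s ξ = k ∧ g ξ ≠ 0 := by
  unfold piece at h
  rw [indicator_apply_ne_zero] at h
  exact ⟨h.1, h.2⟩

lemma sum_piece {s : ℝ} (hs : 0 < s) {g : E2 → ℂ} (hg : ∀ ξ, g ξ ≠ 0 → ‖ξ‖ ≤ 2) (ξ : E2) :
    ∑ k ∈ cells s, piece s g k ξ = g ξ := by
  by_cases h : g ξ = 0
  · rw [h]
    refine Finset.sum_eq_zero fun k _ => ?_
    by_contra h2
    exact (piece_ne_zero h2).2 h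
  · rw [Finset.sum_eq_single_of_mem (cell s ξ) (mem_cells hs (hg ξ h))]
    · unfold piece
      rw [indicator_of_mem (by simp)]
    · intro k _ hk
      by_contra h2
      exact hk (piece_ne_zero h2).1.symm

lemma En_piece_le (s : ℝ) (g : E2 → ℂ) (k : ℤ × ℤ) : En (piece s g k) ≤ En g := by
  unfold En
  refine lintegral_mono fun ξ => ?_
  refine pow_le_pow_left' ?_ 2
  unfold piece
  rw [enorm_indicator_eq_indicator_enorm]
  exact indicator_le_self _ _ _

lemma ext_piece {s : ℝ} (hs : 0 < s) {h : E2 → ℝ} (hh : Measurable h) {g : E2 → ℂ}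
    (h1 : Integrable g) (hg : ∀ ξ, g ξ ≠ 0 → ‖ξ‖ ≤ 2) (p : E2 × ℝ) :
    ‖ext' h g p.1 p.2‖ₑ ≤ ∑ k ∈ cells s, ‖ext' h (piece s g k) p.1 p.2‖ₑ := by
  have e : ext' h g p.1 p.2 = ∑ k ∈ cells s, ext' h (piece s g k) p.1 p.2 := by
    unfold Defs.ext
    rw [← integral_finsetSum]
    · refine integral_congr_ae (Filter.Eventually.of_forall fun ξ => ?_)
      simp only
      rw [← Finset.sum_mul, sum_piece hs hg]
    · intro k _
      have h2 : Integrable (piece s g k) := h1.indicator (measurableSet_cell s k)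
      refine h2.mono (h2.aestronglyMeasurable.mul ?_) ?_
      · apply Measurable.aestronglyMeasurable
        fun_prop
      · exact Filter.Eventually.of_forall fun ξ => by simp
  rw [e]
  exact enorm_sum_le _ _

lemma measurable_ext_enorm {h : E2 → ℝ} (hh : Measurable h) {g : E2 → ℂ} (hg : Measurable g) :
    Measurable (fun p : E2 × ℝ => ‖ext' h g p.1 p.2‖ₑ) := by
  have h1 := measurable_F3_ext hh hg
  have h2 : Measurable (fun p : E2 × ℝ => rt (F3 volume g (Xi h) (emb p))) :=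
    Bct383.measurable_sq.comp (h1.comp measurable_emb)
  refine measurable_congr_fun h2 fun p => ?_
  rw [enorm_ext]
  unfold F3
  rw [Bct383.sq_sq]

/-- integrability and square integrability of bounded functions supported in the disc -/
lemma bdd_integrable {g : E2 → ℂ} (hg : Measurable g) {B : ℝ} (hB : ∀ ξ, ‖g ξ‖ ≤ B)
    (hs : ∀ ξ, g ξ ≠ 0 → ‖ξ‖ ≤ 2) : Integrable g ∧ MemLp g 2 := by
  have hB0 : 0 ≤ B := (norm_nonneg _).trans (hB 0)
  set D : E2 → ℝ := (Metric.closedBall (0 : E2) 2).indicator fun _ => B with hD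
  have hDi : Integrable D := by
    rw [hD, integrable_indicator_iff measurableSet_closedBall]
    exact (integrableOn_const (by exact measure_closedBall_lt_top.ne) (by simp))
  have hle : ∀ ξ, ‖g ξ‖ ≤ D ξ := by
    intro ξ
    by_cases h : g ξ = 0
    · rw [h, norm_zero, hD]
      exact indicator_nonneg (fun _ _ => hB0) _
    · rw [hD, indicator_of_mem (by simpa using hs ξ h)]
      exact hB ξ
  have h1 : Integrable g := by
    refine hDi.mono hg.aestronglyMeasurable (Filter.Eventually.of_forall fun ξ => ?_)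
    exact (hle ξ).trans (le_abs_self _)
  refine ⟨h1, ?_⟩
  rw [memLp_two_iff_integrable_sq_norm hg.aestronglyMeasurable]
  refine (h1.norm.const_mul B).mono (by fun_prop) (Filter.Eventually.of_forall fun ξ => ?_)
  simp only [norm_pow, norm_norm, norm_mul, Real.norm_of_nonneg hB0]
  rw [sq]
  exact mul_le_mul_of_nonneg_right (hB ξ) (norm_nonneg _)

/-- **trilinear restriction** (Bennett–Carbery–Tao in dimension three, exponent `1`, with the loss
`R ^ ε` and a power of the transversality). -/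
theorem trilinear_restriction (L ε : ℝ) (hL0 : 0 ≤ L) (hε : 0 < ε) :
    ∃ C : ℝ, 0 < C ∧ ∀ h : E2 → ℝ, Differentiable ℝ h →
    (∀ ξ ξ', ‖gradient h ξ - gradient h ξ'‖ ≤ L * ‖ξ - ξ'‖) → ‖gradient h 0‖ ≤ L →
    ∀ ν R : ℝ, 0 < ν → ν ≤ 1 → 1 ≤ R → ∀ g : Fin 3 → E2 → ℂ, (∀ j, Measurable (g j)) →
    (∀ j, ∃ B : ℝ, ∀ ξ, ‖g j ξ‖ ≤ B) → (∀ j ξ, g j ξ ≠ 0 → ‖ξ‖ ≤ 2) →
    (∀ ξ : Fin 3 → E2, (∀ j, g j (ξ j) ≠ 0) → ν ≤ |area fun j => gradient h (ξ j)|) →
      ∫⁻ p in cyl R, ‖ext' h (g 0) p.1 p.2‖ₑ * ‖ext' h (g 1) p.1 p.2‖ₑ * ‖ext' h (g 2) p.1 p.2‖ₑ ≤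
        ENNReal.ofReal (C * (ν⁻¹) ^ (7 + ε) * R ^ ε) *
          (rt (En (g 0)) * rt (En (g 1)) * rt (En (g 2))) := by
  set M : ℝ := 3 * L + 1 with hM
  have hM1 : 1 ≤ M := by linarith
  obtain ⟨K, hK, C, hC, hcap⟩ := cap L M hL0 hM1 ε hε
  set b : ℝ := 32 * K * M * (L + 1) with hb
  have hb1 : 1 ≤ b := by
    have h1 : 1 ≤ K * M := by nlinarith
    have h2 : 1 ≤ K * M * (L + 1) := by nlinarith
    rw [hb]
    nlinarith
  refine ⟨C * (8 * b) ^ 6, by positivity, ?_⟩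
  intro h hd hL hG0 ν R hν hν1 hR g hgm hgb hgs htr
  have hh : Measurable h := hd.continuous.measurable
  have hG : ∀ ξ, ‖ξ‖ ≤ 2 → ‖gradient h ξ‖ ≤ M := by
    intro ξ hξ
    have h1 := hL ξ 0
    rw [sub_zero] at h1
    calc ‖gradient h ξ‖ = ‖(gradient h ξ - gradient h 0) + gradient h 0‖ := by rw [sub_add_cancel]
      _ ≤ ‖gradient h ξ - gradient h 0‖ + ‖gradient h 0‖ := norm_add_le _ _
      _ ≤ L * ‖ξ‖ + L := add_le_add h1 hG0
      _ ≤ L * 2 + L := by gcongr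
      _ ≤ M := by rw [hM]; linarith
  set s : ℝ := ν / b with hs
  have hs0 : 0 < s := by positivity
  have hs1 : s ≤ 1 := by
    rw [hs, div_le_one (by positivity)]
    linarith
  have hint : ∀ j, Integrable (g j) ∧ MemLp (g j) 2 := fun j => by
    obtain ⟨B, hB⟩ := hgb j
    exact bdd_integrable (hgm j) hB (hgs j)
  set Q := cells s with hQ
  set X : ℝ≥0∞ := ENNReal.ofReal (C * (R / ν) ^ ε * ν⁻¹) *
    (rt (En (g 0)) * rt (En (g 1)) * rt (En (g 2))) with hX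
  -- one triple of cells
  have hone : ∀ k0 k1 k2 : ℤ × ℤ, ∫⁻ p in cyl R, ‖ext' h (piece s (g 0) k0) p.1 p.2‖ₑ *
      ‖ext' h (piece s (g 1) k1) p.1 p.2‖ₑ * ‖ext' h (piece s (g 2) k2) p.1 p.2‖ₑ ≤ X := by
    intro k0 k1 k2
    set k : Fin 3 → ℤ × ℤ := ![k0, k1, k2] with hk
    set G : Fin 3 → E2 → ℂ := fun j => piece s (g j) (k j) with hGd
    by_cases hz : ∀ j, ∃ ξ, G j ξ ≠ 0
    · choose c hc using hz
      have hc' : ∀ j, cell s (c j) = k j ∧ g j (c j) ≠ 0 := fun j => piece_ne_zero (hc j)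
      have key := hcap h hd hL hG ν R (2 * s) hν hν1 hR (by positivity) (by
          have e : K * (L * (2 * s) * (16 * M)) = ν * (L / (L + 1)) := by
            rw [hs, hb]
            field_simp
            ring
          rw [e]
          have : L / (L + 1) ≤ 1 := by rw [div_le_one (by linarith)]; linarith
          nlinarith) G
        (fun j => (hgm j).indicator (measurableSet_cell s (k j)))
        (fun j => (hint j).1.indicator (measurableSet_cell s (k j)))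
        (fun j => (hint j).2.indicator (measurableSet_cell s (k j)))
        (fun j ξ hξ => hgs j ξ (piece_ne_zero hξ).2) c
        (fun j => hgs j _ (hc' j).2)
        (fun j ξ hξ => cell_close hs0 ((piece_ne_zero hξ).1.trans (hc' j).1.symm))
        (htr c fun j => (hc' j).2)
      refine key.trans ?_
      rw [hX]
      refine mul_le_mul_right ?_ _
      have q : ∀ j, rt (En (G j)) ≤ rt (En (g j)) := fun j => sq_mono (En_piece_le _ _ _)
      exact mul_le_mul' (mul_le_mul' (q 0) (q 1)) (q 2)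
    · push Not at hz
      obtain ⟨j, hj⟩ := hz
      have hz0 : ∀ p : E2 × ℝ, ‖ext' h (G j) p.1 p.2‖ₑ = 0 := by
        intro p
        unfold Defs.ext
        simp [hj]
      have hzero : ∀ p : E2 × ℝ, ‖ext' h (G 0) p.1 p.2‖ₑ * ‖ext' h (G 1) p.1 p.2‖ₑ *
          ‖ext' h (G 2) p.1 p.2‖ₑ = 0 := by
        intro p
        have := hz0 p
        fin_cases j
        · simp only [Fin.zero_eta] at this; rw [this]; simp
        · simp only [Fin.mk_one] at this; rw [this]; simp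
        · simp only [Fin.reduceFinMk] at this; rw [this]; simp
      calc ∫⁻ p in cyl R, ‖ext' h (G 0) p.1 p.2‖ₑ * ‖ext' h (G 1) p.1 p.2‖ₑ *
            ‖ext' h (G 2) p.1 p.2‖ₑ = ∫⁻ p in cyl R, 0 := lintegral_congr fun p => hzero p
        _ = 0 := by simp
        _ ≤ X := bot_le
  have hm : ∀ j k, Measurable (fun p : E2 × ℝ => ‖ext' h (piece s (g j) k) p.1 p.2‖ₑ) :=
    fun j k => measurable_ext_enorm hh ((hgm j).indicator (measurableSet_cell s k))
  have hcard : (Q.card : ℝ≥0∞) ≤ ENNReal.ofReal ((8 / s) ^ 2) := by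
    rw [← ENNReal.ofReal_natCast]
    exact ENNReal.ofReal_le_ofReal (card_cells hs0 hs1)
  calc ∫⁻ p in cyl R, ‖ext' h (g 0) p.1 p.2‖ₑ * ‖ext' h (g 1) p.1 p.2‖ₑ *
        ‖ext' h (g 2) p.1 p.2‖ₑ
      ≤ ∫⁻ p in cyl R, ∑ k0 ∈ Q, ∑ k1 ∈ Q, ∑ k2 ∈ Q, ‖ext' h (piece s (g 0) k0) p.1 p.2‖ₑ *
        ‖ext' h (piece s (g 1) k1) p.1 p.2‖ₑ * ‖ext' h (piece s (g 2) k2) p.1 p.2‖ₑ := by
        refine lintegral_mono fun p => ?_
        refine (mul_le_mul' (mul_le_mul' (ext_piece hs0 hh (hint 0).1 (hgs 0) p)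
          (ext_piece hs0 hh (hint 1).1 (hgs 1) p)) (ext_piece hs0 hh (hint 2).1 (hgs 2) p)).trans
          (le_of_eq ?_)
        rw [Finset.sum_mul_sum, Finset.sum_mul]
        refine Finset.sum_congr rfl fun k0 _ => ?_
        rw [Finset.sum_mul]
        refine Finset.sum_congr rfl fun k1 _ => ?_
        rw [Finset.mul_sum]
    _ = ∑ k0 ∈ Q, ∑ k1 ∈ Q, ∑ k2 ∈ Q, ∫⁻ p in cyl R, ‖ext' h (piece s (g 0) k0) p.1 p.2‖ₑ *
        ‖ext' h (piece s (g 1) k1) p.1 p.2‖ₑ * ‖ext' h (piece s (g 2) k2) p.1 p.2‖ₑ := by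
        have m3 : ∀ k0 k1 k2, Measurable (fun p : E2 × ℝ => ‖ext' h (piece s (g 0) k0) p.1 p.2‖ₑ *
            ‖ext' h (piece s (g 1) k1) p.1 p.2‖ₑ * ‖ext' h (piece s (g 2) k2) p.1 p.2‖ₑ) :=
          fun k0 k1 k2 => ((hm 0 k0).mul (hm 1 k1)).mul (hm 2 k2)
        rw [lintegral_finsetSum _ (fun k0 _ => Finset.measurable_fun_sum _ fun k1 _ =>
          Finset.measurable_fun_sum _ fun k2 _ => m3 k0 k1 k2)]
        refine Finset.sum_congr rfl fun k0 _ => ?_
        rw [lintegral_finsetSum _ (fun k1 _ => Finset.measurable_fun_sum _ fun k2 _ => m3 k0 k1 k2)]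
        refine Finset.sum_congr rfl fun k1 _ => ?_
        rw [lintegral_finsetSum _ (fun k2 _ => m3 k0 k1 k2)]
    _ ≤ ∑ k0 ∈ Q, ∑ k1 ∈ Q, ∑ k2 ∈ Q, X :=
        Finset.sum_le_sum fun k0 _ => Finset.sum_le_sum fun k1 _ => Finset.sum_le_sum fun k2 _ =>
          hone k0 k1 k2
    _ = (Q.card : ℝ≥0∞) ^ 3 * X := by
        simp only [Finset.sum_const, nsmul_eq_mul]
        ring
    _ ≤ ENNReal.ofReal ((8 / s) ^ 2) ^ 3 * X := mul_le_mul_left (pow_le_pow_left' hcard 3) _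
    _ = _ := by
        rw [hX, ← mul_assoc, ← ENNReal.ofReal_pow (by positivity),
          ← ENNReal.ofReal_mul (by positivity)]
        congr 2
        have e1 : (8 / s) = 8 * b * ν⁻¹ := by rw [hs]; field_simp
        have e2 : (R / ν) ^ ε = R ^ ε * (ν⁻¹) ^ ε := by
          rw [div_eq_mul_inv, Real.mul_rpow (by positivity) (by positivity)]
        have e3 : (ν⁻¹) ^ (7 + ε) = (ν⁻¹) ^ 7 * (ν⁻¹) ^ ε := by
          rw [Real.rpow_add (by positivity)]
          congr 1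
          exact_mod_cast Real.rpow_natCast (ν⁻¹) 7
        rw [e1, e2, e3]
        ring

end Crest.Agent.R138.BCT191
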