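import Mathlib
import Crest.Agent.R138.BCT8_191

/-!
# Trilinear restriction, file 9 (row 138, helper191): wrapper for the class `ParB`
-/

set_option autoImplicit false

open MeasureTheory Set
open scoped ENNReal ContDiff

namespace Crest.Agent.R138.BCT191

open Crest.Agent.R138.Defs (E2 cyl ParB)
open Crest.Agent.R138.Bct383 (sq_mul sq_mono sq_mul_self measurable_sq)

local notation "rt" => Crest.Agent.R138.Bct383.sq
local notation "ext'" => Crest.Agent.R138.Defs.ext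

/-- the gradient of a phase of the class is Lipschitz -/
lemma lip_of_ParB {B : ℕ → ℝ} {h : E2 → ℝ} (hh : ParB B h) (ξ ξ' : E2) :
    ‖gradient h ξ - gradient h ξ'‖ ≤ (1 + |B 2|) * ‖ξ - ξ'‖ := by
  set f : E2 → ℝ := fun ξ => h ξ - ‖ξ‖ ^ 2 / 2 with hf
  have hfc : ContDiff ℝ ∞ f := hh.1.sub ((contDiff_norm_sq ℝ).div_const 2)
  have hfd : Differentiable ℝ f := hfc.differentiable (by simp)
  have hhd : Differentiable ℝ h := hh.1.differentiable (by simp)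
  have hf2 : ContDiff ℝ 1 (fderiv ℝ f) := hfc.fderiv_right (by norm_cast)
  have hb : ∀ x : E2, ‖fderiv ℝ (fderiv ℝ f) x‖ ≤ |B 2| := by
    intro x
    rw [← norm_iteratedFDeriv_one, norm_iteratedFDeriv_fderiv]
    exact (hh.2 2 le_rfl x).trans (le_abs_self _)
  have h1 : ‖fderiv ℝ f ξ - fderiv ℝ f ξ'‖ ≤ |B 2| * ‖ξ - ξ'‖ :=
    Convex.norm_image_sub_le_of_norm_fderiv_le (s := univ)
      (fun x _ => (hf2.differentiable (by simp)) x) (fun x _ => hb x) convex_univ (mem_univ _)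
      (mem_univ _)
  have hgs : ∀ x : E2, gradient h x = gradient f x + x := by
    intro x
    have e1 : HasFDerivAt h (InnerProductSpace.toDual ℝ E2 (gradient h x)) x :=
      (hhd x).hasGradientAt.hasFDerivAt
    have e2 : HasFDerivAt (fun ξ : E2 => ‖ξ‖ ^ 2 / 2) (InnerProductSpace.toDual ℝ E2 x) x := by
      have h3 := (hasStrictFDerivAt_norm_sq x).hasFDerivAt.mul_const (1 / 2 : ℝ)
      refine (h3.congr_fderiv ?_).congr_of_eventuallyEq
        (Filter.Eventually.of_forall fun y => by ring)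
      ext v
      simp
    have e3 := e1.sub e2
    rw [← map_sub] at e3
    have e4 : HasGradientAt f (gradient h x - x) x := by
      rw [hasGradientAt_iff_hasFDerivAt]
      exact e3
    rw [e4.gradient]
    abel
  have h2 : ‖gradient f ξ - gradient f ξ'‖ = ‖fderiv ℝ f ξ - fderiv ℝ f ξ'‖ := by
    unfold gradient
    rw [← map_sub, LinearIsometryEquiv.norm_map]
  rw [hgs, hgs]
  have e : gradient f ξ + ξ - (gradient f ξ' + ξ') = (gradient f ξ - gradient f ξ') + (ξ - ξ') := by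
    abel
  rw [e]
  calc ‖(gradient f ξ - gradient f ξ') + (ξ - ξ')‖
      ≤ ‖gradient f ξ - gradient f ξ'‖ + ‖ξ - ξ'‖ := norm_add_le _ _
    _ ≤ |B 2| * ‖ξ - ξ'‖ + ‖ξ - ξ'‖ := by rw [h2]; gcongr
    _ = _ := by ring

/-- **trilinear restriction for the class `ParB B`**, normalised phases -/
theorem trilinear_ParB (B : ℕ → ℝ) (ε : ℝ) (hε : 0 < ε) :
    ∃ C : ℝ, 0 < C ∧ ∀ h : E2 → ℝ, ParB B h → ‖gradient h 0‖ ≤ 1 →
    ∀ ν R : ℝ, 0 < ν → ν ≤ 1 → 1 ≤ R → ∀ g : Fin 3 → E2 → ℂ, (∀ j, Measurable (g j)) →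
    (∀ j, ∃ B : ℝ, ∀ ξ, ‖g j ξ‖ ≤ B) → (∀ j ξ, g j ξ ≠ 0 → ‖ξ‖ ≤ 2) →
    (∀ ξ : Fin 3 → E2, (∀ j, g j (ξ j) ≠ 0) → ν ≤ |area fun j => gradient h (ξ j)|) →
      ∫⁻ p in cyl R, ‖ext' h (g 0) p.1 p.2‖ₑ * ‖ext' h (g 1) p.1 p.2‖ₑ * ‖ext' h (g 2) p.1 p.2‖ₑ ≤
        ENNReal.ofReal (C * (ν⁻¹) ^ (7 + ε) * R ^ ε) *
          (rt (En (g 0)) * rt (En (g 1)) * rt (En (g 2))) := by
  obtain ⟨C, hC, h⟩ := trilinear_restriction (1 + |B 2|) ε (by positivity) hε
  refine ⟨C, hC, fun f hf hg0 => ?_⟩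
  refine h f (hf.1.differentiable (by simp)) (lip_of_ParB hf) (hg0.trans ?_)
  have := abs_nonneg (B 2)
  linarith

end Crest.Agent.R138.BCT191
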