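import Crest.Agent.R138.Bn9_759
import Crest.Agent.R138.BCT9_191

/-! R138, broad/narrow end, leaf A4 part 1 (helper759): `BN2` on `cyl (2R)` and with helper191's
trilinear restriction plugged in. -/

set_option autoImplicit false

open MeasureTheory
open scoped ENNReal

namespace Crest.Agent.R138.Bn759

open Crest.Agent.R138.Defs (E2 ee ext ParB cyl)
open Crest.Agent.R138.Bil882 (NearId ee_eq Gam W lip_of_grad norm_le_add planar_bilinear wt)

lemma avg_ge' {f : E2 × ℝ → ℝ≥0∞} (hf : Measurable f) {K R S : ℝ} (hK : 0 < K) (hS : R + K ≤ S) :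
    ∫⁻ p in cyl R, f p ≤ ∫⁻ z in cyl S, (volume (U K z))⁻¹ * ∫⁻ p in U K z, f p := by
  rw [avg_eq hf hK _, ← lintegral_const_mul' _ _
    (ENNReal.inv_ne_top.2 (vU_ne_zero hK 0)), ← lintegral_indicator (measurableSet_cyl R)]
  refine lintegral_mono fun p => ?_
  by_cases hp : p ∈ cyl R
  · rw [Set.indicator_of_mem hp, Set.inter_eq_self_of_subset_right
      (U_subset_cyl hp hS), volume_U hK, volume_U hK, ← volume_U hK 0]
    rw [mul_comm (f p), ← mul_assoc, ENNReal.inv_mul_cancel (vU_ne_zero hK 0) (vU_ne_top hK 0),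
      one_mul]
  · rw [Set.indicator_of_notMem hp]; exact bot_le

lemma avg_le' {f : E2 × ℝ → ℝ≥0∞} (hf : Measurable f) {K S T : ℝ} (hK : 0 < K) (hT : S + K ≤ T) :
    ∫⁻ z in cyl S, (volume (U K z))⁻¹ * ∫⁻ p in U K z, f p ≤ ∫⁻ p in cyl T, f p := by
  rw [avg_eq hf hK _, ← lintegral_const_mul' _ _
    (ENNReal.inv_ne_top.2 (vU_ne_zero hK 0)), ← lintegral_indicator (measurableSet_cyl _)]
  refine lintegral_mono fun p => ?_
  by_cases hp : p ∈ cyl T
  · rw [Set.indicator_of_mem hp]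
    have hle : volume (cyl S ∩ U K p) ≤ volume (U K 0) := by
      calc volume (cyl S ∩ U K p) ≤ volume (U K p) := measure_mono Set.inter_subset_right
        _ = volume (U K 0) := by rw [volume_U hK, volume_U hK]
    calc (volume (U K 0))⁻¹ * (f p * volume (cyl S ∩ U K p))
        ≤ (volume (U K 0))⁻¹ * (f p * volume (U K 0)) :=
          mul_le_mul_right (mul_le_mul_right hle _) _
      _ = f p := by
          rw [mul_comm (f p), ← mul_assoc,
            ENNReal.inv_mul_cancel (vU_ne_zero hK 0) (vU_ne_top hK 0), one_mul]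
  · have e : cyl S ∩ U K p = ∅ := by
      by_contra hne
      obtain ⟨z, hz1, hz2⟩ := Set.nonempty_iff_ne_empty.2 hne
      exact hp (U_subset_cyl (S := T) hz1 hT (mem_U_comm.1 hz2))
    rw [e, measure_empty, mul_zero, mul_zero]
    exact bot_le

/-- trilinear restriction (helper191) in the form `B3`. -/
theorem B3_holds (ε : ℝ) (hε : 0 < ε) : ∃ C : ℝ, 0 < C ∧ B3 2 ε (7 + ε) C := by
  obtain ⟨C, hC, h⟩ := Crest.Agent.R138.BCT191.trilinear_restriction 2 ε (by norm_num) hε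
  refine ⟨C, hC, ?_⟩
  intro f hd hf0 hL ν R hν hν1 hR g hgm hgb hgs htr
  have h1 := h f hd hL hf0 ν R hν hν1 hR g hgm hgb (fun j ξ hξ => by
    by_contra hc; exact hξ (hgs j ξ (not_le.1 hc))) (fun ξ hξ => by
      have h2 := htr ξ hξ
      unfold dt at h2
      unfold Crest.Agent.R138.BCT191.area
      convert h2 using 2
      simp only [PiLp.sub_apply]
      ring)
  have hN : ∀ j, Nice 2 (g j) := fun j => ⟨hgm j, hgb j, hgs j⟩
  have hE : ∀ j, Crest.Agent.R138.Bct383.sq (Crest.Agent.R138.BCT191.En (g j)) =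
      ENNReal.ofReal √(∫ ξ, ‖g j ξ‖ ^ 2) := by
    intro j
    have h3 : Crest.Agent.R138.BCT191.En (g j) = ENNReal.ofReal (∫ ξ, ‖g j ξ‖ ^ 2) := by
      unfold Crest.Agent.R138.BCT191.En
      rw [ofReal_integral_eq_lintegral_ofReal (hN j).sq_integrable
        (Filter.Eventually.of_forall fun ξ => by positivity)]
      refine lintegral_congr fun ξ => ?_
      rw [ENNReal.ofReal_pow (norm_nonneg _), ofReal_norm]
    rw [h3]
    unfold Crest.Agent.R138.Bct383.sq
    rw [ENNReal.ofReal_rpow_of_nonneg (integral_nonneg fun ξ => by positivity) (by norm_num),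
      ← Real.sqrt_eq_rpow]
  rw [hE, hE, hE] at h1
  refine h1.trans (le_of_eq ?_)
  rw [← ENNReal.ofReal_mul (Real.sqrt_nonneg _), ← ENNReal.ofReal_mul (by positivity),
    ← ENNReal.ofReal_mul (by positivity)]
  congr 1
  rw [Real.inv_rpow hν.le, ← Real.rpow_neg hν.le]
  ring

set_option maxHeartbeats 1000000 in
/-- **BN2** with everything on `cyl (2 R)`, `K ≤ R / 2`. -/
theorem bn_int2 (B : ℕ → ℝ) (hB2 : B 2 ≤ 1 / 10) {ε A C3 : ℝ} (hε : 0 ≤ ε) (hA : 0 ≤ A)
    (hC3 : 0 ≤ C3) (hB3 : B3 2 ε A C3) (N : ℕ) :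
    ∃ C : ℝ, 0 < C ∧ ∀ h : E2 → ℝ, ParB B h → ‖gradient h 0‖ ≤ 1 →
    ∀ K1 K R : ℝ, 1 ≤ K1 → K1 ≤ K → K ≤ R / 2 → ∀ g : E2 → ℂ, Nice 1 g →
      ∫⁻ p in cyl R, ‖ext h g p.1 p.2‖ₑ ^ 3 ≤
        ENNReal.ofReal C * (∑ a ∈ sq (nn K1),
          ∫⁻ p in cyl (2 * R), ‖ext h (pc h K1 {a} g) p.1 p.2‖ₑ ^ 3) +
        ENNReal.ofReal (C * K1 ^ 15) * NN N h g K (2 * R) +
        ENNReal.ofReal (C * K ^ (36 + 2 * A) * R ^ ε * (∫ ξ, ‖g ξ‖ ^ 2) ^ (3 / 2 : ℝ)) := by
  classical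
  set n := max 1 N with hn
  have hn1 : 1 ≤ n := le_max_left _ _
  have hnN : N ≤ 2 * n := by have := le_max_right 1 N; omega
  obtain ⟨C, hC, hball⟩ := bn_ball B hB2 n hn1
  have hI : IW (4 * n) ≠ ∞ := IW_ne_top (by omega)
  set I3 : ℝ := (IW (4 * n)).toReal with hI3
  have hI30 : 0 ≤ I3 := ENNReal.toReal_nonneg
  set CC : ℝ := C + C * (2 ^ n) ^ (3 / 2 : ℝ) + C * (81 * 81) ^ 3 * I3 ^ 3 * C3 * 2 ^ ε with hCC
  have hCC0 : 0 < CC := by positivity
  refine ⟨CC, hCC0, ?_⟩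
  intro h hh h0 K1 K R hK1 hK hKR2 g hg
  have hKR : K ≤ R := by linarith
  have hK0 : 0 < K := by linarith
  have hKK : 1 ≤ K := hK1.trans hK
  have hR0 : 0 < R := by linarith
  have hd : Differentiable ℝ h := hh.1.differentiable (by simp)
  have hc : Continuous h := hd.continuous
  have hN : ∀ j : JJ (nn K) (nn K1), Nice 1 (Gj h K K1 g j) := fun j =>
    (hg.pc hh K1 _).pc hh K _
  have mf : Measurable fun p : E2 × ℝ => ‖ext h g p.1 p.2‖ₑ ^ 3 :=
    (hg.cont hc).measurable.enorm.pow_const 3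
  have mfa : ∀ a : ℤ × ℤ, Measurable fun p : E2 × ℝ => ‖ext h (pc h K1 {a} g) p.1 p.2‖ₑ ^ 3 :=
    fun a => ((hg.pc hh K1 {a}).cont hc).measurable.enorm.pow_const 3
  refine (avg_ge' mf hK0 (S := R + K) le_rfl).trans ?_
  refine (lintegral_mono fun z => hball h hh h0 K1 K hK1 hK g hg z).trans ?_
  rw [lintegral_add_right, lintegral_add_left]
  rotate_left
  · exact (Finset.measurable_fun_sum _ fun a _ => measurable_avg (mfa _) hK0).const_mul _
  · exact (Finset.measurable_fun_sum _ fun q _ => ((measurable_ML _ hc K (hN _)).mul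
      (measurable_ML _ hc K (hN _))).mul (measurable_ML _ hc K (hN _))).const_mul _
  have hSR : cyl (R + K) ⊆ cyl (2 * R) := fun p hp => ⟨hp.1.trans (by linarith), hp.2.trans (by linarith)⟩
  refine add_le_add (add_le_add ?_ ?_) ?_
  · -- narrow
    rw [lintegral_const_mul' _ _ ENNReal.ofReal_ne_top, lintegral_finsetSum _ fun a _ =>
      measurable_avg (mfa _) hK0]
    have e1 : ∑ a : {a // a ∈ sq (nn K1)}, ∫⁻ z in cyl (R + K), (volume (U K z))⁻¹ *
        ∫⁻ p in U K z, ‖ext h (pc h K1 {(a : ℤ × ℤ)} g) p.1 p.2‖ₑ ^ 3 ≤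
        ∑ a ∈ sq (nn K1), ∫⁻ p in cyl (2 * R), ‖ext h (pc h K1 {a} g) p.1 p.2‖ₑ ^ 3 := by
      rw [← Finset.sum_coe_sort (sq (nn K1)) (fun a => ∫⁻ p in cyl (2 * R),
        ‖ext h (pc h K1 {a} g) p.1 p.2‖ₑ ^ 3)]
      exact Finset.sum_le_sum fun a _ => avg_le' (mfa _) hK0 (S := R + K) (by linarith)
    refine mul_le_mul (ENNReal.ofReal_le_ofReal ?_) e1 bot_le bot_le
    rw [hCC]
    have : 0 ≤ C * (2 ^ n) ^ (3 / 2 : ℝ) + C * (81 * 81) ^ 3 * I3 ^ 3 * C3 * 2 ^ ε := by positivity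
    linarith
  · -- bilinear
    rw [lintegral_const_mul' _ _ ENNReal.ofReal_ne_top]
    calc _ ≤ ENNReal.ofReal (C * K1 ^ 15) *
          (ENNReal.ofReal ((2 ^ n) ^ (3 / 2 : ℝ)) * NN N h g K (2 * R)) := by
          gcongr
          exact (lintegral_mono_set hSR).trans (QQ_le_NN hnN h hK0 g (2 * R))
      _ = ENNReal.ofReal (C * (2 ^ n) ^ (3 / 2 : ℝ) * K1 ^ 15) * NN N h g K (2 * R) := by
          rw [← mul_assoc, ← ENNReal.ofReal_mul (by positivity)]
          congr 2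
          ring
      _ ≤ _ := by
          refine mul_le_mul_left (ENNReal.ofReal_le_ofReal ?_) _
          refine mul_le_mul_of_nonneg_right ?_ (by positivity)
          rw [hCC]
          have : 0 ≤ C + C * (81 * 81) ^ 3 * I3 ^ 3 * C3 * 2 ^ ε := by positivity
          linarith
  · -- broad
    have hmM : ∀ q : JJ (nn K) (nn K1) × JJ (nn K) (nn K1) × JJ (nn K) (nn K1),
        Measurable fun z => ML (4 * n) h K (Gj h K K1 g q.1) z *
          ML (4 * n) h K (Gj h K K1 g q.2.1) z * ML (4 * n) h K (Gj h K K1 g q.2.2) z := fun q =>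
      ((measurable_ML _ hc K (hN _)).mul (measurable_ML _ hc K (hN _))).mul
        (measurable_ML _ hc K (hN _))
    rw [lintegral_const_mul' _ _ ENNReal.ofReal_ne_top, lintegral_finsetSum _ fun q _ => hmM q]
    set D : ℝ := C3 * ((K ^ 2)⁻¹) ^ (-A) * (2 * R) ^ ε * √(∫ ξ, ‖g ξ‖ ^ 2) ^ 3 with hD
    have hD0 : 0 ≤ D := by positivity
    have e1 : ∀ q ∈ Tr K (nn K) (nn K1), ∫⁻ z in cyl (R + K),
        ML (4 * n) h K (Gj h K K1 g q.1) z * ML (4 * n) h K (Gj h K K1 g q.2.1) z *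
            ML (4 * n) h K (Gj h K K1 g q.2.2) z ≤ ENNReal.ofReal (I3 ^ 3 * D) := by
      intro q hq
      refine (lintegral_mono_set hSR).trans ?_
      refine (triple_avg (4 * n) hc hK0 (hN q.1) (hN q.2.1) (hN q.2.2) (cyl (2 * R)) _
        (broad_piece hC3 hB3 hB2 hh h0 hK1 hK hKR hg q hq)).trans (le_of_eq ?_)
      rw [ENNReal.ofReal_mul (p := I3 ^ 3) (by positivity), ENNReal.ofReal_pow hI30, hI3,
        ENNReal.ofReal_toReal hI]
    have e2 : ((Tr K (nn K) (nn K1)).card : ℝ≥0∞) ≤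
        ENNReal.ofReal ((81 * K ^ 2 * (81 * K ^ 2)) ^ 3) := by
      refine ofReal_card_le ?_
      have h1 : ((Fintype.card (JJ (nn K) (nn K1)) : ℕ) : ℝ) ≤ 81 * K ^ 2 * (81 * K ^ 2) := by
        rw [Fintype.card_prod, Fintype.card_coe, Fintype.card_coe]
        push_cast
        refine mul_le_mul (card_sq_le hKK) ((card_sq_le hK1).trans ?_) (by positivity)
          (by positivity)
        gcongr
      have h2 : ((Tr K (nn K) (nn K1)).card : ℝ) ≤
          ((Fintype.card (JJ (nn K) (nn K1)) : ℕ) : ℝ) ^ 3 := by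
        have h3 : (Tr K (nn K) (nn K1)).card ≤ Fintype.card (JJ (nn K) (nn K1)) ^ 3 := by
          refine (Finset.card_le_univ _).trans (le_of_eq ?_)
          simp only [Fintype.card_prod]
          ring
        exact_mod_cast h3
      refine h2.trans ?_
      gcongr
    calc _ ≤ ENNReal.ofReal (C * K ^ 24) * ∑ q ∈ Tr K (nn K) (nn K1),
          ENNReal.ofReal (I3 ^ 3 * D) := by
          gcongr with q hq
          exact e1 q hq
      _ = ENNReal.ofReal (C * K ^ 24) * (((Tr K (nn K) (nn K1)).card : ℝ≥0∞) *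
          ENNReal.ofReal (I3 ^ 3 * D)) := by simp
      _ ≤ ENNReal.ofReal (C * K ^ 24) * (ENNReal.ofReal ((81 * K ^ 2 * (81 * K ^ 2)) ^ 3) *
          ENNReal.ofReal (I3 ^ 3 * D)) := by gcongr
      _ = ENNReal.ofReal (C * K ^ 24 * ((81 * K ^ 2 * (81 * K ^ 2)) ^ 3 * (I3 ^ 3 * D))) := by
          rw [← ENNReal.ofReal_mul (by positivity), ← ENNReal.ofReal_mul (by positivity)]
      _ ≤ _ := by
          refine ENNReal.ofReal_le_ofReal ?_
          have hE : 0 ≤ ∫ ξ, ‖g ξ‖ ^ 2 := integral_nonneg fun ξ => by positivity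
          have r1 : √(∫ ξ, ‖g ξ‖ ^ 2) ^ 3 = (∫ ξ, ‖g ξ‖ ^ 2) ^ (3 / 2 : ℝ) := by
            rw [Real.sqrt_eq_rpow, ← Real.rpow_natCast, ← Real.rpow_mul hE]
            norm_num
          have r2 : ((K ^ 2)⁻¹) ^ (-A) = K ^ (2 * A) := by
            rw [Real.inv_rpow (by positivity), ← Real.rpow_neg (by positivity), neg_neg,
              ← Real.rpow_natCast, ← Real.rpow_mul hK0.le]
            norm_num
          have r3 : (2 * R) ^ ε = 2 ^ ε * R ^ ε := Real.mul_rpow (by norm_num) hR0.le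
          have r4 : K ^ (36 + 2 * A) = K ^ 36 * K ^ (2 * A) := by
            rw [Real.rpow_add hK0]
            congr 1
            exact_mod_cast Real.rpow_natCast K 36
          rw [hD, r1, r2, r3, r4]
          have e3 : C * K ^ 24 * ((81 * K ^ 2 * (81 * K ^ 2)) ^ 3 *
              (I3 ^ 3 * (C3 * K ^ (2 * A) * (2 ^ ε * R ^ ε) *
                (∫ ξ, ‖g ξ‖ ^ 2) ^ (3 / 2 : ℝ)))) =
              (C * (81 * 81) ^ 3 * I3 ^ 3 * C3 * 2 ^ ε) * (K ^ 36 * K ^ (2 * A)) * R ^ ε *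
                (∫ ξ, ‖g ξ‖ ^ 2) ^ (3 / 2 : ℝ) := by ring
          rw [e3]
          have h5 : C * (81 * 81) ^ 3 * I3 ^ 3 * C3 * 2 ^ ε ≤ CC := by
            rw [hCC]
            have : 0 ≤ C + C * (2 ^ n) ^ (3 / 2 : ℝ) := by positivity
            linarith
          gcongr

end Crest.Agent.R138.Bn759
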