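import Crest.Agent.R138.BnA1_759
import Crest.Agent.R138.ZmDef2_858
import Crest.Agent.R138.Sup5_882

/-! R138, broad/narrow end, leaf A4 part 2 (helper759): pieces, subadditivity, trivial bound. -/

set_option autoImplicit false

open MeasureTheory
open scoped ENNReal

namespace Crest.Agent.R138.Bn759

open Crest.Agent.R138.Defs (E2 ee ext ParB cyl)
open Crest.Agent.R138.Bil882 (NearId ee_eq Gam W lip_of_grad norm_le_add planar_bilinear wt)
open Crest.Agent.R138.W188 (St SS CC En PBox)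
open Crest.Agent.R138.Zm858 (PBoxLe ZIn ZoomNN2 ZoomCC2)

lemma rpow_sum_le {ι : Type*} (s : Finset ι) (x : ι → ℝ≥0∞) {p : ℝ} (hp : 0 < p) :
    (∑ i ∈ s, x i) ^ p ≤ (s.card : ℝ≥0∞) ^ p * ∑ i ∈ s, x i ^ p := by
  classical
  rcases s.eq_empty_or_nonempty with hs | hs
  · subst hs
    simp [hp]
  · obtain ⟨i, hi, hmax⟩ := Finset.exists_max_image s x hs
    calc (∑ i ∈ s, x i) ^ p ≤ ((s.card : ℝ≥0∞) * x i) ^ p := by
          refine ENNReal.rpow_le_rpow ?_ hp.le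
          calc ∑ i ∈ s, x i ≤ ∑ _j ∈ s, x i := Finset.sum_le_sum fun j hj => hmax j hj
            _ = (s.card : ℝ≥0∞) * x i := by simp
      _ = (s.card : ℝ≥0∞) ^ p * x i ^ p := ENNReal.mul_rpow_of_nonneg _ _ hp.le
      _ ≤ _ := mul_le_mul_right (Finset.single_le_sum (f := fun i => x i ^ p)
          (fun _ _ => bot_le) hi) _

lemma pow_sum_le {ι : Type*} (s : Finset ι) (x : ι → ℝ≥0∞) {n : ℕ} (hn : 0 < n) :
    (∑ i ∈ s, x i) ^ n ≤ (s.card : ℝ≥0∞) ^ n * ∑ i ∈ s, x i ^ n := by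
  have h := rpow_sum_le s x (p := (n : ℝ)) (by exact_mod_cast hn)
  simpa only [ENNReal.rpow_natCast] using h

lemma _root_.Crest.Agent.R138.W188.St.nice {B : ℕ → ℝ} {q : ℝ} {Na : ℕ} {M0 σ : ℝ} {h : E2 → ℝ}
    {g : E2 → ℂ} {R D : ℝ} (H : St B q Na M0 σ h g R D) : Nice σ g := ⟨H.meas, H.bdd, H.supp⟩

lemma grad0 {h : E2 → ℝ} (h1 : fderiv ℝ h 0 = 0) : ‖gradient h 0‖ ≤ 1 := by
  have : gradient h 0 = 0 := by unfold gradient; rw [h1, map_zero]
  rw [this, norm_zero]; norm_num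

/-! ### subadditivity -/

lemma CC_sum_le {h : E2 → ℝ} (hh : Continuous h) {r : ℝ} {ι : Type*} (s : Finset ι)
    {G : ι → E2 → ℂ} (hG : ∀ i ∈ s, Nice r (G i)) (R : ℝ) :
    CC h (fun ξ => ∑ i ∈ s, G i ξ) R ≤ (s.card : ℝ≥0∞) ^ 3 * ∑ i ∈ s, CC h (G i) R := by
  unfold Crest.Agent.R138.W188.CC
  have hm : ∀ i ∈ s, Measurable fun p : E2 × ℝ => ‖ext h (G i) p.1 p.2‖ₑ ^ 3 := fun i hi =>
    ((hG i hi).cont hh).measurable.enorm.pow_const 3
  calc ∫⁻ p in cyl R, ‖ext h (fun ξ => ∑ i ∈ s, G i ξ) p.1 p.2‖ₑ ^ 3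
      ≤ ∫⁻ p in cyl R, (s.card : ℝ≥0∞) ^ 3 * ∑ i ∈ s, ‖ext h (G i) p.1 p.2‖ₑ ^ 3 := by
        refine lintegral_mono fun p => ?_
        rw [ext_sum hh s hG]
        refine le_trans ?_ (pow_sum_le s (fun i => ‖ext h (G i) p.1 p.2‖ₑ) (by norm_num))
        exact pow_le_pow_left' (enorm_sum_le _ _) 3
    _ = _ := by
        rw [lintegral_const_mul' _ _ (ENNReal.pow_ne_top (ENNReal.natCast_ne_top _)),
          lintegral_finsetSum' _ fun i hi => (hm i hi).aemeasurable]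

lemma NN_sum_le (N : ℕ) {h : E2 → ℝ} (hh : Continuous h) {r : ℝ} {ι : Type*} (s : Finset ι)
    {G : ι → E2 → ℂ} (hG : ∀ i ∈ s, Nice r (G i)) (w R : ℝ) (hw : 0 < w) :
    NN N h (fun ξ => ∑ i ∈ s, G i ξ) w R ≤
      (s.card : ℝ≥0∞) ^ (9 / 2 : ℝ) * ∑ i ∈ s, NN N h (G i) w R := by
  unfold NN
  have hm : ∀ i ∈ s, Measurable fun p : E2 × ℝ => ‖ext h (G i) p.1 p.2‖ₑ ^ 2 := fun i hi =>
    ((hG i hi).cont hh).measurable.enorm.pow_const 2
  have hmw : ∀ z : E2 × ℝ, Measurable fun p : E2 × ℝ => ENNReal.ofReal (wt N w z.1 z.2 p) :=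
    fun z => (Crest.Agent.R138.Bil882.measurable_wt N w z.1 z.2).ennreal_ofReal
  set a : ι → E2 × ℝ → ℝ≥0∞ := fun i z => ENNReal.ofReal (w ^ 3)⁻¹ *
    ∫⁻ p : E2 × ℝ, ‖ext h (G i) p.1 p.2‖ₑ ^ 2 * ENNReal.ofReal (wt N w z.1 z.2 p) with ha
  have hpt : ∀ z : E2 × ℝ, (ENNReal.ofReal (w ^ 3)⁻¹ * ∫⁻ p : E2 × ℝ,
      ‖ext h (fun ξ => ∑ i ∈ s, G i ξ) p.1 p.2‖ₑ ^ 2 * ENNReal.ofReal (wt N w z.1 z.2 p)) ^
        (3 / 2 : ℝ) ≤ (s.card : ℝ≥0∞) ^ (9 / 2 : ℝ) * ∑ i ∈ s, a i z ^ (3 / 2 : ℝ) := by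
    intro z
    have h1 : ENNReal.ofReal (w ^ 3)⁻¹ * ∫⁻ p : E2 × ℝ,
        ‖ext h (fun ξ => ∑ i ∈ s, G i ξ) p.1 p.2‖ₑ ^ 2 * ENNReal.ofReal (wt N w z.1 z.2 p) ≤
        (s.card : ℝ≥0∞) ^ 2 * ∑ i ∈ s, a i z := by
      have h2 : ∫⁻ p : E2 × ℝ, ‖ext h (fun ξ => ∑ i ∈ s, G i ξ) p.1 p.2‖ₑ ^ 2 *
          ENNReal.ofReal (wt N w z.1 z.2 p) ≤ (s.card : ℝ≥0∞) ^ 2 * ∑ i ∈ s,
          ∫⁻ p : E2 × ℝ, ‖ext h (G i) p.1 p.2‖ₑ ^ 2 * ENNReal.ofReal (wt N w z.1 z.2 p) := by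
        calc _ ≤ ∫⁻ p : E2 × ℝ, (s.card : ℝ≥0∞) ^ 2 * ∑ i ∈ s, ‖ext h (G i) p.1 p.2‖ₑ ^ 2 *
              ENNReal.ofReal (wt N w z.1 z.2 p) := by
              refine lintegral_mono fun p => ?_
              rw [ext_sum hh s hG, ← Finset.sum_mul, ← mul_assoc]
              refine mul_le_mul_left ?_ _
              refine le_trans ?_ (pow_sum_le s (fun i => ‖ext h (G i) p.1 p.2‖ₑ) (by norm_num))
              exact pow_le_pow_left' (enorm_sum_le _ _) 2
          _ = _ := by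
              have hmz : ∀ i ∈ s, AEMeasurable (fun p : E2 × ℝ => ‖ext h (G i) p.1 p.2‖ₑ ^ 2 *
                  ENNReal.ofReal (wt N w z.1 z.2 p)) := fun i hi =>
                ((hm i hi).mul (hmw z)).aemeasurable
              rw [lintegral_const_mul' _ _ (ENNReal.pow_ne_top (ENNReal.natCast_ne_top _)),
                lintegral_finsetSum' _ hmz]
      calc _ ≤ ENNReal.ofReal (w ^ 3)⁻¹ * ((s.card : ℝ≥0∞) ^ 2 * ∑ i ∈ s,
          ∫⁻ p : E2 × ℝ, ‖ext h (G i) p.1 p.2‖ₑ ^ 2 * ENNReal.ofReal (wt N w z.1 z.2 p)) := by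
            gcongr
        _ = _ := by
            rw [ha, ← Finset.mul_sum]
            ring
    calc _ ≤ ((s.card : ℝ≥0∞) ^ 2 * ∑ i ∈ s, a i z) ^ (3 / 2 : ℝ) :=
          ENNReal.rpow_le_rpow h1 (by norm_num)
      _ = ((s.card : ℝ≥0∞) ^ 2) ^ (3 / 2 : ℝ) * (∑ i ∈ s, a i z) ^ (3 / 2 : ℝ) :=
          ENNReal.mul_rpow_of_nonneg _ _ (by norm_num)
      _ ≤ ((s.card : ℝ≥0∞) ^ 2) ^ (3 / 2 : ℝ) *
          ((s.card : ℝ≥0∞) ^ (3 / 2 : ℝ) * ∑ i ∈ s, a i z ^ (3 / 2 : ℝ)) := by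
          gcongr
          exact rpow_sum_le s _ (by norm_num)
      _ = _ := by
          rw [← mul_assoc]
          congr 1
          rw [← ENNReal.rpow_natCast, ← ENNReal.rpow_mul,
            ← ENNReal.rpow_add_of_nonneg _ _ (by norm_num) (by norm_num)]
          norm_num
  have hc : ((s.card : ℝ≥0∞) ^ (9 / 2 : ℝ)) ≠ ∞ :=
    ENNReal.rpow_ne_top_of_nonneg (by norm_num) (ENNReal.natCast_ne_top _)
  calc _ ≤ ∫⁻ z in cyl R, (s.card : ℝ≥0∞) ^ (9 / 2 : ℝ) * ∑ i ∈ s, a i z ^ (3 / 2 : ℝ) :=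
        lintegral_mono hpt
    _ ≤ _ := by
        rw [lintegral_const_mul' _ _ hc]
        gcongr
        have hma : ∀ i ∈ s, Measurable (a i) := by
          intro i hi
          rw [ha]
          refine Measurable.const_mul ?_ _
          have h3 : Measurable fun q : (E2 × ℝ) × (E2 × ℝ) =>
              ‖ext h (G i) q.2.1 q.2.2‖ₑ ^ 2 * ENNReal.ofReal (wt N w q.1.1 q.1.2 q.2) := by
            refine ((hm i hi).comp measurable_snd).mul ?_
            refine Measurable.ennreal_ofReal ?_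
            unfold Crest.Agent.R138.Bil882.wt
            fun_prop
          exact h3.lintegral_prod_right'
        rw [lintegral_finsetSum' _ fun i hi => ((hma i hi).pow_const _).aemeasurable]

/-! ### trivial bound -/

lemma En_nonneg' (g : E2 → ℂ) : 0 ≤ En g := integral_nonneg fun ξ => by positivity

lemma norm_ext_le {h : E2 → ℝ} {r : ℝ} {g : E2 → ℂ} (hg : Nice r g) (x : E2) (t : ℝ) :
    ‖ext h g x t‖ ≤ √(volume.real (Metric.closedBall (0 : E2) r)) * √(En g) := by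
  have h1 : ‖ext h g x t‖ ≤ ∫ ξ, ‖g ξ‖ := by
    unfold Crest.Agent.R138.Defs.ext
    refine (norm_integral_le_integral_norm _).trans (le_of_eq ?_)
    refine integral_congr_ae (Filter.Eventually.of_forall fun ξ => ?_)
    simp only
    rw [norm_mul, norm_ee, mul_one]
  refine h1.trans ?_
  have h2 : ∫ ξ, ‖g ξ‖ = ∫ ξ in Metric.closedBall (0 : E2) r, ‖g ξ‖ := by
    rw [setIntegral_eq_integral_of_forall_compl_eq_zero]
    intro ξ hξ
    rw [hg.s ξ (by simpa using hξ), norm_zero]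
  have hfin : IsFiniteMeasure ((volume : Measure E2).restrict (Metric.closedBall 0 r)) :=
    ⟨by rw [Measure.restrict_apply_univ]; exact measure_closedBall_lt_top⟩
  have hmem : MemLp (fun ξ => ‖g ξ‖) (ENNReal.ofReal 2)
      ((volume : Measure E2).restrict (Metric.closedBall 0 r)) := by
    have := ((memLp_of_bdd hg.m hg.b hg.s).restrict (Metric.closedBall 0 r)).norm
    simpa using this
  have h3 := integral_mul_le_Lp_mul_Lq_of_nonneg (μ := (volume : Measure E2).restrict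
    (Metric.closedBall 0 r)) (p := 2) (q := 2) ⟨by norm_num, by norm_num, by norm_num⟩
    (f := fun _ => (1:ℝ)) (g := fun ξ => ‖g ξ‖) (Filter.Eventually.of_forall fun _ => by simp)
    (Filter.Eventually.of_forall fun _ => norm_nonneg _) (memLp_const 1) hmem
  simp only [one_mul, Real.one_rpow, integral_const, smul_eq_mul, mul_one] at h3
  rw [h2]
  refine h3.trans ?_
  rw [Real.sqrt_eq_rpow, Real.sqrt_eq_rpow]
  have h4 : (volume.restrict (Metric.closedBall (0:E2) r)).real Set.univ =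
      volume.real (Metric.closedBall (0 : E2) r) := by
    simp [Measure.real]
  rw [h4]
  refine mul_le_mul_of_nonneg_left ?_ (by positivity)
  refine Real.rpow_le_rpow (integral_nonneg fun ξ => by positivity) ?_ (by norm_num)
  unfold Crest.Agent.R138.W188.En
  simp only [Real.rpow_two]
  exact setIntegral_le_integral hg.sq_integrable (Filter.Eventually.of_forall fun ξ => by positivity)

/-- trivial bound for bounded `R`. -/
lemma CC_triv (R0 M0 : ℝ) : ∃ C : ℝ, 0 ≤ C ∧ ∀ (B : ℕ → ℝ) (q : ℝ) (Na : ℕ) h g R D,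
    St B q Na M0 1 h g R D → R ≤ R0 → CC h g R ≤ ENNReal.ofReal (C * SS g R D) := by
  set V : ℝ := (volume (Metric.closedBall (0 : E2 × ℝ) R0)).toReal with hV
  set v : ℝ := √(volume.real (Metric.closedBall (0 : E2) 1)) with hv
  have hV0 : 0 ≤ V := ENNReal.toReal_nonneg
  have hv0 : 0 ≤ v := Real.sqrt_nonneg _
  set X : ℝ := (max 1 R0) ^ (|M0| / 2) with hX
  have hX0 : 0 ≤ X := by positivity
  refine ⟨V * v ^ 3 * X, by positivity, ?_⟩
  intro B q Na h g R D H hR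
  have hg := H.nice
  have hE := En_nonneg' g
  have hb : ∀ p : E2 × ℝ, ‖ext h g p.1 p.2‖ₑ ^ 3 ≤ ENNReal.ofReal ((v * √(En g)) ^ 3) := by
    intro p
    rw [ENNReal.ofReal_pow (by positivity)]
    gcongr
    rw [← ofReal_norm]
    exact ENNReal.ofReal_le_ofReal (norm_ext_le hg _ _)
  have hsub : cyl R ⊆ Metric.closedBall (0 : E2 × ℝ) R0 := by
    intro p hp
    rw [mem_closedBall_zero_iff, Prod.norm_def, max_le_iff]
    exact ⟨hp.1.trans hR, by rw [Real.norm_eq_abs]; exact hp.2.trans hR⟩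
  have h1 : CC h g R ≤ ENNReal.ofReal ((v * √(En g)) ^ 3) * ENNReal.ofReal V := by
    unfold Crest.Agent.R138.W188.CC
    calc _ ≤ ∫⁻ p in cyl R, ENNReal.ofReal ((v * √(En g)) ^ 3) := lintegral_mono hb
      _ = ENNReal.ofReal ((v * √(En g)) ^ 3) * volume (cyl R) := by
          rw [lintegral_const, Measure.restrict_apply_univ]
      _ ≤ _ := by
          gcongr
          rw [hV, ENNReal.ofReal_toReal measure_closedBall_lt_top.ne]
          exact measure_mono hsub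
  refine h1.trans ?_
  rw [← ENNReal.ofReal_mul (by positivity)]
  refine ENNReal.ofReal_le_ofReal ?_
  have h2 : √(En g) ≤ X * √D := by
    have h3 : En g ≤ X ^ 2 * D := by
      refine H.nd.trans ?_
      refine mul_le_mul_of_nonneg_right ?_ H.D0
      have h4 : R ^ M0 ≤ R ^ |M0| := Real.rpow_le_rpow_of_exponent_le H.R1 (le_abs_self _)
      have h5 : R ^ |M0| ≤ (max 1 R0) ^ |M0| :=
        Real.rpow_le_rpow (by linarith [H.R1]) (hR.trans (le_max_right _ _)) (abs_nonneg _)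
      have h6 : X ^ 2 = (max 1 R0) ^ |M0| := by
        rw [hX, ← Real.rpow_natCast, ← Real.rpow_mul (by positivity)]
        congr 1
        push_cast; ring
      rw [h6]
      exact h4.trans h5
    calc √(En g) ≤ √(X ^ 2 * D) := Real.sqrt_le_sqrt h3
      _ = X * √D := by rw [Real.sqrt_mul (by positivity), Real.sqrt_sq hX0]
  have h3 : (v * √(En g)) ^ 3 * V = V * v ^ 3 * (√(En g) * √(En g)) * √(En g) := by ring
  rw [h3, Real.mul_self_sqrt hE]
  unfold Crest.Agent.R138.W188.SS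
  calc V * v ^ 3 * En g * √(En g) ≤ V * v ^ 3 * En g * (X * √D) := by gcongr
    _ = V * v ^ 3 * X * (1 * En g * √D) := by ring
    _ ≤ V * v ^ 3 * X * (R * En g * √D) := by
        have := H.R1
        gcongr

end Crest.Agent.R138.Bn759
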