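import Crest.Agent.R138.BnA2_759

/-! R138, broad/narrow end, leaf A4 part 3 (helper759): pieces are inputs of the zoom. -/

set_option autoImplicit false

open MeasureTheory
open scoped ENNReal

namespace Crest.Agent.R138.Bn759

open Crest.Agent.R138.Defs (E2 ee ext ParB cyl)
open Crest.Agent.R138.Bil882 (NearId ee_eq Gam W lip_of_grad norm_le_add planar_bilinear wt)
open Crest.Agent.R138.W188 (St SS CC En PBox)
open Crest.Agent.R138.Zm858 (PBoxLe ZIn ZoomNN2 ZoomCC2)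
open Crest.Agent.R138.Sup882 (capf capf_eq capf_supp_ball pboxLe_piece)

lemma th_eq (x : ℝ) : Crest.Agent.R138.Wpk685.th x = th x := rfl

lemma pc_eq_capf (h : E2 → ℝ) {l : ℝ} (hl : 0 < l) (k : ℤ × ℤ) (g : E2 → ℂ) :
    pc h l⁻¹ {k} g = fun ξ => g ξ * capf h l k ξ := by
  funext ξ
  rw [capf_eq h hl]
  unfold pc mm Ph
  rw [Finset.sum_singleton, mul_comm]
  rfl

lemma En_pc_le (h : E2 → ℝ) (κ : ℝ) (a : ℤ × ℤ) {r : ℝ} {g : E2 → ℂ} (hg : Nice r g) :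
    En (pc h κ {a} g) ≤ En g := integral_sq_le hg (norm_pc_single_le h κ a g)

/-- a piece is an input of the zoom. -/
theorem zin_piece (Na : ℕ) : ∃ C0 : ℝ, 1 ≤ C0 ∧ ∀ (B : ℕ → ℝ), B 2 ≤ 1 / 10 → ∀ (q M0 σ : ℝ) h g R D,
    St B q Na M0 σ h g R D → σ ≤ 1 → ∀ l : ℝ, 0 < l → 16 * l ≤ 1 →
    R ^ (-(1/2) : ℝ) ≤ 16 * l → ∀ k : ℤ × ℤ, ∃ ξ0 : E2,
      ZIn B q Na M0 (16 * l) ξ0 h (pc h l⁻¹ {k} g) R (C0 * D) := by
  obtain ⟨C0, hC0, hbox⟩ := pboxLe_piece Na 16 (by norm_num)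
  refine ⟨C0, hC0, ?_⟩
  intro B hB2 q M0 σ h g R D H hσ l hl hl1 hRl k
  have hR0 : 0 < R := lt_of_lt_of_le one_pos H.R1
  have hn := nearId hB2 H.par
  have hg : Nice σ g := H.nice
  have hN : Nice σ (pc h l⁻¹ {k} g) := hg.pc H.par _ _
  have hb := hbox q h g R D l H.box hR0 hl hl1 hRl k
  have hξ0 : ∃ ξ0 : E2, ∀ ξ, 16 * l / 4 < ‖ξ - ξ0‖ → pc h l⁻¹ {k} g ξ = 0 := by
    by_cases he : ∃ η, pc h l⁻¹ {k} g η ≠ 0
    · obtain ⟨η, hη⟩ := he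
      refine ⟨η, fun ξ hξ => ?_⟩
      by_contra hc
      rw [pc_eq_capf h hl] at hc hη
      have h1 := capf_supp_ball hn hl (right_ne_zero_of_mul hc) (right_ne_zero_of_mul hη)
      linarith
    · push Not at he
      exact ⟨0, fun ξ _ => he ξ⟩
  obtain ⟨ξ0, hξ0⟩ := hξ0
  refine ⟨ξ0, ?_⟩
  exact
    { par := H.par
      h0 := H.h0
      h1 := H.h1
      meas := hN.m
      bdd := hN.b
      supp1 := fun ξ hξ => hN.s ξ (by linarith)
      supp := hξ0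
      l0 := by positivity
      l1 := hl1
      R1 := H.R1
      D0 := mul_nonneg (by linarith) H.D0
      box := by rw [pc_eq_capf h hl]; exact hb
      nd := by
        refine (En_pc_le h _ k hg).trans (H.nd.trans ?_)
        refine mul_le_mul_of_nonneg_left ?_ (by positivity)
        exact le_mul_of_one_le_left H.D0 hC0 }

/-- energy of the pieces. -/
lemma sum_En_pc {B : ℕ → ℝ} (hB2 : B 2 ≤ 1 / 10) {h : E2 → ℝ} (hh : ParB B h)
    (h0 : ‖gradient h 0‖ ≤ 1) {g : E2 → ℂ} {σ : ℝ} (hσ : σ ≤ 1) (hg : Nice σ g) {κ : ℝ}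
    (hκ : 0 < κ) : ∑ a ∈ sq (nn κ), En (pc h κ {a} g) ≤ En g := by
  have hn := nearId hB2 hh
  unfold Crest.Agent.R138.W188.En
  have hi : ∀ a ∈ sq (nn κ), Integrable fun ξ => ‖pc h κ {a} g ξ‖ ^ 2 := fun a _ =>
    (hg.pc hh κ {a}).sq_integrable
  rw [← integral_finsetSum _ hi]
  refine integral_mono (integrable_finsetSum _ hi) hg.sq_integrable fun ξ => ?_
  simp only
  by_cases hξ : ‖ξ‖ ≤ σ
  · have h1 : ‖κ • gradient h ξ‖ ≤ nn κ := by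
      rw [norm_smul, Real.norm_of_nonneg hκ.le]
      calc κ * ‖gradient h ξ‖ ≤ κ * 3 := by
            gcongr
            exact (grad_le hn h0 (hξ.trans hσ)).trans (by norm_num)
        _ = 3 * κ := by ring
        _ ≤ _ := nn_ge κ
    have h2 := sum_th2 h1
    have h3 : ∀ a ∈ sq (nn κ), ‖pc h κ {a} g ξ‖ ^ 2 ≤ th2 a (κ • gradient h ξ) * ‖g ξ‖ ^ 2 := by
      intro a _
      unfold pc mm Ph
      rw [Finset.sum_singleton, norm_mul, Complex.norm_real, Real.norm_of_nonneg (th2_nonneg a _),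
        mul_pow]
      refine mul_le_mul_of_nonneg_right ?_ (by positivity)
      have h4 : th2 a (κ • gradient h ξ) ≤ 1 := by
        unfold th2; exact mul_le_one₀ (th_le_one _) (th_nonneg _) (th_le_one _)
      have h5 := th2_nonneg a (κ • gradient h ξ)
      nlinarith
    calc _ ≤ ∑ a ∈ sq (nn κ), th2 a (κ • gradient h ξ) * ‖g ξ‖ ^ 2 := Finset.sum_le_sum h3
      _ = ‖g ξ‖ ^ 2 := by rw [← Finset.sum_mul, h2, one_mul]
  · have h1 : ∀ a ∈ sq (nn κ), ‖pc h κ {a} g ξ‖ ^ 2 = 0 := by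
      intro a _
      rw [pc_zero_of (hg.s ξ (not_le.1 hξ))]; simp
    rw [Finset.sum_eq_zero h1]
    positivity

/-- decomposition into the pieces. -/
lemma sum_pc {B : ℕ → ℝ} (hB2 : B 2 ≤ 1 / 10) {h : E2 → ℝ} (hh : ParB B h)
    (h0 : ‖gradient h 0‖ ≤ 1) {g : E2 → ℂ} {σ : ℝ} (hσ : σ ≤ 1) (hg : Nice σ g) {κ : ℝ}
    (hκ : 0 < κ) : (fun ξ => ∑ a ∈ sq (nn κ), pc h κ {a} g ξ) = g := by
  have hn := nearId hB2 hh
  have e3 : (fun ξ => ∑ a ∈ sq (nn κ), pc h κ {a} g ξ) = pc h κ (sq (nn κ)) g := by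
    funext ξ
    unfold pc mm Ph
    rw [← Finset.sum_mul]
    congr 1
    push_cast
    simp only [Finset.sum_singleton]
  rw [e3]
  refine pc_full (r := σ) hg.s fun ξ hξ => ?_
  rw [norm_smul, Real.norm_of_nonneg hκ.le]
  calc κ * ‖gradient h ξ‖ ≤ κ * 3 := by
        gcongr
        exact (grad_le hn h0 (hξ.trans hσ)).trans (by norm_num)
    _ = 3 * κ := by ring
    _ ≤ _ := nn_ge κ

/-- sums of the normalising quantities. -/
lemma sum_SS_pc {B : ℕ → ℝ} (hB2 : B 2 ≤ 1 / 10) {h : E2 → ℝ} (hh : ParB B h)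
    (h0 : ‖gradient h 0‖ ≤ 1) {g : E2 → ℂ} {σ : ℝ} (hσ : σ ≤ 1) (hg : Nice σ g) {κ : ℝ}
    (hκ : 0 < κ) {R D C0 : ℝ} (hR : 0 ≤ R) (hC0 : 0 ≤ C0) :
    ∑ a ∈ sq (nn κ), SS (pc h κ {a} g) R (C0 * D) ≤ √C0 * SS g R D := by
  unfold Crest.Agent.R138.W188.SS
  rw [← Finset.sum_mul, ← Finset.mul_sum, Real.sqrt_mul hC0]
  have h1 := sum_En_pc hB2 hh h0 hσ hg hκ
  calc R * (∑ a ∈ sq (nn κ), En (pc h κ {a} g)) * (√C0 * √D) ≤ R * En g * (√C0 * √D) := by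
        gcongr
    _ = _ := by ring

lemma ofReal_sum_le {ι : Type*} (s : Finset ι) (x : ι → ℝ) (hx : ∀ i ∈ s, 0 ≤ x i) {y : ℝ}
    (h : ∑ i ∈ s, x i ≤ y) : ∑ i ∈ s, ENNReal.ofReal (x i) ≤ ENNReal.ofReal y := by
  rw [← ENNReal.ofReal_sum_of_nonneg hx]
  exact ENNReal.ofReal_le_ofReal h

lemma SS_nonneg {g : E2 → ℂ} {R D : ℝ} (hR : 0 ≤ R) : 0 ≤ SS g R D := by
  unfold Crest.Agent.R138.W188.SS
  have := En_nonneg' g
  positivity

/-- states are monotone in the support radius and in the order of the bumps. -/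
lemma St.mono' {B : ℕ → ℝ} {q : ℝ} {Na Na' : ℕ} {M0 σ σ' : ℝ} {h : E2 → ℝ} {g : E2 → ℂ} {R D : ℝ}
    (H : St B q Na M0 σ h g R D) (hNa : Na ≤ Na') (hσ : σ ≤ σ') :
    St B q Na' M0 σ' h g R D :=
  { par := H.par
    h0 := H.h0
    h1 := H.h1
    meas := H.meas
    bdd := H.bdd
    supp := fun ξ hξ => H.supp ξ (by linarith)
    R1 := H.R1
    D0 := H.D0
    box := fun c b s hs ψ hψ => H.box c b s hs ψ ⟨hψ.1, hψ.2.1, fun j hj => hψ.2.2 j (hj.trans hNa)⟩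
    nd := H.nd }

end Crest.Agent.R138.Bn759
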