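import Crest.Agent.R138.BnA3_759

/-! R138, broad/narrow end, leaf A4 part 4 (helper759): **A4** from the two zooms. -/

set_option autoImplicit false

open MeasureTheory
open scoped ENNReal

namespace Crest.Agent.R138.Bn759

open Crest.Agent.R138.Defs (E2 ee ext ParB cyl)
open Crest.Agent.R138.Bil882 (NearId ee_eq Gam W lip_of_grad norm_le_add planar_bilinear wt)
open Crest.Agent.R138.W188 (St SS CC En PBox)
open Crest.Agent.R138.Zm858 (PBoxLe ZIn ZoomNN2 ZoomCC2)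

lemma Nice.mono {r r' : ℝ} {g : E2 → ℂ} (hg : Nice r g) (h : r ≤ r') : Nice r' g :=
  ⟨hg.m, hg.b, fun ξ hξ => hg.s ξ (by linarith)⟩

/-- elementary inequalities for the scales. -/
structure Sc (θ R k1 k ε' : ℝ) : Prop where
  x1 : 1 ≤ R ^ k1
  xy : R ^ k1 ≤ R ^ k
  R1 : 1 ≤ θ * R
  K2 : 16 * R ^ k ≤ θ * R / 2
  Kh : 16 * R ^ k ≤ (θ * R) ^ (1/2 : ℝ)
  lo : (θ * R) ^ (-(1/2) : ℝ) ≤ (R ^ k1)⁻¹
  lo1 : (θ * R) ^ (-(1/2) : ℝ) ≤ 1
  re : (θ * R) ^ ε' ≤ ((R ^ k1)⁻¹) ^ 2 * (θ * R)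
  re1 : (θ * R) ^ ε' ≤ θ * R
  ex : R ^ (1 - 2 * k1) = ((R ^ k1)⁻¹) ^ 2 * R

lemma sc_of {θ R k1 k ε' : ℝ} (hθ : 0 < θ) (hθ1 : θ ≤ 1) (hR : 1 ≤ R)
    (hu : 16 / θ ≤ R ^ (1/4 : ℝ)) (hk1 : 0 < k1) (hkk : k1 ≤ k) (hk : k ≤ 1/4) (hε : 0 ≤ ε')
    (hε8 : ε' ≤ 1/8) : Sc θ R k1 k ε' := by
  have hR0 : 0 < R := by linarith
  set u : ℝ := R ^ (1/4 : ℝ) with hu'
  have hu4 : u ^ 4 = R := by
    rw [hu', ← Real.rpow_natCast, ← Real.rpow_mul hR0.le]; norm_num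
  have hu0 : 0 < u := by positivity
  have hθu : 16 ≤ θ * u := by
    rw [div_le_iff₀ hθ] at hu; linarith
  have hu16 : 16 ≤ u := by nlinarith
  have hx1 : 1 ≤ R ^ k1 := Real.one_le_rpow hR hk1.le
  have hxy : R ^ k1 ≤ R ^ k := Real.rpow_le_rpow_of_exponent_le hR hkk
  have hyu : R ^ k ≤ u := Real.rpow_le_rpow_of_exponent_le hR hk
  have hx0 : 0 < R ^ k1 := by linarith
  have hxu : R ^ k1 ≤ u := hxy.trans hyu
  have hθR : θ * R = (θ * u) * u ^ 3 := by rw [← hu4]; ring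
  have h3 : u ^ 3 = u * u ^ 2 := by ring
  have hu2 : 256 ≤ u ^ 2 := by nlinarith
  have hu3 : 256 * u ≤ u ^ 3 := by rw [h3]; nlinarith
  have hbig : 16 * u ^ 3 ≤ θ * R := by rw [hθR]; nlinarith [pow_pos hu0 3]
  have hR1 : 1 ≤ θ * R := by nlinarith
  have hsq : ∀ y : ℝ, 0 ≤ y → y ^ 2 ≤ θ * R → y ≤ (θ * R) ^ (1/2 : ℝ) := by
    intro y hy h
    rw [← Real.sqrt_eq_rpow]
    exact Real.le_sqrt_of_sq_le h
  have hKh : 16 * R ^ k ≤ (θ * R) ^ (1/2 : ℝ) := by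
    refine hsq _ (by positivity) ?_
    have : (16 * R ^ k) ^ 2 ≤ (16 * u) ^ 2 := by
      have : 0 ≤ R ^ k := by positivity
      gcongr
    nlinarith
  have hlo : (θ * R) ^ (-(1/2) : ℝ) ≤ (R ^ k1)⁻¹ := by
    rw [Real.rpow_neg (by positivity)]
    refine inv_anti₀ hx0 ?_
    refine le_trans ?_ hKh
    linarith
  have hre0 : (θ * R) ^ ε' ≤ u := by
    calc (θ * R) ^ ε' ≤ R ^ ε' := Real.rpow_le_rpow (by positivity) (by nlinarith) hε
      _ ≤ R ^ (1/4 : ℝ) := Real.rpow_le_rpow_of_exponent_le hR (by linarith)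
      _ = u := rfl
  refine ⟨hx1, hxy, hR1, ?_, hKh, hlo, ?_, ?_, ?_, ?_⟩
  · have : 16 * R ^ k ≤ 16 * u := by linarith
    nlinarith
  · exact hlo.trans (inv_le_one_of_one_le₀ hx1)
  · refine hre0.trans ?_
    rw [inv_pow, inv_mul_eq_div, le_div_iff₀ (by positivity)]
    have h1 : (R ^ k1) ^ 2 ≤ u ^ 2 := by gcongr
    calc u * (R ^ k1) ^ 2 ≤ u * u ^ 2 := by gcongr
      _ ≤ θ * R := by nlinarith [pow_pos hu0 3]
  · refine hre0.trans ?_
    nlinarith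
  · rw [show 1 - 2 * k1 = 1 + (-k1) * 2 by ring, Real.rpow_add hR0, Real.rpow_one,
      Real.rpow_mul hR0.le, Real.rpow_neg hR0.le, Real.rpow_two]
    ring

lemma En_rpow_le {g : E2 → ℂ} {R D : ℝ} (hR : 1 ≤ R)
    (hnd : En g ≤ R ^ (2:ℝ) * D) : (∫ ξ, ‖g ξ‖ ^ 2) ^ (3 / 2 : ℝ) ≤ SS g R D := by
  have hE := En_nonneg' g
  have h1 : (∫ ξ, ‖g ξ‖ ^ 2) ^ (3 / 2 : ℝ) = En g * √(En g) := by
    show En g ^ (3 / 2 : ℝ) = En g * √(En g)
    rw [show (3 / 2 : ℝ) = 1 + 1 / 2 by norm_num, Real.rpow_add' hE (by norm_num), Real.rpow_one,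
      Real.sqrt_eq_rpow]
  rw [h1]
  unfold Crest.Agent.R138.W188.SS
  have h2 : √(En g) ≤ R * √D := by
    calc √(En g) ≤ √(R ^ (2:ℝ) * D) := Real.sqrt_le_sqrt hnd
      _ = R * √D := by
          rw [Real.rpow_two, Real.sqrt_mul (by positivity), Real.sqrt_sq (by linarith)]
  calc En g * √(En g) ≤ En g * (R * √D) := by gcongr
    _ = _ := by ring

set_option maxHeartbeats 1000000 in
/-- the inequality at the localised state. -/
theorem core (B : ℕ → ℝ) (hB2 : B 2 ≤ 1 / 10) (q : ℝ) (hq : 0 ≤ q) {θ θn : ℝ} (hθ : 0 < θ)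
    (hθ1 : θ ≤ 1) (hθn : 0 < θn) (hθn1 : θn ≤ 1) {Nc Nn : ℕ} {εb ε' : ℝ} (hεb : 0 < εb)
    (hε' : 0 < ε') (hε8 : ε' ≤ 1/8) (N N1 : ℕ) {Cn Cc : ℝ} (hCn : 0 ≤ Cn) (hCc : 0 ≤ Cc)
    (ZN : ∀ h g R D l ξ0 w, ZIn B q Nc 2 l ξ0 h g R D → R ^ ε' ≤ l ^ 2 * R → 1 ≤ l * w →
      w ≤ R ^ (1/2 : ℝ) → ∀ Q : ℝ, 1 ≤ Q →
      (∀ h' g' D', St B q Nn 2 (1/2) h' g' (θn * (l ^ 2 * R)) D' →
        W188.NN N h' g' (l * w) (θn * (l ^ 2 * R)) ≤
          ENNReal.ofReal (Q * SS g' (θn * (l ^ 2 * R)) D')) →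
      W188.NN N1 h g w (2 * R) ≤ ENNReal.ofReal (Cn * R ^ ε' * Q * l ^ (q / 2) * SS g R D))
    (ZC : ∀ h g R D l ξ0, ZIn B q Nc 2 l ξ0 h g R D → R ^ ε' ≤ l ^ 2 * R → ∀ Q : ℝ, 1 ≤ Q →
      (∀ h' g' D', St B q Nc 2 (1/2) h' g' (θ * (l ^ 2 * R)) D' →
        CC h' g' (θ * (l ^ 2 * R)) ≤ ENNReal.ofReal (Q * SS g' (θ * (l ^ 2 * R)) D')) →
      CC h g (2 * R) ≤ ENNReal.ofReal (Cc * R ^ ε' * Q * l ^ (q / 2) * SS g R D)) :
    ∃ C : ℝ, 1 ≤ C ∧ ∀ k1 k R Q1 Q2 : ℝ, 0 < k1 → k1 ≤ k → k ≤ 1/4 → 1 ≤ R →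
      16 / θ ≤ R ^ (1/4 : ℝ) → 1 ≤ Q1 → 1 ≤ Q2 →
      (∀ h' g' R' D', St B q (max Nc Nn) 2 1 h' g' R' D' → R' = θ ^ 2 * R ^ (1 - 2 * k1) →
        CC h' g' R' ≤ ENNReal.ofReal (Q1 * SS g' R' D')) →
      (∀ h' g' R' D' w', St B q (max Nc Nn) 2 1 h' g' R' D' → R' = θn * θ * R →
        w' = 16 * R ^ k → W188.NN N h' g' w' R' ≤ ENNReal.ofReal (Q2 * SS g' R' D')) →
      ∀ h1 g1 D1, St B q Nc 2 (1/2) h1 g1 (θ * R) D1 →
        CC h1 g1 (θ * R) ≤ ENNReal.ofReal (C * R ^ ε' *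
          (Q1 + R ^ ((36 + 2 * (7 + εb)) * k1) * Q2 + R ^ ((36 + 2 * (7 + εb)) * k + εb)) *
            SS g1 (θ * R) D1) := by
  classical
  obtain ⟨C3, hC3, hB3⟩ := B3_holds εb hεb
  obtain ⟨Cb, hCb, hbn⟩ := bn_int2 B hB2 hεb.le (by positivity : (0:ℝ) ≤ 7 + εb) hC3.le hB3 N1
  obtain ⟨C0, hC0, hzin⟩ := zin_piece Nc
  set A : ℝ := 36 + 2 * (7 + εb) with hA
  have hA15 : 15 ≤ A := by rw [hA]; linarith
  set M : ℝ := ((sq (nn 16)).card : ℝ) with hM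
  have hM0 : 0 ≤ M := by positivity
  refine ⟨1 + Cb * Cc * √C0 + Cb * 16 ^ 15 * M ^ (9 / 2 : ℝ) * Cn * √C0 + Cb * 16 ^ A, ?_, ?_⟩
  · have : 0 ≤ Cb * Cc * √C0 + Cb * 16 ^ 15 * M ^ (9 / 2 : ℝ) * Cn * √C0 + Cb * 16 ^ A := by
      positivity
    linarith
  intro k1 k R Q1 Q2 hk1 hkk hk hR hu hQ1 hQ2 H1 H2 h1 g1 D1 HS
  have sc := sc_of hθ hθ1 hR hu hk1 hkk hk hε'.le hε8
  have hR0 : 0 < R := by linarith
  have hR10 : 0 < θ * R := by positivity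
  have hg := HS.nice
  have hgr := grad0 HS.h1
  have hcont : Continuous h1 := HS.par.1.continuous
  set x : ℝ := R ^ k1 with hx
  set y : ℝ := R ^ k with hy
  have hx0 : 0 < x := by linarith [sc.x1]
  have hy0 : 0 < y := by linarith [sc.x1, sc.xy]
  have hSS0 : 0 ≤ SS g1 (θ * R) D1 := SS_nonneg hR10.le
  have hmain := hbn h1 HS.par hgr (16 * x) (16 * y) (θ * R) (by linarith [sc.x1])
    (by linarith [sc.xy]) sc.K2 g1 (hg.mono (by norm_num))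
  -- narrow term
  have hnar : ∑ a ∈ sq (nn (16 * x)), ∫⁻ p in cyl (2 * (θ * R)),
      ‖ext h1 (pc h1 (16 * x) {a} g1) p.1 p.2‖ₑ ^ 3 ≤
      ENNReal.ofReal (Cc * R ^ ε' * Q1 * (√C0 * SS g1 (θ * R) D1)) := by
    set l : ℝ := (16 * x)⁻¹ with hl
    have hl0 : 0 < l := by positivity
    have hl16 : 16 * l = x⁻¹ := by rw [hl]; field_simp
    have hlinv : l⁻¹ = 16 * x := by rw [hl, inv_inv]
    have hl1 : 16 * l ≤ 1 := by rw [hl16]; exact inv_le_one_of_one_le₀ sc.x1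
    have hpiece : ∀ a ∈ sq (nn (16 * x)), CC h1 (pc h1 (16 * x) {a} g1) (2 * (θ * R)) ≤
        ENNReal.ofReal (Cc * R ^ ε' * Q1 * SS (pc h1 (16 * x) {a} g1) (θ * R) (C0 * D1)) := by
      intro a _
      obtain ⟨ξ0, hz⟩ := hzin B hB2 q 2 (1/2) h1 g1 (θ * R) D1 HS (by norm_num) l hl0 hl1
        (by rw [hl16]; exact sc.lo) a
      rw [hlinv] at hz
      have h3 := ZC h1 (pc h1 (16 * x) {a} g1) (θ * R) (C0 * D1) (16 * l) ξ0 hz
        (by rw [hl16]; exact sc.re) Q1 hQ1 (fun h' g' D' hS' => by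
          refine H1 h' g' _ D' (St.mono' hS' (le_max_left _ _) (by norm_num)) ?_
          rw [sc.ex, hl16]; ring)
      refine h3.trans (ENNReal.ofReal_le_ofReal ?_)
      have hS0 : 0 ≤ SS (pc h1 (16 * x) {a} g1) (θ * R) (C0 * D1) := SS_nonneg hR10.le
      have h4 : (θ * R) ^ ε' ≤ R ^ ε' := Real.rpow_le_rpow hR10.le (by nlinarith) hε'.le
      have h5 : (16 * l) ^ (q / 2) ≤ 1 := Real.rpow_le_one (by positivity) hl1 (by positivity)
      calc Cc * (θ * R) ^ ε' * Q1 * (16 * l) ^ (q / 2) * SS (pc h1 (16 * x) {a} g1) (θ * R) (C0 * D1)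
          ≤ Cc * R ^ ε' * Q1 * 1 * SS (pc h1 (16 * x) {a} g1) (θ * R) (C0 * D1) := by
            gcongr
        _ = _ := by ring
    calc _ ≤ ∑ a ∈ sq (nn (16 * x)),
          ENNReal.ofReal (Cc * R ^ ε' * Q1 * SS (pc h1 (16 * x) {a} g1) (θ * R) (C0 * D1)) :=
          Finset.sum_le_sum hpiece
      _ ≤ _ := by
          refine ofReal_sum_le _ _ (fun a _ => ?_) ?_
          · have : 0 ≤ SS (pc h1 (16 * x) {a} g1) (θ * R) (C0 * D1) := SS_nonneg hR10.le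
            positivity
          · rw [← Finset.mul_sum]
            refine mul_le_mul_of_nonneg_left ?_ (by positivity)
            exact sum_SS_pc hB2 HS.par hgr (by norm_num) hg (by positivity) hR10.le (by linarith)
  -- bilinear term
  have hbil : NN N1 h1 g1 (16 * y) (2 * (θ * R)) ≤
      ENNReal.ofReal (M ^ (9 / 2 : ℝ) * (Cn * R ^ ε' * Q2 * (√C0 * SS g1 (θ * R) D1))) := by
    have hpiece : ∀ a ∈ sq (nn 16), NN N1 h1 (pc h1 16 {a} g1) (16 * y) (2 * (θ * R)) ≤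
        ENNReal.ofReal (Cn * R ^ ε' * Q2 * SS (pc h1 16 {a} g1) (θ * R) (C0 * D1)) := by
      intro a _
      obtain ⟨ξ0, hz⟩ := hzin B hB2 q 2 (1/2) h1 g1 (θ * R) D1 HS (by norm_num) (1/16) (by norm_num)
        (by norm_num) (by norm_num; have := sc.lo1; norm_num at this; exact this) a
      have e1 : ((1:ℝ)/16)⁻¹ = 16 := by norm_num
      have e2 : (16:ℝ) * (1/16) = 1 := by norm_num
      rw [e1, e2] at hz
      have h3 := ZN h1 (pc h1 16 {a} g1) (θ * R) (C0 * D1) 1 ξ0 (16 * y) hz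
        (by rw [one_pow, one_mul]; exact sc.re1) (by linarith [sc.x1, sc.xy]) sc.Kh Q2 hQ2
        (fun h' g' D' hS' => by
          refine H2 h' g' _ D' _ (St.mono' hS' (le_max_right _ _) (by norm_num)) ?_ ?_
          · ring
          · ring)
      refine h3.trans (ENNReal.ofReal_le_ofReal ?_)
      have hS0 : 0 ≤ SS (pc h1 16 {a} g1) (θ * R) (C0 * D1) := SS_nonneg hR10.le
      have h4 : (θ * R) ^ ε' ≤ R ^ ε' := Real.rpow_le_rpow hR10.le (by nlinarith) hε'.le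
      rw [Real.one_rpow, mul_one]
      gcongr
    have hs := sum_pc hB2 HS.par hgr (by norm_num) hg (κ := 16) (by norm_num)
    calc NN N1 h1 g1 (16 * y) (2 * (θ * R))
        = NN N1 h1 (fun ξ => ∑ a ∈ sq (nn 16), pc h1 16 {a} g1 ξ) (16 * y) (2 * (θ * R)) := by
          rw [hs]
      _ ≤ ((sq (nn 16)).card : ℝ≥0∞) ^ (9 / 2 : ℝ) *
          ∑ a ∈ sq (nn 16), NN N1 h1 (pc h1 16 {a} g1) (16 * y) (2 * (θ * R)) :=
          NN_sum_le N1 hcont (sq (nn 16)) (fun a _ => hg.pc HS.par 16 {a}) _ _ (by positivity)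
      _ ≤ ((sq (nn 16)).card : ℝ≥0∞) ^ (9 / 2 : ℝ) *
          ENNReal.ofReal (Cn * R ^ ε' * Q2 * (√C0 * SS g1 (θ * R) D1)) := by
          refine mul_le_mul_right ?_ _
          refine (Finset.sum_le_sum hpiece).trans ?_
          refine ofReal_sum_le _ _ (fun a _ => ?_) ?_
          · have : 0 ≤ SS (pc h1 16 {a} g1) (θ * R) (C0 * D1) := SS_nonneg hR10.le
            positivity
          · rw [← Finset.mul_sum]
            refine mul_le_mul_of_nonneg_left ?_ (by positivity)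
            exact sum_SS_pc hB2 HS.par hgr (by norm_num) hg (by positivity) hR10.le (by linarith)
      _ = _ := by
          rw [ENNReal.ofReal_mul (p := M ^ (9 / 2 : ℝ)) (by positivity),
            ← ENNReal.ofReal_rpow_of_nonneg hM0 (by norm_num), hM, ENNReal.ofReal_natCast]
  -- broad term
  have hbr : Cb * (16 * y) ^ A * (θ * R) ^ εb * (∫ ξ, ‖g1 ξ‖ ^ 2) ^ (3 / 2 : ℝ) ≤
      Cb * 16 ^ A * R ^ (A * k + εb) * SS g1 (θ * R) D1 := by
    have e1 := En_rpow_le sc.R1 HS.nd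
    have e2 : (16 * y) ^ A = 16 ^ A * R ^ (A * k) := by
      rw [Real.mul_rpow (by norm_num) hy0.le, hy, ← Real.rpow_mul hR0.le, mul_comm k A]
    have e3 : (θ * R) ^ εb ≤ R ^ εb := Real.rpow_le_rpow hR10.le (by nlinarith) hεb.le
    rw [Real.rpow_add hR0, e2]
    calc Cb * (16 ^ A * R ^ (A * k)) * (θ * R) ^ εb * (∫ ξ, ‖g1 ξ‖ ^ 2) ^ (3 / 2 : ℝ)
        ≤ Cb * (16 ^ A * R ^ (A * k)) * R ^ εb * SS g1 (θ * R) D1 := by
          gcongr
      _ = _ := by ring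
  show CC h1 g1 (θ * R) ≤ _
  unfold Crest.Agent.R138.W188.CC at *
  refine hmain.trans ?_
  calc _ ≤ ENNReal.ofReal Cb * ENNReal.ofReal (Cc * R ^ ε' * Q1 * (√C0 * SS g1 (θ * R) D1)) +
        ENNReal.ofReal (Cb * (16 * x) ^ 15) *
          ENNReal.ofReal (M ^ (9 / 2 : ℝ) * (Cn * R ^ ε' * Q2 * (√C0 * SS g1 (θ * R) D1))) +
        ENNReal.ofReal (Cb * 16 ^ A * R ^ (A * k + εb) * SS g1 (θ * R) D1) := by
        refine add_le_add (add_le_add ?_ ?_) ?_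
        · gcongr
        · gcongr
        · exact ENNReal.ofReal_le_ofReal hbr
    _ = ENNReal.ofReal (Cb * (Cc * R ^ ε' * Q1 * (√C0 * SS g1 (θ * R) D1)) +
        Cb * (16 * x) ^ 15 * (M ^ (9 / 2 : ℝ) * (Cn * R ^ ε' * Q2 * (√C0 * SS g1 (θ * R) D1))) +
        Cb * 16 ^ A * R ^ (A * k + εb) * SS g1 (θ * R) D1) := by
        rw [← ENNReal.ofReal_mul (by positivity), ← ENNReal.ofReal_mul (by positivity),
          ← ENNReal.ofReal_add (by positivity) (by positivity),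
          ← ENNReal.ofReal_add (by positivity) (by positivity)]
    _ ≤ _ := by
        refine ENNReal.ofReal_le_ofReal ?_
        have hRε : 1 ≤ R ^ ε' := Real.one_le_rpow hR hε'.le
        have hx15 : x ^ 15 ≤ R ^ (A * k1) := by
          rw [hx, ← Real.rpow_natCast, ← Real.rpow_mul hR0.le]
          refine Real.rpow_le_rpow_of_exponent_le hR ?_
          push_cast
          nlinarith
        set S := SS g1 (θ * R) D1 with hS
        set E1 := R ^ (A * k1) with hE1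
        set E2' := R ^ (A * k + εb) with hE2
        have hE10 : 0 ≤ E1 := by positivity
        have hE20 : 0 ≤ E2' := by positivity
        have t1 : Cb * (Cc * R ^ ε' * Q1 * (√C0 * S)) = (Cb * Cc * √C0) * (R ^ ε' * Q1 * S) := by
          ring
        have t2 : Cb * (16 * x) ^ 15 * (M ^ (9 / 2 : ℝ) * (Cn * R ^ ε' * Q2 * (√C0 * S))) ≤
            (Cb * 16 ^ 15 * M ^ (9 / 2 : ℝ) * Cn * √C0) * (R ^ ε' * (E1 * Q2) * S) := by
          calc _ = (Cb * 16 ^ 15 * M ^ (9 / 2 : ℝ) * Cn * √C0) * (R ^ ε' * (x ^ 15 * Q2) * S) := by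
                ring
            _ ≤ _ := by gcongr
        have t3 : Cb * 16 ^ A * E2' * S ≤ (Cb * 16 ^ A) * (R ^ ε' * E2' * S) := by
          calc Cb * 16 ^ A * E2' * S = (Cb * 16 ^ A) * (1 * E2' * S) := by ring
            _ ≤ _ := by gcongr
        have p1 : 0 ≤ R ^ ε' * Q1 * S := by positivity
        have p2 : 0 ≤ R ^ ε' * (E1 * Q2) * S := by positivity
        have p3 : 0 ≤ R ^ ε' * E2' * S := by positivity
        set a1 := Cb * Cc * √C0 with ha1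
        set a2 := Cb * 16 ^ 15 * M ^ (9 / 2 : ℝ) * Cn * √C0 with ha2
        set a3 := Cb * 16 ^ A with ha3
        have q1 : 0 ≤ a1 := by positivity
        have q2 : 0 ≤ a2 := by positivity
        have q3 : 0 ≤ a3 := by positivity
        calc _ ≤ a1 * (R ^ ε' * Q1 * S) + a2 * (R ^ ε' * (E1 * Q2) * S) +
              a3 * (R ^ ε' * E2' * S) := by rw [t1]; linarith
          _ ≤ (1 + a1 + a2 + a3) * (R ^ ε' * Q1 * S) + (1 + a1 + a2 + a3) *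
              (R ^ ε' * (E1 * Q2) * S) + (1 + a1 + a2 + a3) * (R ^ ε' * E2' * S) := by
              gcongr <;> linarith
          _ = _ := by ring

end Crest.Agent.R138.Bn759
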