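import Crest.Agent.R138.BnA4_759

/-! R138, broad/narrow end, leaf A4 part 5 (helper759): **A4** of the WAVE side from the zooms. -/

set_option autoImplicit false

open MeasureTheory
open scoped ENNReal

namespace Crest.Agent.R138.Bn759

open Crest.Agent.R138.Defs (E2 ee ext ParB cyl)
open Crest.Agent.R138.W188 (St SS CC En PBox)
open Crest.Agent.R138.Zm858 (PBoxLe ZIn ZoomNN2 ZoomCC2)

lemma CC_mono {h : E2 → ℝ} {g : E2 → ℂ} {R R' : ℝ} (h1 : R ≤ R') : CC h g R ≤ CC h g R' := by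
  unfold Crest.Agent.R138.W188.CC
  refine lintegral_mono_set ?_
  intro p hp
  exact ⟨hp.1.trans h1, hp.2.trans h1⟩

set_option maxHeartbeats 1000000 in
/-- **A4** (broad / narrow) from the two zooms. -/
theorem A4_of_Zoom {B : ℕ → ℝ} (hB2 : B 2 ≤ 1 / 10) {q : ℝ} (hq : 0 ≤ q)
    (ZC : ZoomCC2 B q) (ZN : ZoomNN2 B q) : W188.A4 B q := by
  classical
  obtain ⟨θ, Nc, hθ, hθ1, ZC⟩ := ZC
  obtain ⟨θn, Nn, hθn, hθn1, ZN⟩ := ZN
  set c0 : ℝ := min (θ ^ 2) (min (θ * θn) (1 / 16)) with hc0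
  have hc0pos : 0 < c0 := by
    rw [hc0]; exact lt_min (by positivity) (lt_min (by positivity) (by norm_num))
  have hc0a : c0 ≤ θ ^ 2 := min_le_left _ _
  have hc0b : c0 ≤ θ * θn := (min_le_right _ _).trans (min_le_left _ _)
  have hc0c : c0 ≤ 1 / 16 := (min_le_right _ _).trans (min_le_right _ _)
  refine ⟨c0, hc0pos, by linarith, ?_⟩
  intro εb hεb
  refine ⟨36 + 2 * (7 + εb), by linarith, ?_⟩
  intro k1 k hk1 hkk hk ε hε Na M0
  set ε' : ℝ := min (ε / 2) (1 / 8) with hε'd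
  have hε' : 0 < ε' := lt_min (by positivity) (by norm_num)
  have hε'2 : ε' ≤ ε / 2 := min_le_left _ _
  have hε'8 : ε' ≤ 1 / 8 := min_le_right _ _
  refine ⟨max Nc Nn, 2, fun N => ?_⟩
  obtain ⟨N1, Cn, hCn, ZN'⟩ := ZN ε' hε' Nc 2 N
  obtain ⟨Cc, hCc, ZC'⟩ := ZC ε' hε' Nc 2
  obtain ⟨Cr, hCr, ZCr⟩ := ZC ε' hε' Na M0
  obtain ⟨C1, hC1, hcore⟩ := core B hB2 q hq hθ hθ1 hθn hθn1 hεb hε' hε'8 N N1 hCn hCc ZN' ZC'
  obtain ⟨C0, hC0, hzin⟩ := zin_piece Na
  obtain ⟨Ct, hCt, htriv⟩ := CC_triv ((16 / θ) ^ 4) M0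
  set M : ℝ := ((sq (nn 16)).card : ℝ) with hM
  have hM0 : 0 ≤ M := by positivity
  set A : ℝ := 36 + 2 * (7 + εb) with hA
  refine ⟨Ct + M ^ 3 * (Cr * C1 * √C0), by positivity, ?_⟩
  intro h g R D H Q1 Q2 hQ1 hQ2 H1 H2
  have hR1 := H.R1
  have hR0 : 0 < R := by linarith
  have hSS : 0 ≤ SS g R D := SS_nonneg hR0.le
  have hRε : 1 ≤ R ^ ε := Real.one_le_rpow hR1 hε.le
  set T : ℝ := Q1 + R ^ (A * k1) * Q2 + R ^ (A * k + εb) with hT
  have hT1 : 1 ≤ T := by
    have h1 : 0 ≤ R ^ (A * k1) * Q2 := by positivity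
    have h2 : 0 ≤ R ^ (A * k + εb) := by positivity
    rw [hT]; linarith
  by_cases hbig : 16 / θ ≤ R ^ (1/4 : ℝ)
  · -- large scales
    have hg : Nice 1 g := H.nice
    have hgr := grad0 H.h1
    have hcont : Continuous h := H.par.1.continuous
    have hcl : ∀ h1 g1 D1, St B q Nc 2 (1/2) h1 g1 (θ * R) D1 →
        CC h1 g1 (θ * R) ≤ ENNReal.ofReal (C1 * R ^ ε' * T * SS g1 (θ * R) D1) := by
      refine hcore k1 k R Q1 Q2 hk1 hkk hk hR1 hbig hQ1 hQ2 ?_ ?_
      · intro h' g' R' D' hS hR'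
        have hp : 0 < R ^ (1 - 2 * k1) := by positivity
        refine H1 h' g' R' D' hS ?_ ?_
        · rw [hR']; gcongr
        · rw [hR']
          have : θ ^ 2 ≤ 1 := pow_le_one₀ hθ.le hθ1
          nlinarith
      · intro h' g' R' D' w' hS hR' hw'
        have hp : 0 < R ^ k := by positivity
        refine H2 h' g' R' D' w' hS ?_ ?_ ?_ ?_
        · rw [hR', mul_comm θn θ]; gcongr
        · rw [hR']
          have : θn * θ ≤ 1 := mul_le_one₀ hθn1 hθ.le hθ1
          nlinarith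
        · rw [hw']; linarith
        · rw [hw']
          have : (16 : ℝ) ≤ c0⁻¹ := by
            rw [show (16:ℝ) = (1/16 : ℝ)⁻¹ by norm_num]
            exact inv_anti₀ hc0pos hc0c
          nlinarith
    have hpiece : ∀ a ∈ sq (nn 16), CC h (pc h 16 {a} g) (2 * R) ≤
        ENNReal.ofReal (Cr * R ^ ε' * (C1 * R ^ ε' * T) * SS (pc h 16 {a} g) R (C0 * D)) := by
      intro a _
      obtain ⟨ξ0, hz⟩ := hzin B hB2 q M0 1 h g R D H le_rfl (1/16) (by norm_num)
        (by norm_num) (by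
          have : R ^ (-(1/2) : ℝ) ≤ 1 := Real.rpow_le_one_of_one_le_of_nonpos hR1 (by norm_num)
          norm_num at this ⊢
          exact this) a
      have e1 : ((1:ℝ)/16)⁻¹ = 16 := by norm_num
      have e2 : (16:ℝ) * (1/16) = 1 := by norm_num
      rw [e1, e2] at hz
      have hQ : 1 ≤ C1 * R ^ ε' * T := by
        have h1 : 1 ≤ R ^ ε' := Real.one_le_rpow hR1 hε'.le
        have h2 : 1 ≤ C1 * R ^ ε' := by nlinarith
        nlinarith
      have h3 := ZCr h (pc h 16 {a} g) R (C0 * D) 1 ξ0 hz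
        (by
          rw [one_pow, one_mul]
          calc R ^ ε' ≤ R ^ (1:ℝ) := Real.rpow_le_rpow_of_exponent_le hR1 (by linarith)
            _ = R := Real.rpow_one R) (C1 * R ^ ε' * T) hQ
        (fun h' g' D' hS' => by
          rw [one_pow, one_mul] at hS' ⊢
          exact hcl h' g' D' hS')
      rw [Real.one_rpow, mul_one] at h3
      exact h3
    have hs := sum_pc hB2 H.par hgr (le_refl (1:ℝ)) hg (κ := 16) (by norm_num)
    have hmain : CC h g R ≤ ENNReal.ofReal (M ^ 3 *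
        (Cr * R ^ ε' * (C1 * R ^ ε' * T) * (√C0 * SS g R D))) := by
      calc CC h g R ≤ CC h g (2 * R) := CC_mono (by linarith)
        _ = CC h (fun ξ => ∑ a ∈ sq (nn 16), pc h 16 {a} g ξ) (2 * R) := by rw [hs]
        _ ≤ ((sq (nn 16)).card : ℝ≥0∞) ^ 3 *
            ∑ a ∈ sq (nn 16), CC h (pc h 16 {a} g) (2 * R) :=
            CC_sum_le hcont (sq (nn 16)) (fun a _ => hg.pc H.par 16 {a}) _
        _ ≤ ((sq (nn 16)).card : ℝ≥0∞) ^ 3 *
            ENNReal.ofReal (Cr * R ^ ε' * (C1 * R ^ ε' * T) * (√C0 * SS g R D)) := by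
            refine mul_le_mul_right ?_ _
            refine (Finset.sum_le_sum hpiece).trans ?_
            refine ofReal_sum_le _ _ (fun a _ => ?_) ?_
            · have : 0 ≤ SS (pc h 16 {a} g) R (C0 * D) := SS_nonneg hR0.le
              positivity
            · rw [← Finset.mul_sum]
              refine mul_le_mul_of_nonneg_left ?_ (by positivity)
              exact sum_SS_pc hB2 H.par hgr le_rfl hg (by positivity) hR0.le (by linarith)
        _ = _ := by
            rw [ENNReal.ofReal_mul (p := M ^ 3) (by positivity),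
              ENNReal.ofReal_pow hM0, hM, ENNReal.ofReal_natCast]
    refine hmain.trans (ENNReal.ofReal_le_ofReal ?_)
    have h2 : R ^ ε' * R ^ ε' ≤ R ^ ε := by
      rw [← Real.rpow_add hR0]
      exact Real.rpow_le_rpow_of_exponent_le hR1 (by linarith)
    calc M ^ 3 * (Cr * R ^ ε' * (C1 * R ^ ε' * T) * (√C0 * SS g R D))
        = (M ^ 3 * (Cr * C1 * √C0)) * (R ^ ε' * R ^ ε') * T * SS g R D := by ring
      _ ≤ (Ct + M ^ 3 * (Cr * C1 * √C0)) * R ^ ε * T * SS g R D := by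
          have h4 : 0 ≤ M ^ 3 * (Cr * C1 * √C0) := by positivity
          gcongr
          linarith
      _ = _ := by ring
  · -- bounded scales
    have hRle : R ≤ (16 / θ) ^ 4 := by
      have h1 : R ^ (1/4 : ℝ) ≤ 16 / θ := (not_le.1 hbig).le
      have h2 : (R ^ (1/4 : ℝ)) ^ 4 = R := by
        rw [← Real.rpow_natCast, ← Real.rpow_mul hR0.le]; norm_num
      calc R = (R ^ (1/4 : ℝ)) ^ 4 := h2.symm
        _ ≤ _ := by gcongr
    refine (htriv B q Na h g R D H hRle).trans (ENNReal.ofReal_le_ofReal ?_)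
    have h4 : 0 ≤ M ^ 3 * (Cr * C1 * √C0) := by positivity
    calc Ct * SS g R D = Ct * 1 * 1 * SS g R D := by ring
      _ ≤ (Ct + M ^ 3 * (Cr * C1 * √C0)) * R ^ ε * T * SS g R D := by
          gcongr
          linarith
      _ = _ := by ring

end Crest.Agent.R138.Bn759
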