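import Crest.Agent.R138.Dl14_848
import Crest.Agent.R138.AeT6_501

/-!
# R138: the decoupling theorem in the form consumed by the a.e. table (helper848)
-/

set_option autoImplicit false

open MeasureTheory Filter Topology Set
open scoped ENNReal NNReal

namespace Crest.Agent.R138.Dl848

open Crest.Agent.R138 (Ex926.D6 Ex926.IsTan Ex926.X6)

theorem mem_LEGM {M : ℝ} {p : V6} : p ∈ Ex926.LEG M ↔ (∀ i, 0 ≤ p i ∧ p i ≤ M) ∧ p ∈ LEG :=
  Ex926.mem_LEG

theorem X6_eq_X (a b t : ℝ) : Ex926.X6 a b t = X a b t := rfl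

/-- interior points of the region are `Loc` points -/
theorem loc_LEGM {M k : ℝ} (hk : 0 < k) {z : ℝ × ℝ} (h1 : 0 < z.1) (h2 : 0 < z.2)
    (h3 : (1 + k) * z.1 + z.2 < M) : Loc (Ex926.LEG M) id (fun v => k * v) z := by
  have hd : 0 < M - ((1 + k) * z.1 + z.2) := by linarith
  set r := min (min (z.1 / 2) (k * z.1 / (k + 1))) (min (z.2 / 2)
    ((M - ((1 + k) * z.1 + z.2)) / (3 + k))) with hr
  have hk1 : 0 < k + 1 := by linarith
  have hk3 : 0 < 3 + k := by linarith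
  have hr0 : 0 < r := by
    refine lt_min (lt_min ?_ ?_) (lt_min ?_ ?_) <;> positivity
  have r1 : r ≤ z.1 / 2 := (min_le_left _ _).trans (min_le_left _ _)
  have r2 : r * (k + 1) ≤ k * z.1 :=
    (le_div_iff₀ hk1).1 ((min_le_left _ _).trans (min_le_right _ _))
  have r3 : r ≤ z.2 / 2 := (min_le_right _ _).trans (min_le_left _ _)
  have r4 : r * (3 + k) ≤ M - ((1 + k) * z.1 + z.2) :=
    (le_div_iff₀ hk3).1 ((min_le_right _ _).trans (min_le_right _ _))
  refine ⟨r, hr0, fun z' hz1 hz2 c hc => ?_⟩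
  obtain ⟨a1, a2⟩ := abs_le.1 hz1
  obtain ⟨b1, b2⟩ := abs_le.1 hz2
  have hc' : ∀ i, -r ≤ c i ∧ c i ≤ r := fun i => abs_le.1 (hc.2 i)
  have k1 : k * (z.1 - r) ≤ k * z'.1 := mul_le_mul_of_nonneg_left (by linarith) hk.le
  have k2 : k * z'.1 ≤ k * (z.1 + r) := mul_le_mul_of_nonneg_left (by linarith) hk.le
  rw [mul_sub] at k1
  rw [mul_add] at k2
  have r2' : k * r + r ≤ k * z.1 := by rw [mul_comm k r]; linarith
  have r4' : 3 * r + k * r ≤ M - (z.1 + k * z.1 + z.2) := by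
    have e1 : r * (3 + k) = 3 * r + k * r := by ring
    have e2 : (1 + k) * z.1 = z.1 + k * z.1 := by ring
    rw [e1, e2] at r4
    exact r4
  clear r2 r4 h3 hd
  set kz := k * z'.1 with hkz'
  set kz0 := k * z.1 with hkz0
  set kr := k * r with hkr'
  have hkz : 0 ≤ k * z.1 := by positivity
  have hkr : 0 ≤ k * r := by positivity
  have c0 := hc' 0
  have c1 := hc' 1
  have c2 := hc' 2
  have c3 := hc' 3
  have c4 := hc' 4
  have c5 := hc' 5
  rw [mem_LEGM]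
  refine ⟨?_, LEG_add (X_mem_LEG _ _ _) hc.1⟩
  refine forall6 ?_ ?_ ?_ ?_ ?_ ?_ <;> rw [Pi.add_apply] <;>
    simp only [X_0, X_1, X_2, X_3, X_4, X_5, id] <;> constructor <;> linarith

theorem pr_of_ext {M : ℝ} {ν ν' : V6 → ℝ}
    (lip : ∀ p ∈ Ex926.LEG M, ∀ p' ∈ Ex926.LEG M, p ≤ p' → 0 ≤ ν p - ν p' ∧
      ν p - ν p' ≤ ∑ a, (p' a - p a))
    (submod : ∀ p ∈ Ex926.LEG M, ∀ p' ∈ Ex926.LEG M, p ⊓ p' ∈ Ex926.LEG M →
      ν p + ν p' ≤ ν (p ⊔ p') + ν (p ⊓ p'))
    (he : EqOn ν ν' (Ex926.LEG M)) : Pr ν' (Ex926.LEG M) := by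
  refine ⟨fun p hp q hq hpq => ?_, fun p hp q hq h1 h2 => ?_⟩
  · rw [← he hp, ← he hq]
    linarith [(lip p hp q hq hpq).1]
  · rw [← he hp, ← he hq, ← he h1, ← he h2]
    exact submod p hp q hq h1

/-- **DECOUPLING THEOREM** -/
theorem dlOut {M k : ℝ} {ν : V6 → ℝ} (hk : 0 < k)
    (lip : ∀ p ∈ Ex926.LEG M, ∀ p' ∈ Ex926.LEG M, p ≤ p' → 0 ≤ ν p - ν p' ∧
      ν p - ν p' ≤ ∑ a, (p' a - p a))
    (submod : ∀ p ∈ Ex926.LEG M, ∀ p' ∈ Ex926.LEG M, p ⊓ p' ∈ Ex926.LEG M →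
      ν p + ν p' ≤ ν (p ⊔ p') + ν (p ⊓ p')) : AeT501.DlOut ν M k := by
  have hl6 := AeT501.nu_lip_of lip
  have hLip : LipschitzOnWith 6 ν (Ex926.LEG M) := by
    apply LipschitzOnWith.of_dist_le_mul
    intro p hp q hq
    rw [Real.dist_eq, dist_eq_norm]
    exact hl6 p hp q hq
  obtain ⟨ν', hν', he⟩ := hLip.extend_real
  have hlip : ∀ p q, |ν' p - ν' q| ≤ 6 * ‖p - q‖ := by
    intro p q
    have := hν'.dist_le_mul p q
    rwa [Real.dist_eq, dist_eq_norm] at this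
  have hpr := pr_of_ext lip submod he
  have hΛ : (0:ℝ) ≤ 1 + k := by linarith
  have key := ae_lim (a := id) (b := fun v => k * v) (Λ := 1 + k) hpr hlip (by norm_num) hΛ
    monotone_id (fun u v h => mul_le_mul_of_nonneg_left h hk.le)
    (fun s t => by
      have := abs_nonneg (s - t)
      simp only [id]; nlinarith)
    (fun s t => by
      have := abs_nonneg (s - t)
      rw [← mul_sub, abs_mul, abs_of_pos hk]; nlinarith)
  unfold AeT501.DlOut
  filter_upwards [key] with z hz h1 h2 h3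
  have hL := loc_LEGM hk h1 h2 h3
  obtain ⟨L, r0, r2, J, hF, -, -, -, -, hW⟩ := hz hL 1 k one_pos hk (hasDerivAt_id _)
    (by simpa using (hasDerivAt_id z.1).const_mul k)
  obtain ⟨r, hr, hmem⟩ := hL
  set p0 : V6 := X z.1 (k * z.1) z.2 with hp0
  have hz0 : |z.1 - z.1| ≤ r := by rw [sub_self, abs_zero]; exact hr.le
  have hz0' : |z.2 - z.2| ≤ r := by rw [sub_self, abs_zero]; exact hr.le
  have hmem0 : ∀ c ∈ LB r, p0 + c ∈ Ex926.LEG M := fun c hc => hmem z hz0 hz0' c hc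
  have hzero : (0 : V6) ∈ LB r := mem_LB (mem_LEG (by simp) (by simp) (by simp) (by simp))
    (by simpa using hr.le) (by simpa using hr.le) (by simpa using hr.le)
    (by simpa using hr.le) (by simpa using hr.le) (by simpa using hr.le)
  have hp0m : p0 ∈ Ex926.LEG M := by
    have := hmem0 0 hzero
    rwa [add_zero] at this
  have hsm : ∀ c ∈ LEG, ∀ᶠ w in 𝓝[>] (0:ℝ), p0 + w • c ∈ Ex926.LEG M := by
    intro c hc
    have h4 : ∀ᶠ w : ℝ in 𝓝[>] 0, w * (‖c‖ + 1) < r := by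
      have := tendsto_id_pos.mul_const (‖c‖ + 1)
      rw [zero_mul] at this
      exact this.eventually_lt_const hr
    filter_upwards [h4, self_mem_nhdsWithin] with w hw hw0
    have hw0' : (0:ℝ) < w := hw0
    refine hmem0 _ ⟨LEG_smul hw0'.le hc, fun i => ?_⟩
    have h5 := norm_le_pi_norm c i
    rw [Real.norm_eq_abs] at h5
    rw [Pi.smul_apply, smul_eq_mul, abs_mul, abs_of_pos hw0']
    nlinarith
  have he2 : e 2 ∈ LEG := by
    refine mem_LEG ?_ ?_ ?_ ?_ <;> simp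
  refine ⟨L, r0, r2, J, ?_, ?_, ?_⟩
  · refine hF.congr_of_eventuallyEq ?_
    filter_upwards [Rc_nhds z hr] with z' hz'
    obtain ⟨g1, g2⟩ := Rc_abs hz'
    have := hmem z' g1 g2 0 hzero
    rw [add_zero] at this
    exact he this
  · rw [tendsto_iff_ultrafilter]
    intro W hW'
    have hpos : ∀ᶠ w in (W : Filter ℝ), 0 < id w := hW' self_mem_nhdsWithin
    obtain ⟨g, hg⟩ := exists_BU (p0 := p0) (s := id) W hlip hpos
    have hLim := hW W hW' g hg
    have e1 := hLim.A (M := 1) (R := 2) (c := 0) (c' := e 2) (by norm_num)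
      (mem_LEG (by simp) (by simp) (by simp) (by simp)) he2 (by simp)
      (by refine forall6 ?_ ?_ ?_ ?_ ?_ ?_ <;> simp) (by simp) (by simp)
    have e2 : g (e 2) = -r2 := by
      rw [hLim.zero] at e1
      simp at e1
      linarith
    have h5 := (hg (e 2)).neg
    rw [e2, neg_neg] at h5
    refine h5.congr' ?_
    filter_upwards [hW' (hsm _ he2)] with w hw
    simp only [id]
    have e3 : ν (Ex926.X6 z.1 (k * z.1) z.2 + w • e 2) = ν' (p0 + w • e 2) := he hw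
    have e4 : ν (Ex926.X6 z.1 (k * z.1) z.2) = ν' p0 := he hp0m
    rw [e3, e4, ← neg_div, neg_sub]
  · intro h hh hh0 lam hlam
    have hT : Tendsto h atTop (𝓝[>] 0) :=
      tendsto_nhdsWithin_iff.2 ⟨hh0, Eventually.of_forall fun l => hh l⟩
    set W0 : Ultrafilter ℕ := Ultrafilter.of atTop with hW0
    have hW0le : (W0 : Filter ℕ) ≤ atTop := Ultrafilter.of_le _
    set W : Ultrafilter ℝ := W0.map h with hWd
    have hW' : (W : Filter ℝ) ≤ 𝓝[>] 0 := by
      rw [hWd, Ultrafilter.coe_map]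
      exact (Filter.map_mono hW0le).trans hT
    have hpos : ∀ᶠ w in (W : Filter ℝ), 0 < id w := hW' self_mem_nhdsWithin
    obtain ⟨g, hg⟩ := exists_BU (p0 := p0) (s := id) W hlip hpos
    refine ⟨g, ?_, hW W hW' g hg⟩
    intro c hc
    have h6 : Tendsto (fun l => (ν' (p0 + h l • c) - ν' p0) / h l) W0 (𝓝 (g c)) := by
      have h7 := hg c
      rw [hWd, Ultrafilter.coe_map, tendsto_map'_iff] at h7
      exact h7
    have h8 : Tendsto (fun l => (ν' (p0 + h l • c) - ν' p0) / h l) atTop (𝓝 (lam c)) := by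
      rw [Metric.tendsto_atTop']
      intro ε hε
      have h9 := hlam ‖c‖ (ε / 2) (half_pos hε)
      obtain ⟨N, hN⟩ := eventually_atTop.1 h9
      refine ⟨N, fun l hl => ?_⟩
      obtain ⟨g1, g2⟩ := hN l hl.le c hc le_rfl
      have g3 : ν (Ex926.X6 z.1 (k * z.1) z.2 + h l • c) = ν' (p0 + h l • c) := he g1
      have g4 : ν (Ex926.X6 z.1 (k * z.1) z.2) = ν' p0 := he hp0m
      rw [g3, g4] at g2
      have hl0 := hh l
      have g5 : (ν' (p0 + h l • c) - ν' p0) / h l - lam c =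
          (ν' (p0 + h l • c) - ν' p0 - h l * lam c) / h l := by field_simp
      rw [Real.dist_eq, g5, abs_div, abs_of_pos hl0, div_lt_iff₀ hl0]
      nlinarith
    exact tendsto_nhds_unique h6 (h8.mono_left hW0le)

end Crest.Agent.R138.Dl848

namespace Crest.Agent.R138.AeT501

open Crest.Agent.R138.Ex926 Crest.Agent.R138.Flg101

variable {ι : ℕ → Type} [∀ n, DecidableEq (ι n)]
variable {B : Base} {I : ∀ n, Finset (ι n)}
    {x : ∀ n, ι n → Flg101.Inc} {line : ∀ n, ι n → ℕ} {ν : (Fin 6 → ℝ) → ℝ}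
    {own : (Fin 2 → ℝ) → ℝ} {M s b q k θ c₀ u₀ u₁ : ℝ} {w : ℝ → ℝ}

/-- **TEXT II: `EXT` is contradictory** -/
theorem no_ExtP (hE : ExtP B I x line ν own M s b q k θ c₀) : False :=
  ExtP.false_of_DlOut hE (Dl848.dlOut hE.k0 hE.lip hE.submod)

end Crest.Agent.R138.AeT501
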