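import Crest.Agent.R138.WCh_188
import Crest.Agent.R138.WFin1_188
import Crest.Agent.R138.TubG_70
import Crest.Agent.R138.A1b_774
import Crest.Agent.R138.Hf3_774
import Crest.Agent.R138.Sup7_882
import Crest.Agent.R138.Tv3_323
import Crest.Agent.R138.BnA5_759
import Crest.Agent.R138.Wpk11_685
import Crest.Agent.R138.Zm8_858

/-!
# R138 / R139: WAVE side, final part 3 (helper188): `EBn` from `KM32` (Kakeya side) and the slab
chain `WChE` only (DEC of 685, ZOOM of 858, A4 of 759, ... are plugged in).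
-/

set_option autoImplicit false

open MeasureTheory FourierTransform
open scoped ContDiff ENNReal

namespace Crest.Agent.R138.W188

open Crest.Agent.R138.Defs Crest.Agent.R138.Bil882 Crest.Agent.R138.Wpk685

/-- **`LB` for all `c > 0`** from `KM32` and the slab chain. -/
theorem LB_of_WCh {B : ℕ → ℝ} (hB2 : B 2 ≤ 1/10) {q : ℝ} (hq : 0 ≤ q)
    (hKM : ∀ V : ℝ, Tub70.KM32 V) (hW : ∃ A0 : ℝ, ∀ A : ℝ, A0 ≤ A → WChE B q (SIG A)) :
    ∀ c : ℝ, 0 < c → LB B q 1 c := by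
  obtain ⟨A0, hW⟩ := hW
  obtain ⟨A1, hD⟩ := dec_holds B hq
  have hB2' : B 2 ≤ 1/2 := by linarith
  set A : ℝ := max (max A0 A1) 1 with hA
  have hA1 : 1 ≤ A := le_max_right _ _
  have hDA := hD A ((le_max_right _ _).trans (le_max_left _ _))
  have hWA := hW A ((le_max_left _ _).trans (le_max_left _ _))
  have hZN := Zm858.zoomNN2 B hB2' hq
  have hZC := Zm858.zoomCC2 B hB2' hq
  have hA0 : 0 ≤ A := by linarith
  exact LB_all_ch (F := SIG A) (T774.HALF_of_Zoom hB2 (Zm858.ZoomNN_of hZN))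
    (Tub70.KMw_of_KM32 B hq (hKM _)) (W323.TRIV1_holds B q) (W323.TRIV2_holds B hq hA0)
    (A1_of_A1n (T774.A1_of_DEC hDA)) (Bn759.A4_of_Zoom hB2 hq hZC hZN)
    (T774.A5a_holds B q) hWA

/-- **`EBn`** from `KM32` and the slab chain; the phase class may be restricted
(`B k ≤ c0`, `2 ≤ k ≤ K0`). -/
theorem EBn_of_WCh {c0 : ℝ} (hc0 : 0 < c0) (K0 : ℕ) (hKM : ∀ V : ℝ, Tub70.KM32 V)
    (hW : ∀ B : ℕ → ℝ, (∀ k, 0 ≤ B k) → (∀ k, 2 ≤ k → k ≤ K0 → B k ≤ c0) → B 2 ≤ 1/10 →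
      ∀ q : ℝ, 0 < q → q ≤ 1 → ∃ A0 : ℝ, ∀ A : ℝ, A0 ≤ A → WChE B q (SIG A)) : EBn := by
  refine EBn_of_LB hc0 K0 ?_
  intro B hB0 hBk hB2 q hq hq1
  exact LB_of_WCh hB2 hq.le hKM (hW B hB0 hBk hB2 q hq hq1)

end Crest.Agent.R138.W188
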