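import Crest.Agent.R138.Chn7_188
import Crest.Agent.R138.WFin3_188

/-!
# R138 / R139: WAVE side, final part 4 (helper188): `EBn` from `KM32` (Kakeya side) and the
existence of towers `EXT` (level recursion + slab step).
-/

set_option autoImplicit false

open MeasureTheory FourierTransform
open scoped ContDiff ENNReal

namespace Crest.Agent.R138.W188

open Crest.Agent.R138.Defs Crest.Agent.R138.Bil882 Crest.Agent.R138.Wpk685

/-- **`WChE`** from `KM32` and `EXT`. -/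
theorem WChE_of_EXT' {B : ℕ → ℝ} (hB2 : B 2 ≤ 1/10) {q : ℝ} (hq : 0 ≤ q) {A : ℝ} (hA : 1 ≤ A)
    (hKM : ∀ V : ℝ, Tub70.KM32 V) (hX : Chn188.EXT B q A) : WChE B q (SIG A) := by
  have hB2' : B 2 ≤ 1/2 := by linarith
  have hZN := Zm858.zoomNN2 B hB2' hq
  have hZC := Zm858.zoomCC2 B hB2' hq
  exact Chn188.wchE_of_EXT hA (Tub70.KMw_of_KM32 B hq (hKM _)) (W323.TRIV1_holds B q)
    (W323.TRIV2_holds B hq (by linarith))
    (Sup882.A2_of_Zoom B hB2 q hq A hA (Zm858.ZoomNN_of hZN))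
    (Sup882.A2K_of_KMw B hB2 q hq A hA (Tub70.KMw_of_KM32 B le_rfl (hKM _)))
    (T774.A5b_of_Zoom hB2 (Zm858.ZoomCC_of hZC)) hX

/-- **`EBn`** from `KM32` and `EXT`; the phase class may be restricted (`B k ≤ c0`, `2 ≤ k ≤ K0`). -/
theorem EBn_of_EXT {c0 : ℝ} (hc0 : 0 < c0) (K0 : ℕ) (hKM : ∀ V : ℝ, Tub70.KM32 V)
    (hX : ∀ B : ℕ → ℝ, (∀ k, 0 ≤ B k) → (∀ k, 2 ≤ k → k ≤ K0 → B k ≤ c0) → B 2 ≤ 1/10 →
      ∀ q : ℝ, 0 < q → q ≤ 1 → ∃ A0 : ℝ, ∀ A : ℝ, A0 ≤ A → Chn188.EXT B q A) : EBn := by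
  refine EBn_of_WCh hc0 K0 hKM ?_
  intro B hB0 hBk hB2 q hq hq1
  obtain ⟨A0, hX⟩ := hX B hB0 hBk hB2 q hq hq1
  exact ⟨max A0 1, fun A hA => WChE_of_EXT' hB2 hq.le ((le_max_right _ _).trans hA) hKM
    (hX A ((le_max_left _ _).trans hA))⟩

end Crest.Agent.R138.W188
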