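import Crest.Agent.R138.WireE_627
import Crest.Agent.R138.WFin4_188

/-!
# R138 / R139: the energy bound `EBn` (helper627, wiring).

`EBn_of_EXT` (helper188) from `KM32` (Kakeya maximal inequality in `ℝ³`, `KMs630.km32`) and the
existence of towers `EXT` (`Wire627.ext_holds`).
-/

set_option autoImplicit false

namespace Crest.Agent.R138.Wire627

open Crest.Agent.R138

/-- **The energy bound `EBn`.** -/
theorem eBn_holds : Defs.EBn :=
  W188.EBn_of_EXT (c0 := 1/10) (by norm_num) 2 KMs630.km32
    (fun _ _ _ hB2 _ hq hq1 => ext_holds hB2 hq hq1)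

end Crest.Agent.R138.Wire627
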