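import Crest.Agent.R138.PlCov_187
import Crest.Agent.R138.PlKau_187

/-! # R138: chord slopes: Kaufman or a heavy strip (helper187) -/

set_option autoImplicit false

namespace Crest.Agent.R138.Pl187

open Finset Filter Topology
open Crest.Agent.R070
open Crest.Agent.R070.PBw78
open Crest.Agent.R070.PBCore78
open Crest.Agent.R070.PBTTC78
open Crest.Agent.R070.TTDefs559
open Crest.Agent.R070.Defs248

section

variable {κ : Type} [Fintype κ]

theorem ms_or_le' {v : κ → ℝ} (hv : ∀ k, 0 ≤ v k) {P Q R : κ → Prop} (h : ∀ k, P k → Q k ∨ R k) :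
    ms v P ≤ ms v Q + ms v R := by
  classical
  unfold ms
  rw [← Finset.sum_add_distrib]
  refine Finset.sum_le_sum fun k _ => ?_
  by_cases hP : P k
  · rcases h k hP with h1 | h1
    · rw [if_pos hP, if_pos h1]
      have : (0 : ℝ) ≤ if R k then v k else 0 := by split_ifs; exacts [hv k, le_rfl]
      convert le_add_of_nonneg_right this using 2
    · rw [if_pos hP, if_pos h1]
      have : (0 : ℝ) ≤ if Q k then v k else 0 := by split_ifs; exacts [hv k, le_rfl]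
      convert le_add_of_nonneg_left this using 2
  · rw [if_neg hP]
    have h1 : (0 : ℝ) ≤ @ite ℝ (Q k) (Classical.propDecidable _) (v k) 0 := by
      split_ifs; exacts [hv k, le_rfl]
    have h2 : (0 : ℝ) ≤ @ite ℝ (R k) (Classical.propDecidable _) (v k) 0 := by
      split_ifs; exacts [hv k, le_rfl]
    convert add_nonneg h1 h2 using 2

/-- union bound over a finite set of labels -/
theorem ms_le_sum {α : Type*} {v : κ → ℝ} (hv : ∀ k, 0 ≤ v k) (P : κ → Prop) (S : Finset α)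
    (Q : α → κ → Prop) (h : ∀ k, P k → ∃ a ∈ S, Q a k) :
    ms v P ≤ ∑ a ∈ S, ms v (Q a) := by
  classical
  unfold ms
  rw [Finset.sum_comm]
  refine Finset.sum_le_sum fun k _ => ?_
  by_cases hP : P k
  · obtain ⟨a, ha, hQ⟩ := h k hP
    rw [if_pos hP]
    refine le_trans ?_ (Finset.single_le_sum
      (f := fun a => @ite ℝ (Q a k) (Classical.propDecidable _) (v k) 0)
      (fun a _ => by split_ifs; exacts [hv k, le_rfl]) ha)
    rw [if_pos hQ]
  · rw [if_neg hP]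
    exact Finset.sum_nonneg fun a _ => by split_ifs; exacts [hv k, le_rfl]

/-- disjoint labels -/
theorem sum_ms_le {α : Type*} [DecidableEq α] {v : κ → ℝ} (hv : ∀ k, 0 ≤ v k) (P : κ → Prop)
    (S : Finset α) (lab : κ → α) :
    ∑ a ∈ S, ms v (fun k => P k ∧ lab k = a) ≤ ms v P := by
  classical
  unfold ms
  rw [Finset.sum_comm]
  refine Finset.sum_le_sum fun k _ => ?_
  by_cases hP : P k
  · rw [if_pos hP]
    by_cases hl : lab k ∈ S
    · rw [Finset.sum_eq_single_of_mem (lab k) hl]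
      · rw [if_pos ⟨hP, rfl⟩]
      · intro a _ hne
        exact if_neg fun h => hne h.2.symm
    · refine le_trans (le_of_eq (Finset.sum_eq_zero fun a ha => if_neg ?_)) (hv k)
      rintro ⟨-, h⟩
      exact hl (h ▸ ha)
  · rw [if_neg hP]
    refine le_of_eq (Finset.sum_eq_zero fun a _ => if_neg fun h => hP h.1)

/-- dyadic level of a radius -/
theorem exists_level {L : ℕ} {r : ℝ} (h1 : (1 / 2 : ℝ) ^ (L + 1) < r) (h2 : r ≤ 1) :
    ∃ l ≤ L, (1 / 2 : ℝ) ^ (l + 1) < r ∧ r ≤ (1 / 2 : ℝ) ^ l := by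
  induction L with
  | zero => exact ⟨0, le_rfl, h1, by simpa using h2⟩
  | succ L ih =>
    by_cases h : (1 / 2 : ℝ) ^ (L + 1) < r
    · obtain ⟨l, hl, h3⟩ := ih h
      exact ⟨l, by omega, h3⟩
    · push Not at h
      exact ⟨L + 1, le_rfl, h1, h⟩

/-- **Dichotomy for a weighted family of numbers.** Either half of the mass is `τ`-Frostman (constant
`12 K`), or, at one dyadic scale `ρ`, a `1/(2(L+1))`-part is covered by `K⁻¹ ρ^-τ` intervals of
length `ρ`, and `K ρ^τ ≤ 1`. -/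
theorem slope_dich (v t : κ → ℝ) (hv : ∀ k, 0 ≤ v k) (J : κ → Prop) (τ K : ℝ) (hτ : 0 ≤ τ)
    (hτ1 : τ ≤ 1) (hK : 0 < K) (L : ℕ) (hV : 0 < ms v J) :
    (∃ G : κ → Prop, (∀ k, G k → J k) ∧ ms v J / 2 ≤ ms v G ∧ ∀ r : ℝ, (1 / 2 : ℝ) ^ (L + 1) < r →
      r ≤ 1 → ∀ x, ms v (fun j => G j ∧ |t j - x| ≤ r) ≤ 12 * K * r ^ τ * ms v G) ∨
    (∃ l ≤ L, ∃ G : κ → Prop, (∀ k, G k → J k) ∧ ms v J / (2 * (L + 1)) ≤ ms v G ∧
      K * ((1 / 2 : ℝ) ^ l) ^ τ ≤ 1 ∧ ∃ S : Finset ℝ, K * (S.card * ((1 / 2 : ℝ) ^ l) ^ τ) ≤ 1 ∧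
        ∀ j, G j → ∃ u ∈ S, u ≤ t j ∧ t j ≤ u + (1 / 2 : ℝ) ^ l) := by
  classical
  set V := ms v J with hVdef
  -- cells
  set cell : ℕ → κ → ℤ := fun l k => ⌊t k * 2 ^ l⌋ with hcell
  set mass : ℕ → ℤ → ℝ := fun l c => ms v (fun k => J k ∧ cell l k = c) with hmass
  set H : ℕ → κ → Prop := fun l k => J k ∧ K * ((1 / 2 : ℝ) ^ l) ^ τ * V < mass l (cell l k) with hH
  have hcellP : ∀ l k, (cell l k : ℝ) / 2 ^ l ≤ t k ∧ t k ≤ (cell l k : ℝ) / 2 ^ l + (1 / 2) ^ l := by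
    intro l k
    have h1 : (0 : ℝ) < 2 ^ l := by positivity
    have h2 := Int.floor_le (t k * 2 ^ l)
    have h3 := (Int.lt_floor_add_one (t k * 2 ^ l)).le
    constructor
    · rw [div_le_iff₀ h1]; exact h2
    · have e : (cell l k : ℝ) / 2 ^ l + (1 / 2) ^ l = ((cell l k : ℝ) + 1) / 2 ^ l := by
        rw [one_div, inv_pow, add_div, one_div]
      rw [e, le_div_iff₀ h1]; exact h3
  by_cases hcase : V / 2 ≤ ms v (fun k => J k ∧ ∀ l ≤ L, ¬ H l k)
  · left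
    refine ⟨fun k => J k ∧ ∀ l ≤ L, ¬ H l k, fun k h => h.1, hcase, ?_⟩
    intro r hr1 hr2 x
    obtain ⟨l, hl, hl1, hl2⟩ := exists_level hr1 hr2
    set G : κ → Prop := fun k => J k ∧ ∀ l ≤ L, ¬ H l k with hG
    have h2l : (0 : ℝ) < 2 ^ l := by positivity
    have hp : (0 : ℝ) < (1 / 2) ^ l := by positivity
    have e2 : (2 : ℝ) ^ l * (1 / 2) ^ l = 1 := by rw [← mul_pow]; norm_num
    -- three cells
    set c₀ : ℤ := ⌊(x - r) * 2 ^ l⌋ with hc₀
    have h3 : ms v (fun j => G j ∧ |t j - x| ≤ r) ≤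
        ∑ c ∈ ({c₀, c₀ + 1, c₀ + 2} : Finset ℤ), ms v (fun j => G j ∧ cell l j = c) := by
      refine ms_le_sum hv _ _ (fun c j => G j ∧ cell l j = c) ?_
      rintro j ⟨hj, hjr⟩
      refine ⟨cell l j, ?_, hj, rfl⟩
      rw [abs_le] at hjr
      have h4 : c₀ ≤ cell l j := by
        refine Int.floor_le_floor ?_
        exact mul_le_mul_of_nonneg_right (by linarith [hjr.1]) h2l.le
      have h5 : cell l j ≤ c₀ + 2 := by
        have h6 : t j * 2 ^ l < (c₀ : ℝ) + 3 := by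
          have h7 : (x - r) * 2 ^ l < (c₀ : ℝ) + 1 := Int.lt_floor_add_one _
          have h8 : t j * 2 ^ l ≤ (x + r) * 2 ^ l :=
            mul_le_mul_of_nonneg_right (by linarith [hjr.2]) h2l.le
          have h9 : 2 * r * 2 ^ l ≤ 2 := by
            have := mul_le_mul_of_nonneg_right hl2 h2l.le
            nlinarith
          nlinarith
        have h7 : cell l j < c₀ + 3 := by
          rw [hcell]
          refine Int.floor_lt.2 ?_
          push_cast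
          exact h6
        omega
      simp only [Finset.mem_insert, Finset.mem_singleton]
      omega
    have h4 : ∀ c, ms v (fun j => G j ∧ cell l j = c) ≤ K * ((1 / 2 : ℝ) ^ l) ^ τ * V := by
      intro c
      by_cases hex : ∃ j, G j ∧ cell l j = c
      · obtain ⟨j, hj, hjc⟩ := hex
        have h5 := hj.2 l hl
        rw [hH] at h5
        simp only [not_and, not_lt] at h5
        have h6 := h5 hj.1
        rw [hjc] at h6
        refine le_trans (ms_mono hv ?_) h6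
        rintro k ⟨h7, h8⟩
        exact ⟨h7.1, h8⟩
      · push Not at hex
        have : ms v (fun j => G j ∧ cell l j = c) = 0 := by
          unfold ms
          exact Finset.sum_eq_zero fun j _ => if_neg fun h => hex j h.1 h.2
        rw [this]
        have := Real.rpow_nonneg hp.le τ
        positivity
    have h5 : ms v (fun j => G j ∧ |t j - x| ≤ r) ≤ 3 * (K * ((1 / 2 : ℝ) ^ l) ^ τ * V) := by
      refine h3.trans ((Finset.sum_le_sum fun c _ => h4 c).trans ?_)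
      rw [Finset.sum_const, nsmul_eq_mul]
      have h6 : (({c₀, c₀ + 1, c₀ + 2} : Finset ℤ).card : ℝ) ≤ 3 := by
        exact_mod_cast Finset.card_le_three
      refine mul_le_mul_of_nonneg_right h6 ?_
      have := Real.rpow_nonneg hp.le τ
      positivity
    refine h5.trans ?_
    have h6 : ((1 / 2 : ℝ) ^ l) ^ τ ≤ 2 * r ^ τ := by
      have h7 : (1 / 2 : ℝ) ^ l ≤ 2 * r := by
        rw [pow_succ] at hl1
        linarith
      have hr0 : 0 < r := (by positivity : (0 : ℝ) < (1 / 2) ^ (l + 1)).trans hl1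
      calc ((1 / 2 : ℝ) ^ l) ^ τ ≤ (2 * r) ^ τ := Real.rpow_le_rpow hp.le h7 hτ
        _ = 2 ^ τ * r ^ τ := Real.mul_rpow (by norm_num) hr0.le
        _ ≤ 2 * r ^ τ := by
            refine mul_le_mul_of_nonneg_right ?_ (Real.rpow_nonneg hr0.le _)
            calc (2 : ℝ) ^ τ ≤ 2 ^ (1 : ℝ) :=
                  Real.rpow_le_rpow_of_exponent_le (by norm_num) hτ1
              _ = 2 := Real.rpow_one 2
    have hr0 : 0 < r := (by positivity : (0 : ℝ) < (1 / 2) ^ (l + 1)).trans hl1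
    have h7 : V ≤ 2 * ms v G := by linarith
    calc 3 * (K * ((1 / 2 : ℝ) ^ l) ^ τ * V) ≤ 3 * (K * (2 * r ^ τ) * (2 * ms v G)) := by
          have h8 : 0 ≤ ms v G := ms_nonneg hv _
          have h9 : 0 ≤ r ^ τ := Real.rpow_nonneg hr0.le _
          gcongr
      _ = _ := by ring
  · right
    push Not at hcase
    -- the heavy part
    have h1 : V ≤ ms v (fun k => J k ∧ ∀ l ≤ L, ¬ H l k) + ms v (fun k => ∃ l ≤ L, H l k) := by
      refine ms_or_le' hv fun k hk => ?_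
      by_cases h : ∃ l ≤ L, H l k
      · exact Or.inr h
      · push Not at h
        exact Or.inl ⟨hk, h⟩
    have h2 : ms v (fun k => ∃ l ≤ L, H l k) ≤ ∑ l ∈ Finset.range (L + 1), ms v (H l) := by
      refine ms_le_sum hv _ _ H ?_
      rintro k ⟨l, hl, h⟩
      exact ⟨l, Finset.mem_range.2 (by omega), h⟩
    have h3 : ∃ l ∈ Finset.range (L + 1), V / (2 * (L + 1)) ≤ ms v (H l) := by
      by_contra hcon
      push Not at hcon
      have h4 : ∑ l ∈ Finset.range (L + 1), ms v (H l) ≤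
          ∑ l ∈ Finset.range (L + 1), V / (2 * (L + 1)) :=
        Finset.sum_le_sum fun l hl => (hcon l hl).le
      rw [Finset.sum_const, Finset.card_range, nsmul_eq_mul] at h4
      have h5 : ((L + 1 : ℕ) : ℝ) * (V / (2 * (L + 1))) = V / 2 := by
        push_cast
        field_simp
      rw [h5] at h4
      linarith
    obtain ⟨l, hl, h4⟩ := h3
    have hlL : l ≤ L := by
      have := Finset.mem_range.1 hl
      omega
    set ρ : ℝ := (1 / 2 : ℝ) ^ l with hρ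
    have hρτ : 0 < ρ ^ τ := Real.rpow_pos_of_pos (by positivity) _
    set S₀ : Finset ℤ := (Finset.univ.image (cell l)).filter (fun c => K * ρ ^ τ * V < mass l c)
      with hS₀
    have h5 : (S₀.card : ℝ) * (K * ρ ^ τ * V) ≤ V := by
      have h6 : ∑ c ∈ S₀, (K * ρ ^ τ * V) ≤ ∑ c ∈ S₀, mass l c :=
        Finset.sum_le_sum fun c hc => (Finset.mem_filter.1 hc).2.le
      rw [Finset.sum_const, nsmul_eq_mul] at h6
      exact h6.trans (sum_ms_le hv J S₀ (cell l))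
    have h6 : K * ((S₀.card : ℝ) * ρ ^ τ) ≤ 1 := by
      have h7 : (K * ((S₀.card : ℝ) * ρ ^ τ)) * V ≤ 1 * V := by
        calc _ = (S₀.card : ℝ) * (K * ρ ^ τ * V) := by ring
          _ ≤ V := h5
          _ = 1 * V := (one_mul _).symm
      exact le_of_mul_le_mul_right h7 hV
    refine ⟨l, hlL, H l, fun k h => h.1, h4, ?_, S₀.image (fun c : ℤ => (c : ℝ) / 2 ^ l), ?_, ?_⟩
    · -- nonempty
      have hpos : 0 < ms v (H l) := lt_of_lt_of_le (by positivity) h4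
      have hex : ∃ k, H l k := by
        by_contra hcon
        push Not at hcon
        have : ms v (H l) = 0 := by
          unfold ms
          exact Finset.sum_eq_zero fun j _ => if_neg (hcon j)
        linarith
      obtain ⟨k, hk⟩ := hex
      have h7 : mass l (cell l k) ≤ V := ms_mono hv fun k h => h.1
      have h8 := (hk.2.trans_le h7).le
      have h9 : (K * ρ ^ τ) * V ≤ 1 * V := by linarith
      exact le_of_mul_le_mul_right h9 hV
    · refine le_trans ?_ h6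
      refine mul_le_mul_of_nonneg_left ?_ hK.le
      refine mul_le_mul_of_nonneg_right ?_ hρτ.le
      exact_mod_cast Finset.card_image_le
    · intro k hk
      refine ⟨(cell l k : ℝ) / 2 ^ l, Finset.mem_image.2 ⟨cell l k, ?_, rfl⟩, hcellP l k⟩
      exact Finset.mem_filter.2 ⟨Finset.mem_image_of_mem _ (Finset.mem_univ k), hk.2⟩


/-- Data at one pin `k`: a weighted family `S` of points `(N i, X i)`, `Q`-Frostman for centred
boxes, and a set `J` of heights at which a `δ^ε`-part of `S` has at most `δ^-a` labels, equal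
labels meaning that the chord through the pin does not separate the two points. -/
structure PinData {ι β : Type*} [DecidableEq β] (δ ε a Q : ℝ) (v z f : κ → ℝ) (k : κ)
    (S : Finset ι) (w N X : ι → ℝ) (J : κ → Prop) (Θ : κ → Finset ι) (q : κ → ι → β) : Prop where
  w0 : ∀ i ∈ S, 0 ≤ w i
  W0 : 0 < ∑ i ∈ S, w i
  xb : ∀ i ∈ S, |X i| ≤ 1
  fr : ∀ r, δ ≤ r → r ≤ 1 → ∀ i ∈ S, ∑ j ∈ S with |N j - N i| ≤ r ∧ |X j - X i| ≤ r, w j
    ≤ δ ^ (-ε) * r ^ Q * ∑ i ∈ S, w i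
  Jm : δ ^ ε ≤ ms v J
  sep : ∀ k', J k' → δ ^ ε ≤ |z k' - z k|
  Θs : ∀ k', J k' → Θ k' ⊆ S
  Θw : ∀ k', J k' → δ ^ ε * ∑ i ∈ S, w i ≤ ∑ i ∈ Θ k', w i
  cnt : ∀ k', J k' → (((Θ k').image (q k')).card : ℝ) ≤ δ ^ (-a)
  cl : ∀ k', J k' → ∀ i ∈ Θ k', ∀ j ∈ Θ k', q k' i = q k' j →
    |(N i - N j) * (z k' - z k) - (f k' - f k) * (X i - X j)| ≤ δ ^ (1 - ε)

/-- Kaufman at one pin -/
theorem pin_lower {ι β : Type*} [DecidableEq β] {δ ε a Q τ B : ℝ} {v z f : κ → ℝ} {k : κ}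
    {S : Finset ι} {w N X : ι → ℝ} {J : κ → Prop} {Θ : κ → Finset ι} {q : κ → ι → β}
    (hδ : 0 < δ) (hδ1 : δ ≤ 1) (hε : 0 ≤ ε) (hε2 : 2 * ε ≤ 1) (hQ : 0 ≤ Q) (hτ : 0 ≤ τ)
    (hP : PinData δ ε a Q v z f k S w N X J Θ q)
    (hv : ∀ k, 0 ≤ v k) (hlip : ∀ k k', |f k' - f k| ≤ |z k' - z k|)
    (G : κ → Prop) (hG : ∀ k', G k' → J k') (hGm : 0 < ms v G) (hB : 1 ≤ B)
    (hfr : ∀ r, δ ≤ r → r ≤ 1 → ∀ x,
      ms v (fun j => G j ∧ |(f j - f k) / (z j - z k) - x| ≤ r) ≤ B * r ^ τ * ms v G) :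
    (δ ^ ε) ^ 2 * (δ ^ (1 - 2 * ε)) ^ (-min Q τ) ≤
      6 ^ Q * 4 ^ τ * (1 + 2 * Real.log (3 / δ ^ (1 - 2 * ε))) * δ ^ (-ε) * B * δ ^ (-a) := by
  classical
  have hδ' : δ ≤ δ ^ (1 - 2 * ε) := by
    calc δ = δ ^ (1 : ℝ) := (Real.rpow_one δ).symm
      _ ≤ δ ^ (1 - 2 * ε) := Real.rpow_le_rpow_of_exponent_ge hδ hδ1 (by linarith)
  have hδ'1 : δ ^ (1 - 2 * ε) ≤ 1 := Real.rpow_le_one hδ.le hδ1 (by linarith)
  have hms : ∀ P : κ → Prop, ∑ j ∈ Finset.univ.filter G with P j, v j = ms v (fun j => G j ∧ P j) := by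
    intro P
    unfold ms
    rw [Finset.filter_filter, Finset.sum_filter]
    exact Finset.sum_congr rfl fun j _ => by congr
  have hms' : ∑ j ∈ Finset.univ.filter G, v j = ms v G := by
    unfold ms
    rw [Finset.sum_filter]
  refine kaufman_delta S w N X (Finset.univ.filter G) v
    (fun j => -((f j - f k) / (z j - z k))) (δ ^ (1 - 2 * ε)) (δ ^ (-ε)) B Q τ
    (Real.rpow_pos_of_pos hδ _) hδ'1 ?_ hB hQ hτ hP.w0 (fun j _ => hv j) hP.xb ?_ ?_ ?_
    Θ ?_ q ?_ (δ ^ (-a)) (δ ^ ε) (Real.rpow_nonneg hδ.le _) (Real.rpow_nonneg hδ.le _) ?_ ?_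
    hP.W0 ?_
  · exact Real.one_le_rpow_of_pos_of_le_one_of_nonpos hδ hδ1 (by linarith)
  · intro j _
    rw [abs_neg, abs_div]
    exact div_le_one_of_le₀ (hlip k j) (abs_nonneg _)
  · intro r h1 h2 i hi
    exact hP.fr r (hδ'.trans h1) h2 i hi
  · intro r h1 h2 j hj
    rw [hms, hms']
    refine le_trans (le_of_eq ?_) (hfr r (hδ'.trans h1) h2 ((f j - f k) / (z j - z k)))
    congr 1
    ext j'
    have e : -((f j' - f k) / (z j' - z k)) - -((f j - f k) / (z j - z k)) =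
        -((f j' - f k) / (z j' - z k) - (f j - f k) / (z j - z k)) := by ring
    rw [e, abs_neg]
  · intro j hj
    exact hP.Θs j (hG j (Finset.mem_filter.1 hj).2)
  · intro j hj i hi i' hi' hq
    have hJ := hG j (Finset.mem_filter.1 hj).2
    have h1 := hP.cl j hJ i hi i' hi' hq
    have h2 := hP.sep j hJ
    have h3 : 0 < |z j - z k| := (Real.rpow_pos_of_pos hδ _).trans_le h2
    have h4 : z j - z k ≠ 0 := abs_pos.1 h3
    have e : (N i - N i') + -((f j - f k) / (z j - z k)) * (X i - X i') =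
        ((N i - N i') * (z j - z k) - (f j - f k) * (X i - X i')) / (z j - z k) := by
      field_simp
      ring
    rw [e, abs_div, div_le_iff₀ h3]
    refine h1.trans ?_
    calc δ ^ (1 - ε) = δ ^ (1 - 2 * ε) * δ ^ ε := by
          rw [← Real.rpow_add hδ]; congr 1; ring
      _ ≤ _ := mul_le_mul_of_nonneg_left h2 (Real.rpow_nonneg hδ.le _)
  · intro j hj
    exact hP.cnt j (hG j (Finset.mem_filter.1 hj).2)
  · intro j hj
    exact hP.Θw j (hG j (Finset.mem_filter.1 hj).2)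
  · rw [hms']; exact hGm


/-- `log` is beaten by powers -/
theorem log_bound {δ ε : ℝ} (hδ : 0 < δ) (hδ1 : δ ≤ 1) (hε : 0 < ε) (hε1 : ε ≤ 1 / 2) :
    1 + 2 * Real.log (3 / δ ^ (1 - 2 * ε)) ≤ (1 + 6 / ε) * δ ^ (-ε) := by
  have h1 : (1 : ℝ) ≤ δ ^ (-ε) :=
    Real.one_le_rpow_of_pos_of_le_one_of_nonpos hδ hδ1 (by linarith)
  have hδ' : δ ≤ δ ^ (1 - 2 * ε) := by
    calc δ = δ ^ (1 : ℝ) := (Real.rpow_one δ).symm
      _ ≤ δ ^ (1 - 2 * ε) := Real.rpow_le_rpow_of_exponent_ge hδ hδ1 (by linarith)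
  have h2 : Real.log (3 / δ ^ (1 - 2 * ε)) ≤ Real.log (3 / δ) := by
    refine Real.log_le_log (by have := Real.rpow_pos_of_pos hδ (1 - 2 * ε); positivity) ?_
    exact div_le_div_of_nonneg_left (by norm_num) hδ hδ'
  have h3 : Real.log (3 / δ) ≤ (3 / δ) ^ ε / ε := Real.log_le_rpow_div (by positivity) hε
  have h4 : (3 / δ) ^ ε ≤ 3 * δ ^ (-ε) := by
    rw [Real.div_rpow (by norm_num) hδ.le, Real.rpow_neg hδ.le, div_eq_mul_inv]
    refine mul_le_mul_of_nonneg_right ?_ (by have := Real.rpow_nonneg hδ.le ε; positivity)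
    calc (3 : ℝ) ^ ε ≤ 3 ^ (1 : ℝ) := Real.rpow_le_rpow_of_exponent_le (by norm_num) (by linarith)
      _ = 3 := Real.rpow_one 3
  have h5 : Real.log (3 / δ ^ (1 - 2 * ε)) ≤ 3 / ε * δ ^ (-ε) := by
    refine h2.trans (h3.trans ?_)
    calc (3 / δ) ^ ε / ε ≤ (3 * δ ^ (-ε)) / ε := div_le_div_of_nonneg_right h4 hε.le
      _ = _ := by ring
  calc 1 + 2 * Real.log (3 / δ ^ (1 - 2 * ε)) ≤ δ ^ (-ε) + 2 * (3 / ε * δ ^ (-ε)) := by linarith
    _ = _ := by ring

/-- number of dyadic scales -/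
theorem lvl_bound {δ ε : ℝ} (hδ : 0 < δ) (hδ1 : δ ≤ 1) (hε : 0 < ε) {L : ℕ}
    (hL : (2 : ℝ) ^ L ≤ 1 / δ) : (L : ℝ) + 1 ≤ (1 + 2 / ε) * δ ^ (-ε) := by
  have h1 : (1 : ℝ) ≤ δ ^ (-ε) :=
    Real.one_le_rpow_of_pos_of_le_one_of_nonpos hδ hδ1 (by linarith)
  have h2 : (L : ℝ) * Real.log 2 ≤ Real.log (1 / δ) := by
    have := Real.log_le_log (by positivity) hL
    rwa [Real.log_pow] at this
  have h3 : Real.log (1 / δ) ≤ (1 / δ) ^ ε / ε := Real.log_le_rpow_div (by positivity) hε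
  have h4 : (1 / δ) ^ ε = δ ^ (-ε) := by
    rw [one_div, Real.inv_rpow hδ.le, Real.rpow_neg hδ.le]
  rw [h4] at h3
  have h5 : (1 / 2 : ℝ) ≤ Real.log 2 := by
    have := Real.log_two_gt_d9
    linarith
  have h6 : (L : ℝ) * (1 / 2) ≤ δ ^ (-ε) / ε :=
    (mul_le_mul_of_nonneg_left h5 (Nat.cast_nonneg L)).trans (h2.trans h3)
  calc (L : ℝ) + 1 ≤ 2 * (δ ^ (-ε) / ε) + δ ^ (-ε) := by linarith
    _ = _ := by ring


theorem ms_sub {p : κ → Prop} [Fintype {k // p k}] (v : κ → ℝ) (Q : κ → Prop) :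
    ms (fun i : {k // p k} => v i) (fun i => Q i) = ms v (fun k => p k ∧ Q k) := by
  classical
  unfold ms
  have h1 : ∑ k, (@ite ℝ (p k ∧ Q k) (Classical.propDecidable _) (v k) 0) =
      ∑ k ∈ Finset.univ.filter p, (@ite ℝ (Q k) (Classical.propDecidable _) (v k) 0) := by
    rw [Finset.sum_filter]
    refine Finset.sum_congr rfl fun k _ => ?_
    by_cases h2 : p k <;> by_cases h3 : Q k <;> simp [h2, h3]
  rw [h1]
  exact (Finset.sum_subtype (Finset.univ.filter p) (fun x => by simp)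
    (fun k => @ite ℝ (Q k) (Classical.propDecidable _) (v k) 0)).symm

theorem pm_sub {p p' : κ → Prop} [Fintype {k // p k}] [Fintype {k // p' k}] (v v' : κ → ℝ)
    (P : κ → κ → Prop) :
    pm (fun i : {k // p k} => v i) (fun i : {k // p' k} => v' i) (fun i j => P i j) =
      pm v v' (fun k k' => P k k' ∧ p k ∧ p' k') := by
  classical
  rw [pm_eq_sum_ms, pm_eq_sum_ms]
  have h1 : ∀ i : {k // p k}, ms (fun i : {k // p' k} => v' i) (fun j => P i j) =
      ms v' (fun k' => p' k' ∧ P i k') := fun i => ms_sub v' (P i)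
  have h2 : ∑ k, v k * ms v' (fun k' => P k k' ∧ p k ∧ p' k') =
      ∑ k ∈ Finset.univ.filter p, v k * ms v' (fun k' => p' k' ∧ P k k') := by
    rw [Finset.sum_filter]
    refine Finset.sum_congr rfl fun k _ => ?_
    by_cases h3 : p k
    · rw [if_pos h3]
      congr 2
      ext k'
      constructor
      · rintro ⟨a, _, c⟩; exact ⟨c, a⟩
      · rintro ⟨c, a⟩; exact ⟨a, h3, c⟩
    · rw [if_neg h3]
      have : ms v' (fun k' => P k k' ∧ p k ∧ p' k') = 0 := by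
        unfold ms
        exact Finset.sum_eq_zero fun j _ => if_neg fun h => h3 h.2.1
      rw [this, mul_zero]
  rw [h2]
  refine (Finset.sum_congr rfl fun i _ => by rw [h1 i]).trans ?_
  exact (Finset.sum_subtype (Finset.univ.filter p) (fun x => by simp)
    (fun k => v k * ms v' (fun k' => p' k' ∧ P k k'))).symm

theorem pm_le_sum {α : Type*} {v v' : κ → ℝ} (hv : ∀ k, 0 ≤ v k) (hv' : ∀ k, 0 ≤ v' k)
    (P : κ → κ → Prop) (S : Finset α) (Q : α → κ → κ → Prop)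
    (h : ∀ k k', P k k' → ∃ a ∈ S, Q a k k') :
    pm v v' P ≤ ∑ a ∈ S, pm v v' (Q a) := by
  classical
  simp only [pm_eq_sum_ms]
  rw [Finset.sum_comm]
  refine Finset.sum_le_sum fun k _ => ?_
  rw [← Finset.mul_sum]
  exact mul_le_mul_of_nonneg_left (ms_le_sum hv' _ _ _ (h k)) (hv k)

end

set_option maxHeartbeats 1600000 in
/-- second half of `chord_kaufman`: if at each pin of a family of mass `≥ δ^ε` the slopes of a part
of mass `≥ δ^(2ε)` are covered by few intervals of one length `r`, there is a heavy strip. -/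
theorem strip_of_pins {σ τ η : ℝ} (hσ : 0 < σ) (hτσ : τ < σ) (hτ1 : τ < 1) (hη : 0 < η) {x : ℝ}
    (hx : 0 < x) :
    ∃ b ε₀ : ℝ, 0 < b ∧ 0 < ε₀ ∧ ∀ ε : ℝ, 0 < ε → ε ≤ ε₀ → ∃ δ₀ : ℝ, 0 < δ₀ ∧ ∀ δ : ℝ, 0 < δ →
      δ ≤ δ₀ → ∀ (κ : Type) [Fintype κ] (v z f : κ → ℝ), (∀ k, 0 ≤ v k) → ∑ k, v k ≤ 1 →
      (∀ k, |z k| ≤ 1) → (∀ k, |f k| ≤ 1) → (∀ k k', |f k' - f k| ≤ |z k' - z k|) →
      (∀ r : ℝ, δ ≤ r → r ≤ 1 → ∀ k, ms v (fun j => |z j - z k| ≤ r) ≤ δ ^ (-ε) * r ^ σ) →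
      ∀ r : ℝ, δ ≤ r → r ≤ δ ^ x → ∀ P : κ → κ → Prop, δ ^ (4 * ε) ≤ pm v v P →
      (∀ k k', P k k' → δ ^ ε ≤ |z k' - z k|) →
      (∀ k, ∃ S : Finset ℝ, (S.card : ℝ) ≤ r ^ (-τ) ∧ ∀ k', P k k' →
        ∃ u ∈ S, u ≤ (f k' - f k) / (z k' - z k) ∧ (f k' - f k) / (z k' - z k) ≤ u + r) →
      ∃ k k', P k k' ∧ ∃ ρ : ℝ, r ≤ ρ ∧ ρ ≤ δ ^ b ∧
        ρ ^ η ≤ ms v (fun j => |f j - f k - (f k' - f k) / (z k' - z k) * (z j - z k)| ≤ ρ) := by
  obtain ⟨a₀, c, r₀, ha₀, hc, hr₀, HR⟩ := radial_cover hσ hτσ hτ1 hη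
  refine ⟨a₀ * x, c * x / 7, by positivity, by positivity, ?_⟩
  intro ε hε hεx
  have hεc : 7 * ε ≤ c * x := by linarith
  have ev' : ∀ᶠ δ in 𝓝[>] (0 : ℝ), 0 < δ ∧ δ ≤ 1 ∧ (1 / r₀) * δ ^ x ≤ 1 ∧ 122 * δ ^ ε ≤ 1 ∧
      2 ^ σ * δ ^ ε ≤ 1 ∧ 2 * δ ^ ε ≤ 1 := by
    have g0 : ∀ᶠ r in 𝓝[>] (0 : ℝ), 0 < r := self_mem_nhdsWithin
    have g1 : ∀ᶠ r in 𝓝[>] (0 : ℝ), r ≤ 1 :=
      nhdsWithin_le_nhds (eventually_le_nhds one_pos)
    exact g0.and (g1.and ((ev hx).and ((ev hε).and ((ev hε).and (ev hε)))))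
  obtain ⟨δ₀, hδ₀, HE⟩ := exists_of_ev ev'
  refine ⟨δ₀, hδ₀, ?_⟩
  intro δ hδ hδδ κ _ v z f hv hv1 hz hf hlip hfr r hδr hrx P hP hsep hcov
  classical
  obtain ⟨-, hδ1, e1, e2, e3, e4⟩ := HE δ hδ hδδ
  have hr : 0 < r := hδ.trans_le hδr
  have pp : ∀ y : ℝ, 0 < δ ^ y := fun y => Real.rpow_pos_of_pos hδ y
  have mono : ∀ {y y' : ℝ}, y ≤ y' → δ ^ y' ≤ δ ^ y := fun h =>
    Real.rpow_le_rpow_of_exponent_ge hδ hδ1 h
  have hδx1 : δ ^ x ≤ 1 := Real.rpow_le_one hδ.le hδ1 hx.le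
  have hr1 : r ≤ 1 := hrx.trans hδx1
  have hrr₀ : r ≤ r₀ := by
    refine hrx.trans ?_
    have : δ ^ x / r₀ ≤ 1 := by rw [div_eq_inv_mul, ← one_div]; exact e1
    rwa [div_le_one hr₀] at this
  -- `r^c ≤ δ^(7ε)`
  have hrc : r ^ c ≤ δ ^ (7 * ε) := by
    calc r ^ c ≤ (δ ^ x) ^ c := Real.rpow_le_rpow hr.le hrx hc.le
      _ = δ ^ (c * x) := by rw [← Real.rpow_mul hδ.le]; congr 1; ring
      _ ≤ δ ^ (7 * ε) := mono hεc
  have hrc' : δ ^ (-(7 * ε)) ≤ r ^ (-c) := by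
    rw [Real.rpow_neg hδ.le, Real.rpow_neg hr.le]
    exact inv_anti₀ (Real.rpow_pos_of_pos hr _) hrc
  -- cells
  set h : ℝ := δ ^ ε / 4 with hh
  have hh0 : 0 < h := by have := pp ε; positivity
  set n : ℕ := ⌈4 * δ ^ (-ε)⌉₊ with hn
  set cell : κ → ℤ := fun k => ⌊z k / h⌋ with hcell
  have h4 : 1 / h = 4 * δ ^ (-ε) := by
    rw [hh, Real.rpow_neg hδ.le]
    field_simp
  have hn1 : 4 * δ ^ (-ε) ≤ n := Nat.le_ceil _
  have hn2 : (n : ℝ) ≤ 4 * δ ^ (-ε) + 1 := (Nat.ceil_lt_add_one (by have := pp (-ε); positivity)).le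
  have hcell1 : ∀ k, cell k ∈ Finset.Icc (-(n : ℤ)) n := by
    intro k
    have h5 : |z k / h| ≤ n := by
      rw [abs_div, abs_of_pos hh0]
      calc |z k| / h ≤ 1 / h := div_le_div_of_nonneg_right (hz k) hh0.le
        _ ≤ n := by rw [h4]; exact hn1
    rw [abs_le] at h5
    rw [Finset.mem_Icc]
    constructor
    · rw [hcell]
      refine Int.le_floor.2 ?_
      push_cast
      exact h5.1
    · have h6 : (cell k : ℝ) ≤ n := (Int.floor_le _).trans h5.2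
      exact_mod_cast h6
  set Cc : Finset ℤ := Finset.Icc (-(n : ℤ)) n with hCc
  have hCcard : (Cc.card : ℝ) ≤ 11 * δ ^ (-ε) := by
    have h5 : Cc.card = 2 * n + 1 := by
      rw [hCc, Int.card_Icc]
      omega
    rw [h5]
    push_cast
    have h6 : (1 : ℝ) ≤ δ ^ (-ε) :=
      Real.one_le_rpow_of_pos_of_le_one_of_nonpos hδ hδ1 (by linarith)
    linarith
  clear_value n
  obtain ⟨c₁, c₂, hpm⟩ : ∃ c₁ c₂ : ℤ, δ ^ (7 * ε) ≤
      pm v v (fun k k' => P k k' ∧ cell k = c₁ ∧ cell k' = c₂) := by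
    by_contra hcon
    push Not at hcon
    set Qc : ℤ × ℤ → κ → κ → Prop := fun cc k k' => P k k' ∧ cell k = cc.1 ∧ cell k' = cc.2
      with hQc
    have h5 : pm v v P ≤ ∑ cc ∈ Cc ×ˢ Cc, pm v v (Qc cc) := by
      refine pm_le_sum hv hv P (Cc ×ˢ Cc) Qc ?_
      intro k k' hk
      refine ⟨(cell k, cell k'), Finset.mem_product.2 ⟨hcell1 k, hcell1 k'⟩, ?_⟩
      rw [hQc]
      exact ⟨hk, rfl, rfl⟩
    have h6 : ∑ cc ∈ Cc ×ˢ Cc, pm v v (Qc cc) ≤ ∑ cc ∈ Cc ×ˢ Cc, δ ^ (7 * ε) :=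
      Finset.sum_le_sum fun cc _ => (hcon cc.1 cc.2).le
    rw [Finset.sum_const, Finset.card_product, nsmul_eq_mul] at h6
    push_cast at h6
    have h7 : (Cc.card : ℝ) * Cc.card * δ ^ (7 * ε) < δ ^ (4 * ε) := by
      calc (Cc.card : ℝ) * Cc.card * δ ^ (7 * ε)
          ≤ (11 * δ ^ (-ε)) * (11 * δ ^ (-ε)) * δ ^ (7 * ε) := by
            have := pp (7 * ε)
            have := pp (-ε)
            gcongr
        _ = (121 * δ ^ ε) * δ ^ (4 * ε) := by
            have : δ ^ (7 * ε) = δ ^ ε * δ ^ ε * δ ^ ε * δ ^ (4 * ε) := by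
              rw [← Real.rpow_add hδ, ← Real.rpow_add hδ, ← Real.rpow_add hδ]; congr 1; ring
            rw [this, Real.rpow_neg hδ.le]
            have := (pp ε).ne'
            field_simp
            ring
        _ < 1 * δ ^ (4 * ε) := mul_lt_mul_of_pos_right (by linarith [pp ε]) (pp _)
        _ = _ := one_mul _
    linarith
  -- separation
  have hcellh : ∀ k, |z k - (cell k : ℝ) * h - h / 2| ≤ h / 2 := by
    intro k
    have h5 := Int.floor_le (z k / h)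
    have h6 := Int.lt_floor_add_one (z k / h)
    rw [le_div_iff₀ hh0] at h5
    rw [div_lt_iff₀ hh0] at h6
    rw [abs_le]
    constructor
    · have : (cell k : ℝ) * h ≤ z k := h5
      linarith
    · have : z k < ((cell k : ℝ) + 1) * h := h6
      nlinarith
  have hne : ∃ k₀ k₀', P k₀ k₀' ∧ cell k₀ = c₁ ∧ cell k₀' = c₂ := by
    by_contra hcon
    push Not at hcon
    have : pm v v (fun k k' => P k k' ∧ cell k = c₁ ∧ cell k' = c₂) = 0 := by
      unfold pm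
      refine Finset.sum_eq_zero fun k _ => Finset.sum_eq_zero fun k' _ => if_neg ?_
      rintro ⟨h5, h6, h7⟩
      exact hcon k k' h5 h6 h7
    rw [this] at hpm
    linarith [pp (7 * ε)]
  obtain ⟨k₀, k₀', hP0, hk₀, hk₀'⟩ := hne
  have hsep' : ∀ k k', cell k = c₁ → cell k' = c₂ → r ^ c ≤ |z k' - z k| := by
    intro k k' hk hk'
    have h5 := hcellh k
    have h6 := hcellh k'
    have h7 := hcellh k₀
    have h8 := hcellh k₀'
    rw [hk] at h5
    rw [hk'] at h6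
    rw [hk₀] at h7
    rw [hk₀'] at h8
    have h9 := hsep k₀ k₀' hP0
    have h10 : |z k₀' - z k₀| ≤ |z k' - z k| + 2 * h := by
      have e : z k₀' - z k₀ = (z k' - z k) + ((z k₀' - (c₂ : ℝ) * h - h / 2) -
          (z k' - (c₂ : ℝ) * h - h / 2) - (z k₀ - (c₁ : ℝ) * h - h / 2) +
          (z k - (c₁ : ℝ) * h - h / 2)) := by ring
      rw [e]
      refine (abs_add_le _ _).trans (add_le_add le_rfl ?_)
      rw [abs_le] at h5 h6 h7 h8 ⊢
      constructor <;> linarith [h5.1, h5.2, h6.1, h6.2, h7.1, h7.2, h8.1, h8.2]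
    have h11 : r ^ c ≤ δ ^ ε / 2 := by
      refine hrc.trans ?_
      have h12 : δ ^ (7 * ε) ≤ δ ^ ε * δ ^ ε := by
        rw [← Real.rpow_add hδ]; exact mono (by linarith)
      have h13 := mul_le_mul_of_nonneg_right e4 (pp ε).le
      linarith
    rw [hh] at h10
    linarith
  -- Frostman for the restricted families
  have hFam : ∀ cc : ℤ, Fam σ c r (fun i : {k // cell k = cc} => v i) (fun i => z i)
      (fun i => f i) := by
    intro cc
    refine ⟨fun i => hv i, ?_, fun i => hz i, fun i => hf i, ?_⟩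
    · have h5 : ∑ i : {k // cell k = cc}, v i = ∑ k ∈ Finset.univ.filter (fun k => cell k = cc), v k :=
        (Finset.sum_subtype (Finset.univ.filter (fun k => cell k = cc)) (fun x => by simp) v).symm
      rw [h5]
      exact (Finset.sum_le_sum_of_subset_of_nonneg (Finset.filter_subset _ _)
        fun k _ _ => hv k).trans hv1
    · intro x y ρ g1 g2
      have hρ0 : 0 < ρ := hr.trans_le g1
      rw [ms_sub v (fun k => |z k - x| ≤ ρ ∧ |f k - y| ≤ ρ)]
      have k0 : 2 ^ σ * δ ^ (-ε) ≤ r ^ (-c) := by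
        refine le_trans ?_ hrc'
        have h5 : δ ^ (-(2 * ε)) ≤ δ ^ (-(7 * ε)) := mono (by linarith)
        refine le_trans ?_ h5
        have h6 : δ ^ (-ε) = δ ^ ε * δ ^ (-(2 * ε)) := by
          rw [← Real.rpow_add hδ]; congr 1; ring
        rw [h6, ← mul_assoc]
        exact (mul_le_mul_of_nonneg_right e3 (pp _).le).trans_eq (one_mul _)
      have hρσ : 0 ≤ ρ ^ σ := Real.rpow_nonneg hρ0.le _
      by_cases hex : ∃ k, cell k = cc ∧ |z k - x| ≤ ρ ∧ |f k - y| ≤ ρ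
      · obtain ⟨k, -, hk, -⟩ := hex
        by_cases h2ρ : 2 * ρ ≤ 1
        · have h5 := hfr (2 * ρ) (by linarith) h2ρ k
          refine (ms_mono hv ?_).trans (h5.trans ?_)
          · rintro j ⟨-, hj, -⟩
            rw [abs_le] at hj hk ⊢
            constructor <;> linarith [hj.1, hj.2, hk.1, hk.2]
          · rw [Real.mul_rpow (by norm_num) hρ0.le]
            calc δ ^ (-ε) * (2 ^ σ * ρ ^ σ) = (2 ^ σ * δ ^ (-ε)) * ρ ^ σ := by ring
              _ ≤ _ := mul_le_mul_of_nonneg_right k0 hρσ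
        · push Not at h2ρ
          have h5 : ms v (fun k => cell k = cc ∧ |z k - x| ≤ ρ ∧ |f k - y| ≤ ρ) ≤ 1 := by
            refine le_trans ?_ hv1
            unfold ms
            refine Finset.sum_le_sum fun i _ => ?_
            split_ifs
            · exact le_rfl
            · exact hv i
          have h6 : 1 ≤ 2 ^ σ * ρ ^ σ := by
            rw [← Real.mul_rpow (by norm_num) hρ0.le]
            exact Real.one_le_rpow h2ρ.le hσ.le
          have h7 : (1 : ℝ) ≤ δ ^ (-ε) :=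
            Real.one_le_rpow_of_pos_of_le_one_of_nonpos hδ hδ1 (by linarith)
          calc _ ≤ (1 : ℝ) := h5
            _ ≤ 2 ^ σ * ρ ^ σ := h6
            _ = (2 ^ σ * 1) * ρ ^ σ := by ring
            _ ≤ (2 ^ σ * δ ^ (-ε)) * ρ ^ σ := by
                refine mul_le_mul_of_nonneg_right ?_ hρσ
                exact mul_le_mul_of_nonneg_left h7 (by positivity)
            _ ≤ _ := mul_le_mul_of_nonneg_right k0 hρσ
      · push Not at hex
        have h5 : ms v (fun k => cell k = cc ∧ |z k - x| ≤ ρ ∧ |f k - y| ≤ ρ) = 0 := by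
          unfold ms
          refine Finset.sum_eq_zero fun j _ => if_neg ?_
          rintro ⟨h6, h7, h8⟩
          exact absurd h8 (not_le.2 (hex j h6 h7))
        rw [h5]
        have := Real.rpow_nonneg hr.le (-c)
        positivity
  have hrneg : (1 : ℝ) ≤ r ^ (-c) :=
    Real.one_le_rpow_of_pos_of_le_one_of_nonpos hr hr1 (by linarith)
  have hmain := HR r hr hrr₀ {k // cell k = c₁} {k // cell k = c₂} (fun i => v i) (fun i => v i)
    (fun i => z i) (fun i => f i) (fun i => z i) (fun i => f i) (hFam c₁) (hFam c₂)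
    (fun i j => hsep' i j i.2 j.2)
    (fun i j => (hlip i j).trans (le_mul_of_one_le_left (abs_nonneg _) hrneg))
    (fun i j => P i j) ?_ ?_
  · -- extract one pair
    have hpos : 0 < r ^ (2 * c) := Real.rpow_pos_of_pos hr _
    have hex : ∃ (i : {k // cell k = c₁}) (j : {k // cell k = c₂}), P i j ∧
        HeavyStrip a₀ η r (fun i : {k // cell k = c₁} => v i) (fun i : {k // cell k = c₂} => v i)
          (fun i => z i) (fun i => f i) (fun i => z i) (fun i => f i) i j := by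
      by_contra hcon
      push Not at hcon
      have : pm (fun i : {k // cell k = c₁} => v i) (fun i : {k // cell k = c₂} => v i)
          (fun i j => P i j ∧
        HeavyStrip a₀ η r (fun i : {k // cell k = c₁} => v i) (fun i : {k // cell k = c₂} => v i)
          (fun i => z i) (fun i => f i) (fun i => z i) (fun i => f i) i j) = 0 := by
        unfold pm
        refine Finset.sum_eq_zero fun k _ => Finset.sum_eq_zero fun k' _ => if_neg ?_
        rintro ⟨h5, h6⟩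
        exact hcon k k' h5 h6
      rw [this] at hmain
      linarith
    obtain ⟨i, j, hPij, ρ, g1, g2, g3⟩ := hex
    refine ⟨i, j, hPij, ρ, g1, ?_, ?_⟩
    · refine g2.trans ?_
      calc r ^ a₀ ≤ (δ ^ x) ^ a₀ := Real.rpow_le_rpow hr.le hrx ha₀.le
        _ = δ ^ (a₀ * x) := by rw [← Real.rpow_mul hδ.le]; congr 1; ring
    · rcases g3 with g3 | g3
      · refine g3.trans ?_
        rw [ms_sub v (fun j' => |f j' - f i - slope (fun i : {k // cell k = c₁} => z i)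
          (fun i => f i) (fun i : {k // cell k = c₂} => z i) (fun i => f i) i j *
            (z j' - z i)| ≤ ρ)]
        exact ms_mono hv fun k hk => hk.2
      · refine g3.trans ?_
        rw [ms_sub v (fun j' => |f j' - f i - slope (fun i : {k // cell k = c₁} => z i)
          (fun i => f i) (fun i : {k // cell k = c₂} => z i) (fun i => f i) i j *
            (z j' - z i)| ≤ ρ)]
        exact ms_mono hv fun k hk => hk.2
  · rw [pm_sub v v P]
    exact hrc.trans hpm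
  · intro i
    obtain ⟨S, hS1, hS2⟩ := hcov i
    exact ⟨S, hS1, fun j hj => hS2 j hj⟩

set_option maxHeartbeats 1600000 in
/-- **Chord slopes: Kaufman or a heavy strip.** `k ↦ (z k, f k)` a 1-Lipschitz curve over a
`σ`-Frostman set of heights. If at each pin `k` of a set of mass `≥ δ^ε`, for `δ^ε`-many partner
heights `k'`, a `δ^ε`-part of a `Q`-Frostman planar family has at most `δ^-a` classes under the
projection in the direction of the chord slope, `a < min Q τ`, `τ < min σ 1`, then the curve has a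
heavy strip through two of its points: half-width `ρ ∈ [δ, δ^b]`, mass `≥ ρ^η`. -/
theorem chord_kaufman {a τ Q σ η : ℝ} (haτ : a < τ) (haQ : a < Q) (hQ : 0 ≤ Q) (hτ : 0 < τ)
    (hτσ : τ < σ) (hτ1 : τ < 1) (hη : 0 < η) :
    ∃ b ε₀ : ℝ, 0 < b ∧ 0 < ε₀ ∧ ∀ ε : ℝ, 0 < ε → ε ≤ ε₀ → ∃ δ₀ : ℝ, 0 < δ₀ ∧ ∀ δ : ℝ, 0 < δ →
      δ ≤ δ₀ → ∀ (κ : Type) [Fintype κ] (v z f : κ → ℝ), (∀ k, 0 ≤ v k) → ∑ k, v k ≤ 1 →
      (∀ k, |z k| ≤ 1) → (∀ k, |f k| ≤ 1) → (∀ k k', |f k' - f k| ≤ |z k' - z k|) →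
      (∀ r : ℝ, δ ≤ r → r ≤ 1 → ∀ k, ms v (fun j => |z j - z k| ≤ r) ≤ δ ^ (-ε) * r ^ σ) →
      ∀ J0 : κ → Prop, δ ^ ε ≤ ms v J0 →
      ∀ {ι β : Type*} [DecidableEq β] (S : κ → Finset ι) (w N X : κ → ι → ℝ) (J : κ → κ → Prop)
        (Θ : κ → κ → Finset ι) (q : κ → κ → ι → β),
      (∀ k, J0 k → PinData δ ε a Q v z f k (S k) (w k) (N k) (X k) (J k) (Θ k) (q k)) →
      ∃ k k', J0 k ∧ J k k' ∧ ∃ ρ : ℝ, δ ≤ ρ ∧ ρ ≤ δ ^ b ∧
        ρ ^ η ≤ ms v (fun j => |f j - f k - (f k' - f k) / (z k' - z k) * (z j - z k)| ≤ ρ) := by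
  have hσ : 0 < σ := hτ.trans hτσ
  set μ : ℝ := min Q τ with hμ
  have haμ : a < μ := lt_min haQ haτ
  have hμ0 : 0 ≤ μ := le_min hQ hτ.le
  set ε2 : ℝ := (μ - a) / 4 with hε2
  have hε20 : 0 < ε2 := by rw [hε2]; linarith
  set x : ℝ := ε2 / τ with hx
  have hx0 : 0 < x := by positivity
  obtain ⟨b, ε₁, hb, hε₁, HS⟩ := strip_of_pins hσ hτσ hτ1 hη hx0
  refine ⟨b, min ε₁ (min (1 / 4) (ε2 / (4 + 2 * μ))), hb,
    lt_min hε₁ (lt_min (by norm_num) (by positivity)), ?_⟩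
  intro ε hε hεle
  have hε1 : ε ≤ ε₁ := hεle.trans (min_le_left _ _)
  have hε4 : ε ≤ 1 / 4 := hεle.trans ((min_le_right _ _).trans (min_le_left _ _))
  have hεμ : ε * (4 + 2 * μ) ≤ ε2 := by
    have : ε ≤ ε2 / (4 + 2 * μ) := hεle.trans ((min_le_right _ _).trans (min_le_right _ _))
    rwa [le_div_iff₀ (by positivity)] at this
  obtain ⟨δ₁, hδ₁, HS'⟩ := HS ε hε hε1
  set C1 : ℝ := 2 * (6 ^ Q * 4 ^ τ * (1 + 6 / ε) * 12) with hC1
  have ev' : ∀ᶠ δ in 𝓝[>] (0 : ℝ), 0 < δ ∧ δ ≤ 1 ∧ δ ≤ δ₁ ∧ C1 * δ ^ ((μ - a) / 2) ≤ 1 ∧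
      (2 * (1 + 4 / ε) ^ 2) * δ ^ ε ≤ 1 := by
    have g0 : ∀ᶠ r in 𝓝[>] (0 : ℝ), 0 < r := self_mem_nhdsWithin
    have g1 : ∀ᶠ r in 𝓝[>] (0 : ℝ), r ≤ 1 :=
      nhdsWithin_le_nhds (eventually_le_nhds one_pos)
    have g2 : ∀ᶠ r in 𝓝[>] (0 : ℝ), r ≤ δ₁ :=
      nhdsWithin_le_nhds (eventually_le_nhds hδ₁)
    exact g0.and (g1.and (g2.and ((ev (by linarith)).and (ev hε))))
  obtain ⟨δ₀, hδ₀, HE⟩ := exists_of_ev ev'
  refine ⟨δ₀, hδ₀, ?_⟩
  intro δ hδ hδδ κ _ v z f hv hv1 hz hf hlip hfr J0 hJ0 ι β _ S w N X J Θ q hpin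
  classical
  obtain ⟨-, hδ1, hδδ₁, e1, e2⟩ := HE δ hδ hδδ
  have pp : ∀ y : ℝ, 0 < δ ^ y := fun y => Real.rpow_pos_of_pos hδ y
  have mono : ∀ {y y' : ℝ}, y ≤ y' → δ ^ y' ≤ δ ^ y := fun h =>
    Real.rpow_le_rpow_of_exponent_ge hδ hδ1 h
  set K : ℝ := δ ^ (-ε2) with hK
  have hK1 : 1 ≤ K := Real.one_le_rpow_of_pos_of_le_one_of_nonpos hδ hδ1 (by linarith)
  have hK0 : 0 < K := by linarith
  obtain ⟨L, hL1, hL2⟩ := exists_lvl (x := 1 / δ) (by rw [le_div_iff₀ hδ]; linarith)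
  have hL2' : (1 / 2 : ℝ) ^ (L + 1) < δ := by
    rw [div_lt_iff₀ hδ] at hL2
    have h1 : (0 : ℝ) < (1 / 2) ^ (L + 1) := by positivity
    have h2 : (1 / 2 : ℝ) ^ (L + 1) * 2 ^ (L + 1) = 1 := by rw [← mul_pow]; norm_num
    calc (1 / 2 : ℝ) ^ (L + 1) = (1 / 2) ^ (L + 1) * 1 := (mul_one _).symm
      _ < (1 / 2) ^ (L + 1) * (2 ^ (L + 1) * δ) := mul_lt_mul_of_pos_left hL2 h1
      _ = δ := by rw [← mul_assoc, h2, one_mul]
  have hL1' : δ ≤ (1 / 2 : ℝ) ^ L := by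
    rw [le_div_iff₀ hδ] at hL1
    have h1 : (0 : ℝ) < (1 / 2) ^ L := by positivity
    have h2 : (1 / 2 : ℝ) ^ L * 2 ^ L = 1 := by rw [← mul_pow]; norm_num
    calc δ = (1 / 2 : ℝ) ^ L * (2 ^ L * δ) := by rw [← mul_assoc, h2, one_mul]
      _ ≤ (1 / 2) ^ L * 1 := mul_le_mul_of_nonneg_left hL1 h1.le
      _ = _ := mul_one _
  have hLL := lvl_bound hδ hδ1 (half_pos hε) hL1
  -- the dichotomy at each pin
  have key : ∀ k, J0 k → ∃ (l : ℕ) (G : κ → Prop) (T : Finset ℝ), l ≤ L ∧ (∀ k', G k' → J k k') ∧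
      δ ^ ε / (2 * (L + 1)) ≤ ms v G ∧ K * ((1 / 2 : ℝ) ^ l) ^ τ ≤ 1 ∧
      K * (T.card * ((1 / 2 : ℝ) ^ l) ^ τ) ≤ 1 ∧ ∀ j, G j → ∃ u ∈ T,
        u ≤ (f j - f k) / (z j - z k) ∧ (f j - f k) / (z j - z k) ≤ u + (1 / 2 : ℝ) ^ l := by
    intro k hk
    have hp := hpin k hk
    have hV : 0 < ms v (J k) := (pp ε).trans_le hp.Jm
    rcases slope_dich v (fun j => (f j - f k) / (z j - z k)) hv (J k) τ K hτ.le hτ1.le hK0 L hV
      with ⟨G, hG1, hG2, hG3⟩ | ⟨l, hl, G, hG1, hG2, hG3, T, hT1, hT2⟩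
    · exfalso
      have hGm : 0 < ms v G := lt_of_lt_of_le (by linarith) hG2
      have h1 := pin_lower (B := 12 * K) (τ := τ) hδ hδ1 hε.le (by linarith) hQ hτ.le hp hv hlip G
        hG1 hGm (by linarith) (fun r h1 h2 x => hG3 r (hL2'.trans_le h1) h2 x)
      have h2 := log_bound hδ hδ1 hε (by linarith)
      have h3 : (δ ^ ε) ^ 2 * (δ ^ (1 - 2 * ε)) ^ (-μ) = δ ^ (2 * ε - (1 - 2 * ε) * μ) := by
        rw [← Real.rpow_natCast, ← Real.rpow_mul hδ.le, ← Real.rpow_mul hδ.le,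
          ← Real.rpow_add hδ]
        congr 1
        push_cast
        ring
      rw [← hμ, h3] at h1
      have h4 : δ ^ (2 * ε - (1 - 2 * ε) * μ) ≤
          6 ^ Q * 4 ^ τ * ((1 + 6 / ε) * δ ^ (-ε)) * δ ^ (-ε) * (12 * K) * δ ^ (-a) := by
        refine h1.trans ?_
        have := pp (-ε)
        have := pp (-a)
        gcongr
      have h5 : 6 ^ Q * 4 ^ τ * ((1 + 6 / ε) * δ ^ (-ε)) * δ ^ (-ε) * (12 * K) * δ ^ (-a) =
          (C1 / 2) * δ ^ (-(2 * ε) - ε2 - a) := by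
        have : δ ^ (-(2 * ε) - ε2 - a) = δ ^ (-ε) * δ ^ (-ε) * δ ^ (-ε2) * δ ^ (-a) := by
          rw [← Real.rpow_add hδ, ← Real.rpow_add hδ, ← Real.rpow_add hδ]; congr 1; ring
        rw [this, hC1, hK]
        ring
      rw [h5] at h4
      have h6 : δ ^ (-(2 * ε) - ε2 - a) ≤ δ ^ ((μ - a) / 2) * δ ^ (2 * ε - (1 - 2 * ε) * μ) := by
        rw [← Real.rpow_add hδ]
        refine mono ?_
        rw [hε2] at hεμ ⊢
        nlinarith
      have hC10 : 0 < C1 := by positivity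
      have h7 : (C1 / 2) * δ ^ (-(2 * ε) - ε2 - a) ≤
          (1 / 2) * δ ^ (2 * ε - (1 - 2 * ε) * μ) := by
        calc (C1 / 2) * δ ^ (-(2 * ε) - ε2 - a)
            ≤ (C1 / 2) * (δ ^ ((μ - a) / 2) * δ ^ (2 * ε - (1 - 2 * ε) * μ)) :=
              mul_le_mul_of_nonneg_left h6 (by positivity)
          _ = (1 / 2) * (C1 * δ ^ ((μ - a) / 2)) * δ ^ (2 * ε - (1 - 2 * ε) * μ) := by ring
          _ ≤ (1 / 2) * 1 * δ ^ (2 * ε - (1 - 2 * ε) * μ) := by
              have := pp (2 * ε - (1 - 2 * ε) * μ)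
              gcongr
          _ = _ := by ring
      have h8 := pp (2 * ε - (1 - 2 * ε) * μ)
      linarith
    · refine ⟨l, G, T, hl, hG1, le_trans ?_ hG2, hG3, hT1, hT2⟩
      exact div_le_div_of_nonneg_right hp.Jm (by positivity)
  choose! lf G T hlf hGJ hGm hρ hTc hTs using key
  -- one level
  have hLpos : (0 : ℝ) < L + 1 := by positivity
  obtain ⟨l₀, hl₀, hA⟩ : ∃ l₀ ≤ L, δ ^ ε / (L + 1) ≤ ms v (fun k => J0 k ∧ lf k = l₀) := by
    by_contra hcon
    push Not at hcon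
    have h1 : ms v J0 ≤ ∑ l ∈ Finset.range (L + 1), ms v (fun k => J0 k ∧ lf k = l) := by
      refine ms_le_sum hv J0 (Finset.range (L + 1)) (fun l k => J0 k ∧ lf k = l) ?_
      intro k hk
      exact ⟨lf k, Finset.mem_range.2 (by have := hlf k hk; omega), hk, rfl⟩
    have h2 : ∑ l ∈ Finset.range (L + 1), ms v (fun k => J0 k ∧ lf k = l) <
        ∑ l ∈ Finset.range (L + 1), δ ^ ε / (L + 1) := by
      refine Finset.sum_lt_sum_of_nonempty ⟨0, by simp⟩ fun l hl => hcon l ?_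
      have := Finset.mem_range.1 hl
      omega
    rw [Finset.sum_const, Finset.card_range, nsmul_eq_mul] at h2
    have h3 : ((L + 1 : ℕ) : ℝ) * (δ ^ ε / (L + 1)) = δ ^ ε := by
      push_cast
      field_simp
    rw [h3] at h2
    linarith
  have hex : ∃ k, J0 k ∧ lf k = l₀ := by
    by_contra hcon
    push Not at hcon
    have : ms v (fun k => J0 k ∧ lf k = l₀) = 0 := by
      unfold ms
      exact Finset.sum_eq_zero fun k _ => if_neg fun h => hcon k h.1 h.2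
    rw [this] at hA
    have := pp ε
    have : 0 < δ ^ ε / (L + 1) := by positivity
    linarith
  set r : ℝ := (1 / 2 : ℝ) ^ l₀ with hr
  have hr0 : 0 < r := by positivity
  have hδr : δ ≤ r := hL1'.trans (pow_le_pow_of_le_one (by norm_num) (by norm_num) hl₀)
  have hKr : K * r ^ τ ≤ 1 := by
    obtain ⟨k, hk1, hk2⟩ := hex
    have := hρ k hk1
    rwa [hk2] at this
  have hrx : r ≤ δ ^ x := by
    have h1 : r ^ τ ≤ δ ^ ε2 := by
      have h2 : K * δ ^ ε2 = 1 := by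
        rw [hK, ← Real.rpow_add hδ]; simp
      have h3 : K * r ^ τ ≤ K * δ ^ ε2 := by rw [h2]; exact hKr
      exact le_of_mul_le_mul_left h3 hK0
    have h2 : (r ^ τ) ^ (1 / τ) ≤ (δ ^ ε2) ^ (1 / τ) :=
      Real.rpow_le_rpow (Real.rpow_nonneg hr0.le _) h1 (by positivity)
    rw [← Real.rpow_mul hr0.le, ← Real.rpow_mul hδ.le, mul_one_div_cancel hτ.ne', Real.rpow_one] at h2
    rwa [hx, div_eq_mul_one_div]
  -- the pairs
  set P : κ → κ → Prop := fun k k' => (J0 k ∧ lf k = l₀) ∧ G k k' with hP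
  have hPm : δ ^ (4 * ε) ≤ pm v v P := by
    have h1 : (δ ^ ε / (L + 1)) * (δ ^ ε / (2 * (L + 1))) ≤ pm v v P := by
      rw [pm_eq_sum_ms]
      have h2 : ∀ k, (@ite ℝ (J0 k ∧ lf k = l₀) (Classical.propDecidable _) (v k) 0) *
          (δ ^ ε / (2 * (L + 1))) ≤ v k * ms v (P k) := by
        intro k
        by_cases h3 : J0 k ∧ lf k = l₀
        · rw [if_pos h3]
          refine mul_le_mul_of_nonneg_left ?_ (hv k)
          refine (hGm k h3.1).trans (ms_mono hv fun k' hk' => ⟨h3, hk'⟩)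
        · rw [if_neg h3, zero_mul]
          exact mul_nonneg (hv k) (ms_nonneg hv _)
      refine le_trans ?_ (Finset.sum_le_sum fun k _ => h2 k)
      rw [← Finset.sum_mul]
      refine mul_le_mul_of_nonneg_right hA ?_
      have := pp ε
      positivity
    refine le_trans ?_ h1
    have h2 : ((L : ℝ) + 1) ^ 2 ≤ (1 + 4 / ε) ^ 2 * δ ^ (-ε) := by
      have h3 : (L : ℝ) + 1 ≤ (1 + 4 / ε) * δ ^ (-(ε / 2)) := by
        refine hLL.trans (le_of_eq ?_)
        congr 2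
        field_simp
        norm_num
      calc ((L : ℝ) + 1) ^ 2 ≤ ((1 + 4 / ε) * δ ^ (-(ε / 2))) ^ 2 :=
            pow_le_pow_left₀ hLpos.le h3 2
        _ = (1 + 4 / ε) ^ 2 * (δ ^ (-(ε / 2)) * δ ^ (-(ε / 2))) := by ring
        _ = _ := by rw [← Real.rpow_add hδ]; congr 2; ring
    have h3 : (δ ^ ε / (L + 1)) * (δ ^ ε / (2 * (L + 1))) = δ ^ (2 * ε) / (2 * ((L : ℝ) + 1) ^ 2) := by
      have : δ ^ (2 * ε) = δ ^ ε * δ ^ ε := by rw [← Real.rpow_add hδ]; congr 1; ring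
      rw [this]
      field_simp
    rw [h3, le_div_iff₀ (by positivity)]
    have h4 : δ ^ (4 * ε) = δ ^ ε * δ ^ ε * δ ^ (2 * ε) := by
      rw [← Real.rpow_add hδ, ← Real.rpow_add hδ]; congr 1; ring
    calc δ ^ (4 * ε) * (2 * ((L : ℝ) + 1) ^ 2)
        ≤ δ ^ (4 * ε) * (2 * ((1 + 4 / ε) ^ 2 * δ ^ (-ε))) := by
          have := pp (4 * ε)
          gcongr
      _ = (2 * (1 + 4 / ε) ^ 2 * δ ^ ε) * δ ^ (2 * ε) := by
          rw [h4, Real.rpow_neg hδ.le]
          have := (pp ε).ne'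
          field_simp
      _ ≤ 1 * δ ^ (2 * ε) := mul_le_mul_of_nonneg_right e2 (pp _).le
      _ = _ := one_mul _
  obtain ⟨k, k', hkk, ρ, g1, g2, g3⟩ := HS' δ hδ hδδ₁ κ v z f hv hv1 hz hf hlip hfr r hδr hrx P hPm
    (fun k k' h => (hpin k h.1.1).sep k' (hGJ k h.1.1 k' h.2)) (by
      intro k
      by_cases hk : J0 k ∧ lf k = l₀
      · refine ⟨T k, ?_, fun k' hk' => ?_⟩
        · have h1 := hTc k hk.1
          rw [hk.2] at h1
          have h2 : (T k).card * r ^ τ ≤ 1 := by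
            have h3 : 0 ≤ ((T k).card : ℝ) * r ^ τ :=
              mul_nonneg (Nat.cast_nonneg _) (Real.rpow_nonneg hr0.le _)
            nlinarith
          rw [Real.rpow_neg hr0.le, ← one_div, le_div_iff₀ (Real.rpow_pos_of_pos hr0 _)]
          exact h2
        · have h1 := hTs k hk.1 k' hk'.2
          rw [hk.2] at h1
          exact h1
      · refine ⟨∅, ?_, fun k' hk' => absurd hk'.1 hk⟩
        simp only [Finset.card_empty, Nat.cast_zero]
        exact Real.rpow_nonneg hr0.le _)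
  exact ⟨k, k', hkk.1.1, hGJ k hkk.1.1 k' hkk.2, ρ, hδr.trans g1, g2, g3⟩

end Crest.Agent.R138.Pl187
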