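import Crest.Agent.R138.PlRad_187

/-! # R138: radial projection theorem, covering form (helper187) -/

set_option autoImplicit false

namespace Crest.Agent.R138.Pl187

open Finset Filter Topology
open Crest.Agent.R070
open Crest.Agent.R070.PBw78
open Crest.Agent.R070.PBCore78
open Crest.Agent.R070.PBTTC78
open Crest.Agent.R070.TTDefs559
open Crest.Agent.R070.Defs248

section

variable {ι κ : Type} [Fintype ι] [Fintype κ]

/-- slope of the chord through two points -/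
noncomputable def slope (X Y : ι → ℝ) (X' Y' : κ → ℝ) (i : ι) (j : κ) : ℝ :=
  (Y' j - Y i) / (X' j - X i)

/-- weighted planar family in `[-1,1]²`: nonnegative weights, total mass `≤ 1`, `s`-Frostman with
constant `r^-c` at scales in `[r,1]` (mass of `X`-and-`Y`-squares). -/
structure Fam (s c r : ℝ) (w : ι → ℝ) (X Y : ι → ℝ) : Prop where
  w0 : ∀ i, 0 ≤ w i
  wm : ∑ i, w i ≤ 1
  xb : ∀ i, |X i| ≤ 1
  yb : ∀ i, |Y i| ≤ 1
  wF : ∀ (x y ρ : ℝ), r ≤ ρ → ρ ≤ 1 →
    ms w (fun i => |X i - x| ≤ ρ ∧ |Y i - y| ≤ ρ) ≤ r ^ (-c) * ρ ^ s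

/-- point of `V 2` with coordinates `(x/2, y/2)` -/
noncomputable def pt (x y : ℝ) : V 2 := !₂[x / 2, y / 2]

@[simp] theorem pt_zero (x y : ℝ) : pt x y 0 = x / 2 := by simp [pt]
@[simp] theorem pt_one (x y : ℝ) : pt x y 1 = y / 2 := by simp [pt]

theorem norm_sq_two (u : V 2) : ‖u‖ ^ 2 = u 0 ^ 2 + u 1 ^ 2 := by
  rw [EuclideanSpace.norm_eq, Real.sq_sqrt (by positivity)]
  simp [Fin.sum_univ_two]

theorem norm_pt_le {x y : ℝ} (hx : |x| ≤ 1) (hy : |y| ≤ 1) : ‖pt x y‖ ≤ 1 := by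
  have h := norm_sq_two (pt x y)
  simp only [pt_zero, pt_one] at h
  have h1 : x ^ 2 ≤ 1 := by
    rw [← sq_abs]; nlinarith [abs_nonneg x]
  have h2 : y ^ 2 ≤ 1 := by
    rw [← sq_abs]; nlinarith [abs_nonneg y]
  nlinarith [norm_nonneg (pt x y)]

theorem abs_zero_le (u : V 2) : |u 0| ≤ ‖u‖ := by
  refine abs_le_of_sq_le_sq ?_ (norm_nonneg u)
  rw [norm_sq_two]; nlinarith [sq_nonneg (u 1)]

theorem abs_one_le (u : V 2) : |u 1| ≤ ‖u‖ := by
  refine abs_le_of_sq_le_sq ?_ (norm_nonneg u)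
  rw [norm_sq_two]; nlinarith [sq_nonneg (u 0)]

theorem norm_le_of_zero {u : V 2} {a : ℝ} (h0 : u 0 = 0) (h1 : |u 1| ≤ a) : ‖u‖ ≤ a := by
  have ha : 0 ≤ a := (abs_nonneg _).trans h1
  refine le_of_sq_le_sq ?_ ha
  rw [norm_sq_two, h0, ← sq_abs (u 1)]
  nlinarith [abs_nonneg (u 1)]

omit [Fintype ι] [Fintype κ] in
/-- nearby slopes: the second point is in the tube through the pair -/
theorem mem_tube_of_slope {X Y : ι → ℝ} {X' Y' : κ → ℝ} {i : ι} {j j' : κ} {u r : ℝ}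
    (hxi : |X i| ≤ 1) (hxj : |X' j'| ≤ 1)
    (hj : X' j - X i ≠ 0) (hj' : X' j' - X i ≠ 0)
    (h1 : u ≤ slope X Y X' Y' i j) (h2 : slope X Y X' Y' i j ≤ u + r)
    (h1' : u ≤ slope X Y X' Y' i j') (h2' : slope X Y X' Y' i j' ≤ u + r) :
    pt (X' j') (Y' j') ∈ Tube (pt (X i) (Y i)) (pt (X' j) (Y' j) - pt (X i) (Y i)) r := by
  refine ⟨(X' j' - X i) / (X' j - X i), ?_⟩
  have hs : (Y' j - Y i) = slope X Y X' Y' i j * (X' j - X i) := by
    unfold slope; field_simp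
  have hs' : (Y' j' - Y i) = slope X Y X' Y' i j' * (X' j' - X i) := by
    unfold slope; field_simp
  refine norm_le_of_zero ?_ ?_
  · simp only [PiLp.sub_apply, PiLp.smul_apply, pt_zero, smul_eq_mul]
    field_simp
    ring
  · simp only [PiLp.sub_apply, PiLp.smul_apply, pt_one, smul_eq_mul]
    have e1 : Y' j' / 2 - Y i / 2 - (X' j' - X i) / (X' j - X i) * (Y' j / 2 - Y i / 2) =
        (X' j' - X i) / 2 * (slope X Y X' Y' i j' - slope X Y X' Y' i j) := by
      have e2 : Y' j / 2 - Y i / 2 = slope X Y X' Y' i j * (X' j - X i) / 2 := by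
        rw [← hs]; ring
      have e3 : Y' j' / 2 - Y i / 2 = slope X Y X' Y' i j' * (X' j' - X i) / 2 := by
        rw [← hs']; ring
      rw [e2, e3]
      field_simp
    rw [e1, abs_mul]
    have g1 : |(X' j' - X i) / 2| ≤ 1 := by
      rw [abs_div, abs_two, div_le_one (by norm_num)]
      have := abs_sub (X' j') (X i)
      linarith
    have g2 : |slope X Y X' Y' i j' - slope X Y X' Y' i j| ≤ r := by
      rw [abs_le]; constructor <;> linarith
    calc _ ≤ 1 * r := mul_le_mul g1 g2 (abs_nonneg _) (by norm_num)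
      _ = r := one_mul r

/-- the tube is contained in a strip -/
theorem strip_of_mem_tube {xi yi xj yj x y ρ m : ℝ} (hm : yj - yi = m * (xj - xi))
    (h : pt x y ∈ Tube (pt xi yi) (pt xj yj - pt xi yi) ρ) :
    |y - yi - m * (x - xi)| ≤ 2 * (1 + |m|) * ρ := by
  obtain ⟨t, ht⟩ := h
  have h0 := (abs_zero_le _).trans ht
  have h1 := (abs_one_le _).trans ht
  simp only [PiLp.sub_apply, PiLp.smul_apply, pt_zero, pt_one, smul_eq_mul] at h0 h1
  have e : y - yi - m * (x - xi) =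
      2 * (y / 2 - yi / 2 - t * (yj / 2 - yi / 2)) -
        m * (2 * (x / 2 - xi / 2 - t * (xj / 2 - xi / 2))) := by
    have e1 : yj / 2 - yi / 2 = m * (xj - xi) / 2 := by rw [← hm]; ring
    rw [e1]; ring
  rw [e]
  refine (abs_sub _ _).trans ?_
  rw [abs_mul, abs_mul m, abs_mul 2, abs_two]
  have := mul_le_mul_of_nonneg_left h0 (abs_nonneg m)
  nlinarith [abs_nonneg m]

/-- few labels: the elements with light label have small mass -/
theorem light_mass {v : κ → ℝ} (hv : ∀ j, 0 ≤ v j) (S : Finset ℝ) (Q : κ → Prop)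
    (lab : κ → ℝ → Prop) (hS : ∀ j, Q j → ∃ u ∈ S, lab j u) {h : ℝ} (hh : 0 ≤ h) :
    ms v (fun j => Q j ∧ ∀ u ∈ S, lab j u → ms v (fun j' => Q j' ∧ lab j' u) ≤ h) ≤ S.card * h := by
  classical
  set Bad : κ → Prop := fun j => Q j ∧ ∀ u ∈ S, lab j u → ms v (fun j' => Q j' ∧ lab j' u) ≤ h
  have h1 : ms v Bad ≤ ∑ u ∈ S, ms v (fun j => Bad j ∧ lab j u) := by
    unfold ms
    rw [Finset.sum_comm]
    refine Finset.sum_le_sum fun j _ => ?_
    by_cases hb : Bad j
    · rw [if_pos hb]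
      obtain ⟨u, hu, hl⟩ := hS j hb.1
      refine le_trans ?_ (Finset.single_le_sum
        (f := fun u => @ite ℝ (Bad j ∧ lab j u) (Classical.propDecidable _) (v j) 0)
        (fun u _ => by split_ifs; exacts [hv j, le_rfl]) hu)
      rw [if_pos ⟨hb, hl⟩]
    · rw [if_neg hb]
      exact Finset.sum_nonneg fun u _ => by split_ifs; exacts [hv j, le_rfl]
  refine h1.trans ?_
  have h2 : ∀ u ∈ S, ms v (fun j => Bad j ∧ lab j u) ≤ h := by
    intro u hu
    by_cases he : ∃ j, Bad j ∧ lab j u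
    · obtain ⟨j, hb, hl⟩ := he
      refine le_trans (ms_mono hv ?_) (hb.2 u hu hl)
      rintro j' ⟨h3, h4⟩
      exact ⟨h3.1, h4⟩
    · push Not at he
      have : ms v (fun j => Bad j ∧ lab j u) = 0 := by
        unfold ms
        refine Finset.sum_eq_zero fun j _ => if_neg ?_
        rintro ⟨h3, h4⟩
        exact he j h3 h4
      rw [this]; exact hh
  refine (Finset.sum_le_sum h2).trans ?_
  rw [Finset.sum_const, nsmul_eq_mul]

theorem pm_eq_sum_ms (w : ι → ℝ) (v : κ → ℝ) (P : ι → κ → Prop) :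
    pm w v P = ∑ i, w i * ms v (P i) := by
  classical
  unfold pm ms
  refine Finset.sum_congr rfl fun i _ => ?_
  rw [Finset.mul_sum]
  refine Finset.sum_congr rfl fun j _ => ?_
  split_ifs <;> simp

/-- the pair `(i, j)` has a heavy strip of half-width `ρ ∈ [r, r^a]` -/
def HeavyStrip (a η r : ℝ) (w : ι → ℝ) (v : κ → ℝ) (X Y : ι → ℝ) (X' Y' : κ → ℝ)
    (i : ι) (j : κ) : Prop :=
  ∃ ρ : ℝ, r ≤ ρ ∧ ρ ≤ r ^ a ∧
    (ρ ^ η ≤ ms w (fun i' => |Y i' - Y i - slope X Y X' Y' i j * (X i' - X i)| ≤ ρ) ∨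
      ρ ^ η ≤ ms v (fun j' => |Y' j' - Y i - slope X Y X' Y' i j * (X' j' - X i)| ≤ ρ))

end

/-- **Radial projection theorem, covering form.** If the chord slopes of an `r^c`-portion of the
pairs are covered, pin by pin, by `r^-σ` intervals of length `r`, `σ < min s 1`, then an
`r^(2c)`-portion of the pairs has a heavy strip (mass `≥ ρ^η`) of half-width `ρ ∈ [r, r^a]`. -/
theorem radial_cover {s σ η : ℝ} (hs : 0 < s) (hσs : σ < s) (hσ1 : σ < 1) (hη : 0 < η) :
    ∃ a c r₀ : ℝ, 0 < a ∧ 0 < c ∧ 0 < r₀ ∧ ∀ r : ℝ, 0 < r → r ≤ r₀ →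
      ∀ (ι κ : Type) [Fintype ι] [Fintype κ] (w : ι → ℝ) (v : κ → ℝ) (X Y : ι → ℝ)
        (X' Y' : κ → ℝ),
        Fam s c r w X Y → Fam s c r v X' Y' →
        (∀ i j, r ^ c ≤ |X' j - X i|) →
        (∀ i j, |Y' j - Y i| ≤ r ^ (-c) * |X' j - X i|) →
        ∀ P : ι → κ → Prop, r ^ c ≤ pm w v P →
        (∀ i, ∃ S : Finset ℝ, (S.card : ℝ) ≤ r ^ (-σ) ∧
          ∀ j, P i j → ∃ u ∈ S, u ≤ slope X Y X' Y' i j ∧ slope X Y X' Y' i j ≤ u + r) →
        r ^ (2 * c) ≤ pm w v (fun i j => P i j ∧ HeavyStrip a η r w v X Y X' Y' i j) := by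
  obtain ⟨σ', h1, h2⟩ : ∃ σ', σ < σ' ∧ σ' < min s 1 := exists_between (lt_min hσs hσ1)
  have hσ's : σ' < s := h2.trans_le (min_le_left _ _)
  have hσ'1 : σ' < 1 := h2.trans_le (min_le_right _ _)
  obtain ⟨a₀, c₀, r₁, ha₀, hc₀, hr₁, H⟩ := ttc2_gen (β := η) hσ's hσ'1 hη
  -- constants
  set c : ℝ := min (min (c₀ / 4) (a₀ / 4)) (min (c₀ / (4 * η)) ((σ' - σ) / 4)) with hc
  have hc0 : 0 < c := by
    refine lt_min (lt_min (by positivity) (by positivity)) (lt_min (by positivity) ?_)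
    linarith
  have hc1 : c ≤ c₀ / 4 := (min_le_left _ _).trans (min_le_left _ _)
  have hc2 : c ≤ a₀ / 4 := (min_le_left _ _).trans (min_le_right _ _)
  have hc3 : c * η ≤ c₀ / 4 := by
    have : c ≤ c₀ / (4 * η) := (min_le_right _ _).trans (min_le_left _ _)
    rw [le_div_iff₀ (by positivity)] at this
    linarith
  have hc4 : c ≤ (σ' - σ) / 4 := (min_le_right _ _).trans (min_le_right _ _)
  clear_value c
  set a : ℝ := a₀ / 2 with ha
  have ev : ∀ᶠ r in 𝓝[>] (0 : ℝ), 0 < r ∧ r ≤ 1 ∧ r ≤ r₁ ∧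
      2 ^ s * r ^ (c₀ - c) ≤ 1 ∧ 2 * r ^ (c₀ - c) ≤ 1 ∧
      4 * r ^ (σ' - σ - c) ≤ 1 ∧ 4 * r ^ (c₀ - c) ≤ 1 ∧ 4 * r ^ c ≤ 1 ∧
      4 * r ^ (a₀ - c - a) ≤ 1 ∧ (4 : ℝ) ^ η * r ^ (c₀ - c * η) ≤ 1 := by
    have g0 : ∀ᶠ r in 𝓝[>] (0 : ℝ), 0 < r := self_mem_nhdsWithin
    have g1 : ∀ᶠ r in 𝓝[>] (0 : ℝ), r ≤ 1 :=
      nhdsWithin_le_nhds (eventually_le_nhds one_pos)
    have g2 : ∀ᶠ r in 𝓝[>] (0 : ℝ), r ≤ r₁ :=
      nhdsWithin_le_nhds (eventually_le_nhds hr₁)
    exact g0.and (g1.and (g2.and ((ev (by linarith)).and ((ev (by linarith)).and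
      ((ev (by linarith)).and ((ev (by linarith)).and ((ev hc0).and
      ((ev (by linarith)).and (ev (by linarith))))))))))
  obtain ⟨r₀, hr₀, HR⟩ := exists_of_ev ev
  refine ⟨a, c, r₀, by positivity, hc0, hr₀, ?_⟩
  intro r hr hrr ι κ _ _ w v X Y X' Y' hF hF' hsep hlip P hP hcov
  classical
  obtain ⟨-, hr1, hrr1, e1, e2, e3, e4, e5, e6, e7⟩ := HR r hr hrr
  have pp : ∀ x : ℝ, 0 < r ^ x := fun x => Real.rpow_pos_of_pos hr x
  have mono : ∀ {x y : ℝ}, x ≤ y → r ^ y ≤ r ^ x := fun h =>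
    Real.rpow_le_rpow_of_exponent_ge hr hr1 h
  -- the configuration
  set p : ι → V 2 := fun i => pt (X i) (Y i) with hp
  set q : κ → V 2 := fun j => pt (X' j) (Y' j) with hq
  have frost : ∀ {μ : Type} [Fintype μ] (u : μ → ℝ) (A B : μ → ℝ), Fam s c r u A B →
      ∀ (z : V 2) (ρ : ℝ), r ≤ ρ → ρ ≤ 1 →
        ms u (fun i => dist (pt (A i) (B i)) z ≤ ρ) ≤ r ^ (-c₀) * ρ ^ s := by
    intro μ _ u A B hu z ρ g1 g2
    have hρ0 : 0 < ρ := hr.trans_le g1
    have k1 : 2 ^ s * r ^ (-c) ≤ r ^ (-c₀) := by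
      have : r ^ (-c) = r ^ (c₀ - c) * r ^ (-c₀) := by
        rw [← Real.rpow_add hr]; congr 1; ring
      rw [this, ← mul_assoc]
      exact (mul_le_mul_of_nonneg_right e1 (pp _).le).trans_eq (one_mul _)
    by_cases h2ρ : 2 * ρ ≤ 1
    · refine (ms_mono hu.w0 ?_).trans ((hu.wF (2 * z 0) (2 * z 1) (2 * ρ) (by linarith) h2ρ).trans ?_)
      · intro i hi
        rw [dist_eq_norm] at hi
        have k2 := (abs_zero_le _).trans hi
        have k3 := (abs_one_le _).trans hi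
        simp only [PiLp.sub_apply, pt_zero, pt_one] at k2 k3
        rw [abs_le] at k2 k3
        constructor
        · rw [abs_le]; constructor <;> linarith [k2.1, k2.2]
        · rw [abs_le]; constructor <;> linarith [k3.1, k3.2]
      · rw [Real.mul_rpow (by norm_num) hρ0.le]
        calc r ^ (-c) * (2 ^ s * ρ ^ s) = (2 ^ s * r ^ (-c)) * ρ ^ s := by ring
          _ ≤ r ^ (-c₀) * ρ ^ s := mul_le_mul_of_nonneg_right k1 (Real.rpow_nonneg hρ0.le _)
    · push Not at h2ρ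
      have k4 : 1 ≤ 2 ^ s * ρ ^ s := by
        rw [← Real.mul_rpow (by norm_num) hρ0.le]
        exact Real.one_le_rpow h2ρ.le hs.le
      have k5 : (1 : ℝ) ≤ r ^ (-c) := Real.one_le_rpow_of_pos_of_le_one_of_nonpos hr hr1 (by linarith)
      have k6 : ms u (fun i => dist (pt (A i) (B i)) z ≤ ρ) ≤ 1 := by
        refine le_trans ?_ hu.wm
        unfold ms
        refine Finset.sum_le_sum fun i _ => ?_
        split_ifs
        · exact le_rfl
        · exact hu.w0 i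
      have k7 : 0 ≤ ρ ^ s := Real.rpow_nonneg hρ0.le _
      calc _ ≤ (1 : ℝ) := k6
        _ ≤ 2 ^ s * ρ ^ s := k4
        _ = (2 ^ s * 1) * ρ ^ s := by ring
        _ ≤ (2 ^ s * r ^ (-c)) * ρ ^ s := by
            refine mul_le_mul_of_nonneg_right ?_ k7
            exact mul_le_mul_of_nonneg_left k5 (by positivity)
        _ ≤ r ^ (-c₀) * ρ ^ s := mul_le_mul_of_nonneg_right k1 k7
  have one_le : (1 : ℝ) ≤ r ^ (-c₀) :=
    Real.one_le_rpow_of_pos_of_le_one_of_nonpos hr hr1 (by linarith)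
  have hC : Cfg 2 s c₀ r w v p q := by
    refine ⟨hF.w0, hF'.w0, hF.wm.trans one_le, hF'.wm.trans one_le,
      fun i => norm_pt_le (hF.xb i) (hF.yb i), fun j => norm_pt_le (hF'.xb j) (hF'.yb j),
      frost w X Y hF, frost v X' Y' hF', ?_⟩
    intro i j
    rw [dist_eq_norm]
    have k1 := abs_zero_le (p i - q j)
    simp only [hp, hq, PiLp.sub_apply, pt_zero] at k1
    refine le_trans ?_ k1
    have k2 : |X i / 2 - X' j / 2| = |X' j - X i| / 2 := by
      rw [← sub_div, abs_div, abs_two, abs_sub_comm]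
    rw [k2]
    have k3 : r ^ c₀ = r ^ (c₀ - c) * r ^ c := by
      rw [← Real.rpow_add hr]; congr 1; ring
    have k4 := hsep i j
    have k5 : 2 * r ^ (c₀ - c) * r ^ c ≤ 1 * r ^ c := mul_le_mul_of_nonneg_right e2 (pp _).le
    rw [k3]; linarith
  have hx : ∀ i j, X' j - X i ≠ 0 := by
    intro i j h0
    have := hsep i j
    rw [h0, abs_zero] at this
    linarith [pp c]
  -- heavy pairs
  have hlight : pm w v (fun i j => P i j ∧ ¬ Heavy 2 σ' r v p q i j) ≤ r ^ (σ' - σ) := by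
    rw [pm_eq_sum_ms]
    have k1 : ∀ i, ms v (fun j => P i j ∧ ¬ Heavy 2 σ' r v p q i j) ≤ r ^ (σ' - σ) := by
      intro i
      obtain ⟨S, hS, hS'⟩ := hcov i
      refine (ms_mono hF'.w0 ?_).trans ((light_mass hF'.w0 S (P i)
        (fun j u => u ≤ slope X Y X' Y' i j ∧ slope X Y X' Y' i j ≤ u + r) hS'
        (h := r ^ σ') (pp _).le).trans ?_)
      · rintro j ⟨k2, k3⟩
        refine ⟨k2, fun u _ hu => ?_⟩
        unfold Heavy at k3
        push Not at k3
        refine (ms_mono hF'.w0 ?_).trans k3.le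
        rintro j' ⟨_, k4⟩
        exact mem_tube_of_slope (hF.xb i) (hF'.xb j') (hx i j) (hx i j') hu.1 hu.2 k4.1 k4.2
      · calc (S.card : ℝ) * r ^ σ' ≤ r ^ (-σ) * r ^ σ' := mul_le_mul_of_nonneg_right hS (pp _).le
          _ = r ^ (σ' - σ) := by rw [← Real.rpow_add hr]; congr 1; ring
    calc ∑ i, w i * ms v (fun j => P i j ∧ ¬ Heavy 2 σ' r v p q i j)
        ≤ ∑ i, w i * r ^ (σ' - σ) :=
          Finset.sum_le_sum fun i _ => mul_le_mul_of_nonneg_left (k1 i) (hF.w0 i)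
      _ = (∑ i, w i) * r ^ (σ' - σ) := by rw [Finset.sum_mul]
      _ ≤ 1 * r ^ (σ' - σ) := mul_le_mul_of_nonneg_right hF.wm (pp _).le
      _ = _ := one_mul _
  have hTH := H r hr hrr1 ι κ w v p q hC
  -- splitting
  have hsplit : pm w v P ≤ pm w v (fun i j => P i j ∧ HeavyStrip a η r w v X Y X' Y' i j) +
      (pm w v (fun i j => P i j ∧ ¬ Heavy 2 σ' r v p q i j) +
        pm w v (fun i j => TH 2 η a₀ c₀ r w v p q i j ∧ Heavy 2 σ' r v p q i j)) := by
    refine (pm_or_le hF.w0 hF'.w0 (Q := fun i j => P i j ∧ HeavyStrip a η r w v X Y X' Y' i j)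
      (R := fun i j => (P i j ∧ ¬ Heavy 2 σ' r v p q i j) ∨
        (TH 2 η a₀ c₀ r w v p q i j ∧ Heavy 2 σ' r v p q i j)) ?_).trans
      (add_le_add le_rfl (pm_or_le hF.w0 hF'.w0 (fun i j h => h)))
    intro i j hPij
    by_cases hH : Heavy 2 σ' r v p q i j
    · by_cases hT : TH 2 η a₀ c₀ r w v p q i j
      · exact Or.inr (Or.inr ⟨hT, hH⟩)
      · refine Or.inl ⟨hPij, ?_⟩
        unfold TH at hT
        push Not at hT
        obtain ⟨ρ, g1, g2, g3⟩ := hT
        have hρ0 : 0 < ρ := hr.trans_le g1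
        set m := slope X Y X' Y' i j with hm
        have hm1 : |m| ≤ r ^ (-c) := by
          rw [hm, slope, abs_div, div_le_iff₀ (abs_pos.2 (hx i j))]
          exact hlip i j
        have hyj : Y' j - Y i = m * (X' j - X i) := by
          rw [hm, slope]
          have := hx i j
          field_simp
        have k5 : (1 : ℝ) ≤ r ^ (-c) :=
          Real.one_le_rpow_of_pos_of_le_one_of_nonpos hr hr1 (by linarith)
        set ρ' : ℝ := 4 * r ^ (-c) * ρ with hρ'
        have k6 : 2 * (1 + |m|) * ρ ≤ ρ' := by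
          rw [hρ']
          refine mul_le_mul_of_nonneg_right ?_ hρ0.le
          linarith
        have k7 : r ≤ ρ' := by
          rw [hρ']
          nlinarith
        have k8 : ρ' ≤ r ^ a := by
          have k9 : r ^ (-c) * r ^ a₀ = r ^ (a₀ - c - a) * r ^ a := by
            rw [← Real.rpow_add hr, ← Real.rpow_add hr]; congr 1; ring
          calc ρ' ≤ 4 * r ^ (-c) * r ^ a₀ := by
                rw [hρ']
                exact mul_le_mul_of_nonneg_left g2 (by have := pp (-c); positivity)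
            _ = (4 * r ^ (a₀ - c - a)) * r ^ a := by rw [mul_assoc, k9]; ring
            _ ≤ 1 * r ^ a := mul_le_mul_of_nonneg_right e6 (pp _).le
            _ = r ^ a := one_mul _
        have k10 : ρ' ^ η ≤ r ^ (-c₀) * ρ ^ η := by
          have k11 : (r ^ (-c)) ^ η = r ^ (c₀ - c * η) * r ^ (-c₀) := by
            rw [← Real.rpow_mul hr.le, ← Real.rpow_add hr]; congr 1; ring
          rw [hρ', Real.mul_rpow (by have := pp (-c); positivity) hρ0.le,
            Real.mul_rpow (by norm_num) (pp _).le, k11]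
          refine mul_le_mul_of_nonneg_right ?_ (Real.rpow_nonneg hρ0.le _)
          calc (4 : ℝ) ^ η * (r ^ (c₀ - c * η) * r ^ (-c₀))
              = (4 ^ η * r ^ (c₀ - c * η)) * r ^ (-c₀) := by ring
            _ ≤ 1 * r ^ (-c₀) := mul_le_mul_of_nonneg_right e7 (pp _).le
            _ = _ := one_mul _
        refine ⟨ρ', k7, k8, ?_⟩
        by_cases hw : ms w (fun i' => p i' ∈ Tube (p i) (q j - p i) ρ) ≤ r ^ (-c₀) * ρ ^ η
        · right
          refine k10.trans ((g3 hw).le.trans (ms_mono hF'.w0 fun j' hj' => ?_))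
          exact (strip_of_mem_tube hyj hj').trans k6
        · left
          push Not at hw
          refine k10.trans (hw.le.trans (ms_mono hF.w0 fun i' hi' => ?_))
          exact (strip_of_mem_tube hyj hi').trans k6
    · exact Or.inr (Or.inl ⟨hPij, hH⟩)
  have f1 : 4 * r ^ (σ' - σ) ≤ r ^ c := by
    have : r ^ (σ' - σ) = r ^ (σ' - σ - c) * r ^ c := by
      rw [← Real.rpow_add hr]; congr 1; ring
    rw [this]
    have := mul_le_mul_of_nonneg_right e3 (pp c).le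
    linarith
  have f2 : 4 * r ^ c₀ ≤ r ^ c := by
    have : r ^ c₀ = r ^ (c₀ - c) * r ^ c := by
      rw [← Real.rpow_add hr]; congr 1; ring
    rw [this]
    have := mul_le_mul_of_nonneg_right e4 (pp c).le
    linarith
  have f3 : 4 * r ^ (2 * c) ≤ r ^ c := by
    have : r ^ (2 * c) = r ^ c * r ^ c := by
      rw [← Real.rpow_add hr]; congr 1; ring
    rw [this]
    have := mul_le_mul_of_nonneg_right e5 (pp c).le
    linarith
  linarith [pp c]

end Crest.Agent.R138.Pl187
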