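import Mathlib
import Crest.Agent.R138.Tilt_51

/-!
# R138: tilt lemma for all penalties `0 ≤ p < q` (helper51)

The statements of `Tilt_51` without the restriction `q ≤ 1`; constant `c0 p q`.
-/

set_option autoImplicit false
set_option linter.unusedVariables false

open Finset

namespace Crest.Agent.R138.TiltG51

open Crest.Agent.R138.Flag51 hiding J card_J strip_mass plank_mass
open Crest.Agent.R138.Tilt51 hiding plank_mass alg flag2 tilt_one tilt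

noncomputable section

/-- the constant of the tilt lemma -/
def c0 (p q : ℝ) : ℝ := 32 ^ (1 + p) * 48 ^ (1 + q)

theorem c0_pos (p q : ℝ) : 0 < c0 p q := by unfold c0; positivity

/-- the algebra of the constants -/
theorem alg {w1 w2 v1 v2 p q θ : ℝ} (hw1 : 0 < w1) (hw2 : 0 < w2) (hv1 : 0 < v1) (hv2 : 0 < v2)
    (hθ0 : 0 < θ) :
    ((8 * θ * v2) ^ (1 + p) * (8 * w2) ^ (1 + q)) *
      ((4 * min w1 v1) ^ (1 + p) * (6 * max w1 v1 / θ) ^ (1 + q)) =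
    c0 p q * (w1 ^ (1 + p) * w2 ^ (1 + q)) * (max w1 v1 / (θ * v2)) ^ (q - p) *
      (v1 ^ (1 + p) * v2 ^ (1 + q)) := by
  have hn0 : 0 < min w1 v1 := lt_min hw1 hv1
  have hx0 : 0 < max w1 v1 := lt_max_of_lt_left hw1
  set x := max w1 v1 with hx
  set n := min w1 v1 with hn
  have hnx : n * x = w1 * v1 := by rw [hn, hx]; exact min_mul_max _ _
  have e1 : (8 * θ * v2) ^ (1 + p) * (4 * n) ^ (1 + p) =
      (32 : ℝ) ^ (1 + p) * (w1 * v1) ^ (1 + p) * (θ * v2 / x) ^ (1 + p) := by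
    rw [← Real.mul_rpow (by positivity) (by positivity),
      ← Real.mul_rpow (by positivity) (by positivity),
      ← Real.mul_rpow (by positivity) (by positivity)]
    congr 1
    rw [← hnx]; field_simp; ring
  have e2 : (8 * w2) ^ (1 + q) * (6 * x / θ) ^ (1 + q) =
      (48 : ℝ) ^ (1 + q) * (w2 * v2) ^ (1 + q) * (x / (θ * v2)) ^ (1 + q) := by
    rw [← Real.mul_rpow (by positivity) (by positivity),
      ← Real.mul_rpow (by positivity) (by positivity),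
      ← Real.mul_rpow (by positivity) (by positivity)]
    congr 1
    field_simp; ring
  have hX : 0 < x / (θ * v2) := by positivity
  have e3 : (θ * v2 / x) ^ (1 + p) * (x / (θ * v2)) ^ (1 + q) = (x / (θ * v2)) ^ (q - p) := by
    have : θ * v2 / x = (x / (θ * v2))⁻¹ := by rw [inv_div]
    rw [this, Real.inv_rpow hX.le, ← Real.rpow_neg hX.le, ← Real.rpow_add hX]
    congr 1; ring
  have e4 : (w1 * v1) ^ (1 + p) = w1 ^ (1 + p) * v1 ^ (1 + p) :=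
    Real.mul_rpow hw1.le hv1.le
  have e5 : (w2 * v2) ^ (1 + q) = w2 ^ (1 + q) * v2 ^ (1 + q) :=
    Real.mul_rpow hw2.le hv2.le
  calc ((8 * θ * v2) ^ (1 + p) * (8 * w2) ^ (1 + q)) *
        ((4 * n) ^ (1 + p) * (6 * x / θ) ^ (1 + q))
      = ((8 * θ * v2) ^ (1 + p) * (4 * n) ^ (1 + p)) *
        ((8 * w2) ^ (1 + q) * (6 * x / θ) ^ (1 + q)) := by ring
    _ = ((32 : ℝ) ^ (1 + p) * (48 : ℝ) ^ (1 + q)) *
        ((w1 ^ (1 + p) * w2 ^ (1 + q)) * ((θ * v2 / x) ^ (1 + p) * (x / (θ * v2)) ^ (1 + q)) *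
          (v1 ^ (1 + p) * v2 ^ (1 + q))) := by rw [e1, e2, e4, e5]; ring
    _ = _ := by rw [e3]; unfold c0; ring

section comb

variable {ι κ α β : Type*} {S1 : Finset ι} {L1 : ι → Ln} {m1 : ι → ℝ} {f : ι → α} {bK : α → Ln}
  {eK : α → E2} {S2 : Finset κ} {L2 : κ → Ln} {m2 : κ → ℝ} {g : κ → β} {bK' : β → Ln}
  {eK' : β → E2} {w1 w2 v1 v2 w z0 ρ M1 M2 E1 E2' p q r0 R0 : ℝ}

open Classical in
/-- bad mass of one plank at one dyadic angle -/
theorem plank_mass (h1 : Near S1 L1 m1 f bK eK w1 w2 z0 ρ M1 E1 p q)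
    (h2 : Near S2 L2 m2 g bK' eK' v1 v2 z0 ρ M2 E2' p q)
    (d1 : DMax S1 L1 m1 z0 ρ M1 p q r0 R0) (hm1 : ∀ t ∈ S1, 0 ≤ m1 t)
    (d2 : DMax S2 L2 m2 z0 ρ M2 p q r0 R0) (hm2 : ∀ t ∈ S2, 0 ≤ m2 t)
    (hp : 0 ≤ p) (hpq : p ≤ q) (hw : 0 ≤ w) (hwv : w ≤ v1)
    (hw1 : 0 < w1) (hv1 : 0 < v1) (hv12 : v1 ≤ v2) (hvw : v2 ≤ w2)
    (hr0 : r0 ≤ min w1 v1) (hR0 : 8 * w2 ≤ R0)
    (hM1 : 0 ≤ M1) (hM2 : 0 < M2) (hE2 : 0 ≤ E2') {θ : ℝ} (hθ0 : 0 < θ) (hθ1 : θ ≤ 1)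
    (hθ : max w1 v1 ≤ θ * v2) (a : α) :
    ∑ t ∈ S1 with f t = a ∧ ∃ t' ∈ S2, Close (L1 t) (L2 t') w z0 ρ ∧
        θ ≤ |cr (eK a) (eK' (g t'))| ∧ |cr (eK a) (eK' (g t'))| ≤ 2 * θ, m1 t
      ≤ c0 p q * E2' * (M1 * (w1 ^ (1 + p) * w2 ^ (1 + q))) *
        (max w1 v1 / (θ * v2)) ^ (q - p) := by
  have hc0 := c0_pos p q
  have hv2 : 0 < v2 := hv1.trans_le hv12
  have hw2 : 0 < w2 := hv2.trans_le hvw
  have hn0 : 0 < min w1 v1 := lt_min hw1 hv1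
  have hx0 : 0 < max w1 v1 := lt_max_of_lt_left hw1
  set JJ := J S1 L1 f eK S2 L2 g eK' w z0 ρ a θ with hJJ
  set P : β → Finset ι := fun b => S1.filter fun t => f t = a ∧ ∃ t' ∈ S2, g t' = b ∧
      Close (L1 t) (L2 t') w z0 ρ with hP
  have h3 : ∑ t ∈ S1 with f t = a ∧ ∃ t' ∈ S2, Close (L1 t) (L2 t') w z0 ρ ∧
        θ ≤ |cr (eK a) (eK' (g t'))| ∧ |cr (eK a) (eK' (g t'))| ≤ 2 * θ, m1 t
      ≤ ∑ t ∈ JJ.biUnion P, m1 t := by
    refine sum_le_sum_of_subset_of_nonneg ?_ ?_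
    · intro t ht
      rw [mem_filter] at ht
      obtain ⟨ht, hft, t', ht', hc, ha1, ha2⟩ := ht
      rw [mem_biUnion]
      refine ⟨g t', ?_, ?_⟩
      · simp only [hJJ, J, mem_filter, mem_image]
        exact ⟨⟨t', ht', rfl⟩, ha1, ha2, t, ht, hft, t', ht', rfl, hc⟩
      · rw [hP, mem_filter]
        exact ⟨ht, hft, t', ht', rfl, hc⟩
    · intro t ht _
      rw [mem_biUnion] at ht
      obtain ⟨b, _, hb⟩ := ht
      exact hm1 t (mem_filter.1 hb).1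
  have h4 : ∑ t ∈ JJ.biUnion P, m1 t ≤ ∑ b ∈ JJ, ∑ t ∈ P b, m1 t :=
    sum_biUnion_le' JJ P m1 fun b _ t ht => hm1 t (mem_filter.1 ht).1
  have h5 : ∀ b ∈ JJ, ∑ t ∈ P b, m1 t ≤
      M1 * (4 * min w1 v1) ^ (1 + p) * (6 * max w1 v1 / θ) ^ (1 + q) := by
    intro b hb
    simp only [hJJ, J, mem_filter, mem_image] at hb
    exact strip_mass h1 h2 d1 hm1 hp (hp.trans hpq) hw hwv hw1 hv1 hvw hr0 hR0 hM1 hθ0 hθ1 hθ
      hb.2.1
  have h6 := card_J (m1 := m1) h1 h2 d2 hm2 hw hwv hv1 hv12 hvw (hr0.trans (min_le_right _ _)) hR0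
    hM2 hE2 hθ0 hθ1 ((le_max_left _ _).trans hθ) ((le_max_right _ _).trans hθ) (a := a)
  have h7 : ∑ b ∈ JJ, ∑ t ∈ P b, m1 t
      ≤ (JJ.card : ℝ) * (M1 * (4 * min w1 v1) ^ (1 + p) * (6 * max w1 v1 / θ) ^ (1 + q)) := by
    rw [← nsmul_eq_mul]; exact sum_le_card_nsmul _ _ _ h5
  refine (h3.trans (h4.trans h7)).trans ?_
  have hV : 0 < v1 ^ (1 + p) * v2 ^ (1 + q) := by positivity
  refine le_of_mul_le_mul_right ?_ hV
  calc (JJ.card : ℝ) * (M1 * (4 * min w1 v1) ^ (1 + p) * (6 * max w1 v1 / θ) ^ (1 + q)) *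
        (v1 ^ (1 + p) * v2 ^ (1 + q))
      = ((JJ.card : ℝ) * (v1 ^ (1 + p) * v2 ^ (1 + q))) *
        (M1 * ((4 * min w1 v1) ^ (1 + p) * (6 * max w1 v1 / θ) ^ (1 + q))) := by ring
    _ ≤ (E2' * ((8 * θ * v2) ^ (1 + p) * (8 * w2) ^ (1 + q))) *
        (M1 * ((4 * min w1 v1) ^ (1 + p) * (6 * max w1 v1 / θ) ^ (1 + q))) :=
        mul_le_mul_of_nonneg_right h6 (by positivity)
    _ = (E2' * M1) * (((8 * θ * v2) ^ (1 + p) * (8 * w2) ^ (1 + q)) *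
        ((4 * min w1 v1) ^ (1 + p) * (6 * max w1 v1 / θ) ^ (1 + q))) := by ring
    _ ≤ (E2' * M1) * (c0 p q * (w1 ^ (1 + p) * w2 ^ (1 + q)) *
        (max w1 v1 / (θ * v2)) ^ (q - p) * (v1 ^ (1 + p) * v2 ^ (1 + q))) :=
        mul_le_mul_of_nonneg_left (alg hw1 hw2 hv1 hv2 hθ0).le (by positivity)
    _ = _ := by ring


open Classical in
/-- **FLAG LEMMA, two systems of different dimensions over one cell** (`v2 ≤ w2`): the lines of the
first system which share a `w`-tube, `w ≤ v1`, with a line of the second system whose plank makes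
an angle `≥ θ` carry mass at most
`c0 p q E1 E2 (1 - 2^(p-q))⁻¹ (max w1 v1 / (θ v2))^(q-p)` times the total mass. -/
theorem flag2 (h1 : Near S1 L1 m1 f bK eK w1 w2 z0 ρ M1 E1 p q)
    (h2 : Near S2 L2 m2 g bK' eK' v1 v2 z0 ρ M2 E2' p q)
    (d1 : DMax S1 L1 m1 z0 ρ M1 p q r0 R0) (hm1 : ∀ t ∈ S1, 0 ≤ m1 t)
    (d2 : DMax S2 L2 m2 z0 ρ M2 p q r0 R0) (hm2 : ∀ t ∈ S2, 0 ≤ m2 t)
    (hp : 0 ≤ p) (hpq : p < q) (hw : 0 ≤ w) (hwv : w ≤ v1)
    (hw1 : 0 < w1) (hv1 : 0 < v1) (hv12 : v1 ≤ v2) (hvw : v2 ≤ w2)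
    (hr0 : r0 ≤ min w1 v1) (hR0 : 8 * w2 ≤ R0)
    (hM1 : 0 ≤ M1) (hM2 : 0 < M2) (hE1 : 0 ≤ E1) (hE2 : 0 ≤ E2') {θ : ℝ}
    (hθ : max w1 v1 ≤ θ * v2) :
    ∑ t ∈ S1 with ∃ t' ∈ S2, Close (L1 t) (L2 t') w z0 ρ ∧ θ ≤ |cr (eK (f t)) (eK' (g t'))|, m1 t
      ≤ c0 p q * E1 * E2' / (1 - 2 ^ (p - q)) * (max w1 v1 / (θ * v2)) ^ (q - p) *
        ∑ t ∈ S1, m1 t := by
  have hc0 := c0_pos p q
  have hv2 : 0 < v2 := hv1.trans_le hv12
  have hw2 : 0 < w2 := hv2.trans_le hvw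
  have hx0 : 0 < max w1 v1 := lt_max_of_lt_left hw1
  have hθp : 0 < θ := by
    by_contra h
    have : θ * v2 ≤ 0 := mul_nonpos_of_nonpos_of_nonneg (not_lt.1 h) hv2.le
    linarith
  have hr : (2 : ℝ) ^ (p - q) < 1 := Real.rpow_lt_one_of_one_lt_of_neg (by norm_num) (by linarith)
  have hr0' : 0 < (2 : ℝ) ^ (p - q) := by positivity
  set X := max w1 v1 / (θ * v2) with hX
  have hX0 : 0 < X := by positivity
  -- number of dyadic angles
  obtain ⟨N, hN⟩ : ∃ N : ℕ, 1 < θ * 2 ^ N := by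
    obtain ⟨N, hN⟩ := pow_unbounded_of_one_lt (1 / θ) (by norm_num : (1 : ℝ) < 2)
    exact ⟨N, by rw [div_lt_iff₀ hθp] at hN; linarith [mul_comm θ ((2:ℝ) ^ N)]⟩
  set bad : ι → Prop := fun t => ∃ t' ∈ S2, Close (L1 t) (L2 t') w z0 ρ ∧
    θ ≤ |cr (eK (f t)) (eK' (g t'))| with hbad
  set A1 : ℝ := M1 * (w1 ^ (1 + p) * w2 ^ (1 + q)) with hA1
  have hA10 : 0 ≤ A1 := by positivity
  -- bound for one plank
  have hone : ∀ a ∈ S1.image f, ∑ t ∈ S1 with f t = a ∧ bad t, m1 t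
      ≤ c0 p q * E2' / (1 - 2 ^ (p - q)) * X ^ (q - p) * A1 := by
    intro a ha
    set Q : ℕ → Finset ι := fun j => S1.filter fun t => f t = a ∧ ∃ t' ∈ S2,
        Close (L1 t) (L2 t') w z0 ρ ∧ θ * 2 ^ j ≤ |cr (eK a) (eK' (g t'))| ∧
        |cr (eK a) (eK' (g t'))| ≤ 2 * (θ * 2 ^ j) with hQ
    set R := (range N).filter fun j => θ * 2 ^ j ≤ 1 with hR
    have hea : dt (eK a) (eK a) = 1 := by
      rw [mem_image] at ha
      obtain ⟨t, ht, rfl⟩ := ha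
      exact h1.unit t ht
    have h3 : ∑ t ∈ S1 with f t = a ∧ bad t, m1 t ≤ ∑ t ∈ R.biUnion Q, m1 t := by
      refine sum_le_sum_of_subset_of_nonneg ?_ ?_
      · intro t ht
        rw [mem_filter] at ht
        obtain ⟨ht, hft, t', ht', hc, ha1⟩ := ht
        rw [hft] at ha1
        set y := |cr (eK a) (eK' (g t'))| with hy
        have hy1 : y ≤ 1 := abs_cr_le_one hea (h2.unit t' ht')
        -- the largest j with θ 2^j ≤ y
        have hex : ∃ j, y < θ * 2 ^ (j + 1) := by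
          refine ⟨N, lt_of_le_of_lt hy1 (hN.trans_le ?_)⟩
          exact mul_le_mul_of_nonneg_left (pow_le_pow_right₀ (by norm_num) (Nat.le_succ N)) hθp.le
        set j := Nat.find hex with hj
        have hj1 : y < θ * 2 ^ (j + 1) := Nat.find_spec hex
        have hj2 : θ * 2 ^ j ≤ y := by
          rcases Nat.eq_zero_or_pos j with h0 | h0
          · rw [h0, pow_zero, mul_one]; exact ha1
          · have := Nat.find_min hex (m := j - 1) (by omega)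
            rw [not_lt, Nat.sub_add_cancel h0] at this
            exact this
        have hjN : j < N := by
          by_contra h
          have : θ * 2 ^ N ≤ θ * 2 ^ j :=
            mul_le_mul_of_nonneg_left (pow_le_pow_right₀ (by norm_num) (not_lt.1 h)) hθp.le
          linarith
        rw [mem_biUnion]
        refine ⟨j, ?_, ?_⟩
        · rw [hR, mem_filter, mem_range]; exact ⟨hjN, hj2.trans hy1⟩
        · rw [hQ, mem_filter]
          refine ⟨ht, hft, t', ht', hc, hj2, ?_⟩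
          rw [pow_succ] at hj1
          linarith
      · intro t ht _
        rw [mem_biUnion] at ht
        obtain ⟨b, _, hb⟩ := ht
        exact hm1 t (mem_filter.1 hb).1
    have h4 := sum_biUnion_le' R Q m1 fun b _ t ht => hm1 t (mem_filter.1 ht).1
    have h5 : ∀ j ∈ R, ∑ t ∈ Q j, m1 t
        ≤ c0 p q * E2' * A1 * (X ^ (q - p) * (2 ^ (p - q)) ^ j) := by
      intro j hj
      rw [hR, mem_filter] at hj
      have hθj : max w1 v1 ≤ θ * 2 ^ j * v2 := by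
        refine hθ.trans ?_
        have : (1 : ℝ) ≤ 2 ^ j := one_le_pow₀ (by norm_num)
        nlinarith [mul_pos hθp hv2]
      have h6 := plank_mass h1 h2 d1 hm1 d2 hm2 hp hpq.le hw hwv hw1 hv1 hv12 hvw hr0 hR0
        hM1 hM2 hE2 (θ := θ * 2 ^ j) (by positivity) hj.2 hθj a
      refine h6.trans (le_of_eq ?_)
      have e1 : max w1 v1 / (θ * 2 ^ j * v2) = X * ((2 : ℝ) ^ j)⁻¹ := by rw [hX]; field_simp
      rw [e1, Real.mul_rpow hX0.le (by positivity)]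
      have e2 : (((2 : ℝ) ^ j)⁻¹) ^ (q - p) = (2 ^ (p - q)) ^ j := by
        rw [← Real.rpow_natCast, ← Real.rpow_natCast, ← Real.rpow_neg (by norm_num),
          ← Real.rpow_mul (by norm_num), ← Real.rpow_mul (by norm_num)]
        congr 1; ring
      rw [e2]
    have h6 : ∑ j ∈ R, ∑ t ∈ Q j, m1 t
        ≤ c0 p q * E2' * A1 * X ^ (q - p) * (1 / (1 - 2 ^ (p - q))) := by
      calc ∑ j ∈ R, ∑ t ∈ Q j, m1 t
          ≤ ∑ j ∈ R, c0 p q * E2' * A1 * (X ^ (q - p) * (2 ^ (p - q)) ^ j) := sum_le_sum h5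
        _ ≤ ∑ j ∈ range N, c0 p q * E2' * A1 * (X ^ (q - p) * (2 ^ (p - q)) ^ j) := by
            refine sum_le_sum_of_subset_of_nonneg (filter_subset _ _) fun _ _ _ => by positivity
        _ = c0 p q * E2' * A1 * X ^ (q - p) * ∑ j ∈ range N, ((2 : ℝ) ^ (p - q)) ^ j := by
            rw [mul_sum]; refine sum_congr rfl fun _ _ => by ring
        _ ≤ c0 p q * E2' * A1 * X ^ (q - p) * (1 / (1 - 2 ^ (p - q))) := by
            refine mul_le_mul_of_nonneg_left ?_ (by positivity)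
            rw [geom_sum_eq hr.ne, le_div_iff₀ (by linarith)]
            have : (2 ^ (p - q)) ^ N - 1 = -(1 - ((2 : ℝ) ^ (p - q)) ^ N) := by ring
            have e2 : (2 : ℝ) ^ (p - q) - 1 = -(1 - 2 ^ (p - q)) := by ring
            rw [this, e2, neg_div_neg_eq,
              div_mul_cancel₀ _ (by linarith : (1 - (2:ℝ) ^ (p - q)) ≠ 0)]
            have : 0 ≤ ((2 : ℝ) ^ (p - q)) ^ N := by positivity
            linarith
    refine (h3.trans (h4.trans h6)).trans (le_of_eq ?_)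
    ring
  -- sum over the planks
  have h7 : ∑ t ∈ S1 with bad t, m1 t = ∑ a ∈ S1.image f, ∑ t ∈ S1 with f t = a ∧ bad t, m1 t := by
    rw [← Finset.sum_fiberwise_of_maps_to (t := S1.image f) (g := f) (s := S1.filter bad)
      (fun s hs => mem_image_of_mem f (mem_filter.1 hs).1)]
    refine sum_congr rfl fun a ha => sum_congr ?_ fun _ _ => rfl
    ext s; simp only [mem_filter]; tauto
  have h8 : ∑ t ∈ S1, m1 t = ∑ a ∈ S1.image f, ∑ t ∈ S1 with f t = a, m1 t := by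
    rw [Finset.sum_fiberwise_of_maps_to (t := S1.image f) (g := f)
      (fun s hs => mem_image_of_mem f hs)]
  rw [h7, h8, mul_sum]
  refine sum_le_sum fun a ha => (hone a ha).trans ?_
  rw [mem_image] at ha
  obtain ⟨t, ht, rfl⟩ := ha
  have hlow := h1.low t ht
  have hpos : 0 ≤ c0 p q * E2' / (1 - 2 ^ (p - q)) * X ^ (q - p) := by
    have : 0 < 1 - (2:ℝ) ^ (p - q) := by linarith
    positivity
  calc c0 p q * E2' / (1 - 2 ^ (p - q)) * X ^ (q - p) * A1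
      ≤ c0 p q * E2' / (1 - 2 ^ (p - q)) * X ^ (q - p) *
          (E1 * ∑ s ∈ S1 with f s = f t, m1 s) := by
        refine mul_le_mul_of_nonneg_left ?_ hpos
        rw [hA1, ← mul_assoc]; exact hlow
    _ = _ := by ring

end comb

section tilt

variable {ι α β : Type*} {S1 S2 : Finset ι} {L : ι → Ln} {m : ι → ℝ} {f : ι → α} {bK : α → Ln}
  {eK : α → E2} {g : ι → β} {bK' : β → Ln}
  {eK' : β → E2} {w1 w2 a1 a2 z0 ρ z0' ρ' M1 M2 E1 E2' p q r0 R0 : ℝ}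

open Classical in
/-- **TILT LEMMA, one cell, different dimensions** (symmetric form, `S2 ⊆ S1`). -/
theorem tilt_one (h1 : Near S1 L m f bK eK w1 w2 z0 ρ M1 E1 p q)
    (h2 : Near S2 L m g bK' eK' a1 a2 z0 ρ M1 E2' p q)
    (d1 : DMax S1 L m z0 ρ M1 p q r0 R0) (hm : ∀ t ∈ S1, 0 ≤ m t) (hS : S2 ⊆ S1)
    (hp : 0 ≤ p) (hpq : p < q)
    (hw1 : 0 < w1) (hw12 : w1 ≤ w2) (ha1 : 0 < a1) (ha12 : a1 ≤ a2)
    (hr0 : r0 ≤ min w1 a1) (hR0 : 8 * max w2 a2 ≤ R0)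
    (hM1 : 0 < M1) (hE1 : 0 ≤ E1) (hE2 : 0 ≤ E2') {θ : ℝ}
    (hθ : max w1 a1 ≤ θ * min w2 a2) :
    ∑ t ∈ S2 with θ ≤ |cr (eK (f t)) (eK' (g t))|, m t
      ≤ c0 p q * E1 * E2' / (1 - 2 ^ (p - q)) * (max w1 a1 / (θ * min w2 a2)) ^ (q - p) *
        ∑ t ∈ S1, m t := by
  have hc0 := c0_pos p q
  have hm2 : ∀ t ∈ S2, 0 ≤ m t := fun t ht => hm t (hS ht)
  have hw2 : 0 < w2 := hw1.trans_le hw12
  have ha2 : 0 < a2 := ha1.trans_le ha12
  have hx0 : 0 < max w1 a1 := lt_max_of_lt_left hw1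
  have hmin0 : 0 < min w2 a2 := lt_min hw2 ha2
  have hθp : 0 < θ := by
    by_contra h
    have : θ * min w2 a2 ≤ 0 := mul_nonpos_of_nonpos_of_nonneg (not_lt.1 h) hmin0.le
    linarith
  have hr : (2 : ℝ) ^ (p - q) < 1 := Real.rpow_lt_one_of_one_lt_of_neg (by norm_num) (by linarith)
  have hden : 0 < 1 - (2:ℝ) ^ (p - q) := by linarith
  have d2 := d1.subset hS hm
  rcases le_total a2 w2 with hc | hc
  · have hmin : min w2 a2 = a2 := min_eq_right hc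
    have hmax : max w2 a2 = w2 := max_eq_left hc
    rw [hmin] at hθ ⊢
    rw [hmax] at hR0
    have key := flag2 h1 h2 d1 hm d2 hm2 hp hpq ha1.le le_rfl hw1 ha1 ha12 hc hr0 hR0
      hM1.le hM1 hE1 hE2 hθ
    refine le_trans ?_ key
    refine sum_le_sum_of_subset_of_nonneg ?_ ?_
    · intro t ht
      rw [mem_filter] at ht ⊢
      exact ⟨hS ht.1, t, ht.1, close_self ha1.le _, ht.2⟩
    · intro t ht _
      exact hm t (mem_filter.1 ht).1
  · have hmin : min w2 a2 = w2 := min_eq_left hc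
    have hmax : max w2 a2 = a2 := max_eq_right hc
    rw [hmin] at hθ ⊢
    rw [hmax] at hR0
    rw [max_comm] at hθ ⊢
    have key := flag2 h2 h1 d2 hm2 d1 hm hp hpq hw1.le le_rfl ha1 hw1 hw12 hc
      (by rw [min_comm]; exact hr0) hR0 hM1.le hM1 hE2 hE1 hθ
    have hsub : ∑ t ∈ S2, m t ≤ ∑ t ∈ S1, m t :=
      sum_le_sum_of_subset_of_nonneg hS fun t ht _ => hm t ht
    calc ∑ t ∈ S2 with θ ≤ |cr (eK (f t)) (eK' (g t))|, m t
        ≤ ∑ t ∈ S2 with ∃ t' ∈ S1, Close (L t) (L t') w1 z0 ρ ∧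
            θ ≤ |cr (eK' (g t)) (eK (f t'))|, m t := by
          refine sum_le_sum_of_subset_of_nonneg ?_ ?_
          · intro t ht
            rw [mem_filter] at ht ⊢
            exact ⟨ht.1, t, hS ht.1, close_self hw1.le _, by rw [abs_cr_swap]; exact ht.2⟩
          · intro t ht _
            exact hm2 t (mem_filter.1 ht).1
      _ ≤ _ := key
      _ ≤ c0 p q * E2' * E1 / (1 - 2 ^ (p - q)) * (max a1 w1 / (θ * w2)) ^ (q - p) *
            ∑ t ∈ S1, m t := mul_le_mul_of_nonneg_left hsub (by positivity)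
      _ = _ := by ring

open Classical in
/-- **TILT LEMMA, two levels**: a near-maximal system `S1` of the big cell `(z0, ρ)` with planks
`(w1, w2)` and a near-maximal system `S2 ⊆ S1` of the small cell `(z0', ρ')` with planks
`(a1, a2)`; `λ = 3 ρ / ρ'`.  Penalised maximality is needed at the big cell only. -/
theorem tilt (h1 : Near S1 L m f bK eK w1 w2 z0 ρ M1 E1 p q)
    (h2 : Near S2 L m g bK' eK' a1 a2 z0' ρ' M2 E2' p q)
    (d1 : DMax S1 L m z0 ρ M1 p q r0 R0) (hm : ∀ t ∈ S1, 0 ≤ m t) (hS : S2 ⊆ S1)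
    (hρ' : 0 < ρ') (hρ : ρ' ≤ ρ) (hz : |z0' - z0| ≤ ρ)
    (hp : 0 ≤ p) (hpq : p < q)
    (hw1 : 0 < w1) (hw12 : w1 ≤ w2) (ha1 : 0 < a1) (ha12 : a1 ≤ a2)
    (hr0 : r0 ≤ min w1 (3 * (ρ / ρ') * a1)) (hR0 : 8 * max w2 (3 * (ρ / ρ') * a2) ≤ R0)
    (hM1 : 0 < M1) (hM2 : 0 < M2) (hE1 : 0 ≤ E1) (hE2 : 0 ≤ E2') {θ : ℝ}
    (hθ : max w1 (3 * (ρ / ρ') * a1) ≤ θ * min w2 (3 * (ρ / ρ') * a2)) :
    ∑ t ∈ S2 with θ ≤ |cr (eK (f t)) (eK' (g t))|, m t
      ≤ c0 p q * E1 * (E2' * (M1 / M2) * (3 * (ρ / ρ')) ^ (2 + p + q)) / (1 - 2 ^ (p - q)) *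
        (max w1 (3 * (ρ / ρ') * a1) / (θ * min w2 (3 * (ρ / ρ') * a2))) ^ (q - p) *
        ∑ t ∈ S1, m t := by
  have hρ0 : 0 < ρ := hρ'.trans_le hρ
  have hl : 0 < 3 * (ρ / ρ') := by positivity
  have ha2 : 0 < a2 := ha1.trans_le ha12
  exact tilt_one h1 (h2.extend hρ' hρ hz ha1 ha2 hM1.le hM2) d1 hm hS hp hpq hw1 hw12
    (by positivity) (mul_le_mul_of_nonneg_left ha12 hl.le) hr0 hR0 hM1 hE1 (by positivity) hθ

end tilt

end

end Crest.Agent.R138.TiltG51
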