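import Crest.Agent.R138.TwD_501
import Crest.Agent.R138.PlThin_187

/-!
# R138: F-model, half coupled case: `σ ≤ a` (K3core, helper501)
-/

set_option autoImplicit false
set_option linter.unusedVariables false
set_option linter.unusedSectionVars false

open Filter Topology Finset

namespace Crest.Agent.R138.TwE501

open Crest.Agent.R138.Ex926 Crest.Agent.R138.FM501 Crest.Agent.R138.TwA501
open Crest.Agent.R138.TwB501 Crest.Agent.R138.TwC501 Crest.Agent.R138.TwD501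

variable {B : Base} {G : ℕ → Cfg} {σ R : ℝ} {ν : (Fin 4 → ℝ) → ℝ}

open Classical in
/-- no heavy strips of power width -/
theorem no_strip {a m : ℝ} {β : ℝ → ℝ → ℝ} (h : FModel B G σ R ν) (hc : HalfCoupled ν R a m β)
    (ha : a < σ) (hm : 0 < m) {c₂ : ℝ} (hc₂ : 0 < c₂)
    (hβ : ∀ x, 0 ≤ x → x ≤ R → c₂ * x ≤ β x 0) :
    ∃ η : ℝ, 0 < η ∧ ∀ Y0 Y1 : ℝ, 0 < Y0 → Y1 ≤ R → ¬ ∀ᶠ n in (U : Filter ℕ),
      ∃ w : ℝ, B.d n ^ Y1 ≤ w ∧ w ≤ B.d n ^ Y0 ∧ ∃ k₁ ∈ (G n).Z, ∃ μ : ℝ,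
        w ^ η * ((G n).Z.card : ℝ) ≤
          (((G n).Z.filter fun k => |(G n).f k - (G n).f k₁ - μ * ((G n).z k - (G n).z k₁)| ≤
            w).card : ℝ) := by
  obtain ⟨η₁, hη₁, H1⟩ := no_slope h hc ha hm
  obtain ⟨η₂, hη₂, H2⟩ := no_flat h hc ha hc₂ hβ
  set e1 : ℝ := min η₁ 1 with he1
  have he10 : 0 < e1 := lt_min hη₁ one_pos
  have he1η : e1 ≤ η₁ := min_le_left _ _
  have he11 : e1 ≤ 1 := min_le_right _ _
  refine ⟨min (e1 / 2) (e1 * η₂ / 4), lt_min (by positivity) (by positivity), ?_⟩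
  set η : ℝ := min (e1 / 2) (e1 * η₂ / 4) with hη
  have hη0 : 0 < η := lt_min (by positivity) (by positivity)
  have hηa : η ≤ e1 / 2 := min_le_left _ _
  have hηb : η ≤ e1 * η₂ / 4 := min_le_right _ _
  intro Y0 Y1 hY0 hY1 Hy
  obtain ⟨w, hw⟩ := Hy.choice
  -- exponent of the width
  have hlog : ∀ n, Real.log (B.d n) < 0 := fun n => Real.log_neg (B.pos n) (B.lt n)
  have hv : ∀ᶠ n in (U : Filter ℕ), Y0 ≤ Real.log (w n) / Real.log (B.d n) ∧
      Real.log (w n) / Real.log (B.d n) ≤ Y1 := by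
    filter_upwards [hw] with n hn
    have hw0 : 0 < w n := (dpow_pos B n _).trans_le hn.1
    have g1 := Real.log_le_log (dpow_pos B n _) hn.1
    have g2 := Real.log_le_log hw0 hn.2.1
    rw [Real.log_rpow (B.pos n)] at g1 g2
    constructor
    · rw [le_div_iff_of_neg (hlog n)]; exact g2
    · rw [div_le_iff_of_neg (hlog n)]; exact g1
  obtain ⟨v, hvt, -⟩ := exists_tendsto (f := fun n => Real.log (w n) / Real.log (B.d n))
    (C := |Y1|) (by
      filter_upwards [hv] with n hn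
      rw [abs_of_nonneg (hY0.le.trans hn.1)]
      exact hn.2.trans (le_abs_self _))
  have hv0 : Y0 ≤ v := ge_of_tendsto hvt (hv.mono fun n hn => hn.1)
  have hv1 : v ≤ Y1 := le_of_tendsto hvt (hv.mono fun n hn => hn.2)
  have hvpos : 0 < v := hY0.trans_le hv0
  set y : ℝ := 3 / 4 * v with hy
  have hypos : 0 < y := by positivity
  have hyR : y ≤ R := by rw [hy]; linarith
  have hwy : ∀ᶠ n in (U : Filter ℕ), w n ≤ B.d n ^ y ∧ B.d n ^ (3 / 2 * y) ≤ w n := by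
    have h1 : ∀ᶠ n in (U : Filter ℕ), |Real.log (w n) / Real.log (B.d n) - v| < v / 8 := by
      have := (Metric.tendsto_nhds.1 hvt) (v / 8) (by positivity)
      simpa [Real.dist_eq] using this
    filter_upwards [h1, hw] with n hn hwn
    have hw0 : 0 < w n := (dpow_pos B n _).trans_le hwn.1
    have e2 : w n = B.d n ^ (Real.log (w n) / Real.log (B.d n)) := by
      rw [Real.rpow_def_of_pos (B.pos n), mul_div_cancel₀ _ (hlog n).ne, Real.exp_log hw0]
    rw [abs_lt] at hn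
    rw [e2]
    constructor
    · exact dpow_anti B n (by rw [hy]; linarith [hn.1])
    · exact dpow_anti B n (by rw [hy]; linarith [hn.2])
  have hn1 := Ultrafilter.eventually_not.2 (H1 y hypos hyR)
  have hn2 := Ultrafilter.eventually_not.2 (H2 (e1 * y / 2) (by positivity) (by nlinarith))
  obtain ⟨n, hwn, hwyn, hN1, hN2, hc4, hc2⟩ := (hw.and (hwy.and (hn1.and (hn2.and
    ((ev_const B 4 (show 0 < e1 * y / 2 by positivity)).and
      (ev_const B 1 (show 0 < y by positivity))))))).exists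
  obtain ⟨hw1, hw2, k₁, hk₁, μ, hμ⟩ := hwn
  have hw0 : 0 < w n := (dpow_pos B n _).trans_le hw1
  set Z' := (G n).Z.filter fun k => |(G n).f k - (G n).f k₁ - μ * ((G n).z k - (G n).z k₁)| ≤ w n
    with hZ'
  have hmem : k₁ ∈ Z' := by
    rw [hZ', mem_filter]
    refine ⟨hk₁, ?_⟩
    simp only [sub_self, mul_zero, abs_zero]
    exact hw0.le
  have hZc : (0 : ℝ) ≤ (G n).Z.card := Nat.cast_nonneg _
  have hmass : B.d n ^ (3 / 2 * y * η) * ((G n).Z.card : ℝ) ≤ Z'.card := by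
    refine le_trans ?_ hμ
    refine mul_le_mul_of_nonneg_right ?_ hZc
    rw [Real.rpow_mul (B.pos n).le]
    exact Real.rpow_le_rpow (dpow_pos B n _).le hwyn.2 hη0.le
  have haff : ∀ k ∈ Z', ∀ k' ∈ Z', |(G n).f k' - (G n).f k - μ * ((G n).z k' - (G n).z k)| ≤
      2 * B.d n ^ y := by
    intro k hk k' hk'
    rw [hZ', mem_filter] at hk hk'
    have g1 := abs_le.1 (hk.2.trans hwyn.1)
    have g2 := abs_le.1 (hk'.2.trans hwyn.1)
    rw [abs_le]
    constructor <;> linarith [g1.1, g1.2, g2.1, g2.2]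
  rcases le_or_gt (B.d n ^ (η₁ * y)) |μ| with hcase | hcase
  · refine hN1 ⟨Z', filter_subset _ _, ⟨k₁, hmem⟩, ?_, μ, hcase, haff⟩
    refine le_trans ?_ hmass
    refine mul_le_mul_of_nonneg_right (dpow_anti B n ?_) hZc
    nlinarith
  · refine hN2 ⟨Z', filter_subset _ _, ⟨k₁, hmem⟩, ?_, ?_⟩
    · refine le_trans ?_ hmass
      refine mul_le_mul_of_nonneg_right (dpow_anti B n ?_) hZc
      have : y * η ≤ y * (e1 * η₂ / 4) := mul_le_mul_of_nonneg_left hηb hypos.le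
      nlinarith
    · intro k hk k' hk'
      have g1 := haff k hk k' hk'
      have hz1 := (h.bd n).z k (filter_subset _ _ hk)
      have hz2 := (h.bd n).z k' (filter_subset _ _ hk')
      have g2 : |(G n).z k' - (G n).z k| ≤ 2 := (abs_sub _ _).trans (by linarith)
      have g3 : |μ| ≤ B.d n ^ (e1 * y) := hcase.le.trans (dpow_anti B n (by nlinarith))
      have g4 : B.d n ^ y ≤ B.d n ^ (e1 * y) := dpow_anti B n (by nlinarith)
      have g5 : B.d n ^ (e1 * y) = B.d n ^ (e1 * y / 2) * B.d n ^ (e1 * y / 2) := by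
        rw [← dpow_add]; congr 1; ring
      have g6 := dpow_pos B n (e1 * y / 2)
      calc |(G n).f k' - (G n).f k| = |((G n).f k' - (G n).f k - μ * ((G n).z k' - (G n).z k)) +
            μ * ((G n).z k' - (G n).z k)| := by ring_nf
        _ ≤ |(G n).f k' - (G n).f k - μ * ((G n).z k' - (G n).z k)| +
            |μ| * |(G n).z k' - (G n).z k| := by rw [← abs_mul]; exact abs_add_le _ _
        _ ≤ 2 * B.d n ^ (e1 * y) + B.d n ^ (e1 * y) * 2 := by
            have g7 := dpow_pos B n (e1 * y)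
            refine add_le_add (by linarith) ?_
            exact mul_le_mul g3 g2 (abs_nonneg _) g7.le
        _ = (4 * B.d n ^ (e1 * y / 2)) * B.d n ^ (e1 * y / 2) := by rw [g5]; ring
        _ ≤ 1 * B.d n ^ (e1 * y / 2) := mul_le_mul_of_nonneg_right hc4 g6.le
        _ = _ := one_mul _

/-! ## slopes -/

open Classical in
/-- pairs of heights with many near slopes -/
noncomputable def badp (G : Cfg) (r c σ : ℝ) : Finset (ℕ × ℕ) :=
  (G.Z ×ˢ G.Z).filter fun q => r ^ c ≤ |G.z q.2 - G.z q.1| ∧ r ^ σ * G.Z.card ≤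
    ((G.Z.filter fun k => r ^ c ≤ |G.z k - G.z q.1| ∧
      |(G.f k - G.f q.1) / (G.z k - G.z q.1) - (G.f q.2 - G.f q.1) / (G.z q.2 - G.z q.1)| ≤
        r).card : ℝ)

open Classical in
/-- heights with many near slopes seen from `k₀` -/
noncomputable def badk (G : Cfg) (r c σ : ℝ) (k₀ : ℕ) : Finset ℕ :=
  G.Z.filter fun k => (k₀, k) ∈ badp G r c σ

open Classical in
theorem few_bad {a m : ℝ} {β : ℝ → ℝ → ℝ} (h : FModel B G σ R ν) (hc : HalfCoupled ν R a m β)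
    (ha : a < σ) (hm : 0 < m) {c₂ : ℝ} (hc₂ : 0 < c₂)
    (hβ : ∀ x, 0 ≤ x → x ≤ R → c₂ * x ≤ β x 0) {s : ℝ} (hs : s < σ) :
    ∃ c₀ : ℝ, 0 < c₀ ∧ ∀ c, 0 < c → c ≤ c₀ → ∀ y, 0 < y → y ≤ R →
      ∀ᶠ n in (U : Filter ℕ), ((badp (G n) (B.d n ^ y) c s).card : ℝ) ≤
        (B.d n ^ y) ^ c * ((G n).Z.card : ℝ) ^ 2 := by
  have ha0 := (hc_nonneg h hc).1
  have hσ0 : 0 < σ := ha0.trans_lt ha
  obtain ⟨η, hη, H⟩ := no_strip h hc ha hm hc₂ hβ
  obtain ⟨α, c₀, hα, hα1, hc₀, HT⟩ := Pl187.thin_graph hσ0 hs (hs.trans_le h.σ_le) hη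
  refine ⟨c₀, hc₀, fun c hc0 hcc y hy hyR => ?_⟩
  obtain ⟨r₀, hr₀, HR⟩ := HT c hc0 hcc
  have hn1 := Ultrafilter.eventually_not.2 (H (α * y) y (by positivity) hyR)
  filter_upwards [hn1, ev_const B r₀⁻¹ hy, frost_all h (show 0 < c * y by positivity)]
    with n hN1 hr hfr
  have hpos := dpow_pos B n y
  have hr' : B.d n ^ y ≤ r₀ := by
    rw [inv_mul_le_iff₀ hr₀, mul_one] at hr; exact hr
  rcases HR (B.d n ^ y) hpos hr' (G n).Z (G n).z (G n).f
    (fun k hk => ⟨(h.bd n).z k hk, (h.bd n).f k hk⟩) (by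
      intro ρ h1 h2 k hk
      refine (hfr ρ ((dpow_anti B n hyR).trans h1) h2 k hk).trans (le_of_eq ?_)
      rw [← Real.rpow_mul (B.pos n).le]
      congr 2; congr 1; ring) with hstrip | hbad
  · exfalso
    obtain ⟨k₁, hk₁, k₂, hk₂, hsep, μ, w, hμ, hμ2, hw1, hw2, hmass⟩ := hstrip
    refine hN1 ⟨w, hw1, ?_, k₁, hk₁, μ, hmass⟩
    rw [← Real.rpow_mul (B.pos n).le, mul_comm] at hw2
    exact hw2
  · exact hbad

end Crest.Agent.R138.TwE501
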