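import Crest.Agent.R138.WFin1_188
import Crest.Agent.R138.TubG_70
import Crest.Agent.R138.A1b_774
import Crest.Agent.R138.Hf3_774
import Crest.Agent.R138.Sup7_882
import Crest.Agent.R138.Tv3_323
import Crest.Agent.R138.RR6_323
import Crest.Agent.R138.BnA5_759
import Crest.Agent.R138.ZmDef2_858

/-!
# R138 / R139: WAVE side, final part 2 (helper188): `EBn` from the three open inputs
`DEC` (685), `ZoomNN2`, `ZoomCC2` (858), `W3g`, and `KM32` (Kakeya side).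
-/

set_option autoImplicit false

open MeasureTheory FourierTransform
open scoped ContDiff ENNReal

namespace Crest.Agent.R138.W188

open Crest.Agent.R138.Defs Crest.Agent.R138.Bil882 Crest.Agent.R138.Wpk685

theorem A3k_of_A3n {B : ℕ → ℝ} {q : ℝ} {F : ℝ → ℝ → ℝ → (E2 → ℝ) → (E2 → ℂ) → ℝ → ℝ≥0∞}
    {Na0 : ℕ} {K0 : ℝ} (hK : 1 ≤ K0) (H : W323.A3n B q F Na0 K0) : A3k B q F :=
  ⟨K0, hK, fun ε hε => ⟨Na0, fun Na M0 => H ε hε Na M0⟩⟩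

/-- **`LB` for all `c > 0`** from the open inputs. -/
theorem LB_of {B : ℕ → ℝ} (hB2 : B 2 ≤ 1/10) {q : ℝ} (hq : 0 ≤ q) {A : ℝ} (hA : 1 ≤ A) {Na0 : ℕ}
    (hKM : ∀ V : ℝ, Tub70.KM32 V) (hD : DEC B q A Na0) (hZN : Zm858.ZoomNN2 B q)
    (hZC : Zm858.ZoomCC2 B q) (hW : W3g B q (SIG A)) : ∀ c : ℝ, 0 < c → LB B q 1 c := by
  have hZN' := Zm858.ZoomNN_of hZN
  have hZC' := Zm858.ZoomCC_of hZC
  have hA0 : 0 ≤ A := by linarith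
  exact LB_all (F := SIG A) (T774.HALF_of_Zoom hB2 hZN') (Tub70.KMw_of_KM32 B hq (hKM _))
    (W323.TRIV1_holds B q) (W323.TRIV2_holds B hq hA0)
    (A1_of_A1n (T774.A1_of_DEC hD)) (Sup882.A2_of_Zoom B hB2 q hq A hA hZN')
    (Sup882.A2K_of_KMw B hB2 q hq A hA (Tub70.KMw_of_KM32 B le_rfl (hKM _)))
    (A3k_of_A3n hA (W323.A3n_of_DEC hA hD)) (Bn759.A4_of_Zoom hB2 hq hZC hZN)
    (T774.A5a_holds B q) (T774.A5b_of_Zoom hB2 hZC') hW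

/-- **`EBn`** from the open inputs. -/
theorem EBn_of {c0 : ℝ} (hc0 : 0 < c0) (K0 : ℕ) (hKM : ∀ V : ℝ, Tub70.KM32 V)
    (hD : ∀ B : ℕ → ℝ, (∀ k, 0 ≤ B k) → B 2 ≤ 1/10 → ∀ q : ℝ, 0 < q → q ≤ 1 →
      ∃ (A : ℝ) (Na0 : ℕ), 1 ≤ A ∧ DEC B q A Na0)
    (hZ : ∀ B : ℕ → ℝ, (∀ k, 0 ≤ B k) → B 2 ≤ 1/10 → ∀ q : ℝ, 0 < q → q ≤ 1 →
      Zm858.ZoomNN2 B q ∧ Zm858.ZoomCC2 B q)
    (hW : ∀ B : ℕ → ℝ, (∀ k, 0 ≤ B k) → (∀ k, 2 ≤ k → k ≤ K0 → B k ≤ c0) → B 2 ≤ 1/10 →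
      ∀ q : ℝ, 0 < q → q ≤ 1 → ∀ (A : ℝ) (Na0 : ℕ), 1 ≤ A → DEC B q A Na0 →
        Zm858.ZoomNN2 B q → Zm858.ZoomCC2 B q → W3g B q (SIG A)) : EBn := by
  refine EBn_of_LB hc0 K0 ?_
  intro B hB0 hBk hB2 q hq hq1
  obtain ⟨A, Na0, hA, hDEC⟩ := hD B hB0 hB2 q hq hq1
  obtain ⟨hZN, hZC⟩ := hZ B hB0 hB2 q hq hq1
  exact LB_of hB2 hq.le hA hKM hDEC hZN hZC (hW B hB0 hBk hB2 q hq hq1 A Na0 hA hDEC hZN hZC)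

end Crest.Agent.R138.W188
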