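import Crest.Agent.R138.KMs_630
import Crest.Agent.R138.FinE_630
import Crest.Agent.R138.Mw9_330

/-!
# R138 / R139: the tower `EXT`, unconditional (helper627)
-/

set_option autoImplicit false
set_option linter.unusedVariables false

namespace Crest.Agent.R138.Wire627

open Crest.Agent.R138

/-- **EXT** for all large `A`. -/
theorem ext_holds {B : ℕ → ℝ} (hB : B 2 ≤ 1 / 10) {q : ℝ} (hq : 0 < q) (hq1 : q ≤ 1) :
    ∃ A0 : ℝ, ∀ A : ℝ, A0 ≤ A → Chn188.EXT B q A :=
  FinE630.ext_of_mis KMs630.km32 hB hq.le (by linarith) (Mis330.mis KMs630.km32 B hq hq1)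

end Crest.Agent.R138.Wire627
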