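import Crest.Agent.R138.Nat5K_163
import Crest.Agent.R138.BunC_294
import Crest.Agent.R138.L15D_196
import Crest.Agent.R138.LmAV_829
import Crest.Agent.R138.Rot_76
import Crest.Agent.R138.WFin3_188
import Crest.Agent.R138.Top_630

/-!
# R138: wiring of the Kakeya side (helper627)

`kmseq : GrW294.KMseq`, hence `Tub70.KM32 V`.
-/

set_option autoImplicit false
set_option linter.unusedVariables false

open Finset Filter Topology

namespace Crest.Agent.R138.Wire627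

open Crest.Agent.R138
open Crest.Agent.R138.Mk163

theorem kmseq : GrW294.KMseq := by
  by_contra hK
  obtain ⟨B, I, L, lev, r0, A, q, g, Λ, τ, f, b, e, w1, w2, κ, hκ, hM, hτ⟩ :=
    Bun294.exists_mk hK
  obtain ⟨B', I', lev', A', f', b', e', w1', w2', fl, sc, k, s, θ, hθ, hs0, hs1, hN⟩ :=
    ArgM163.exists_nat5' (fun B I L lev r0 A q g Λ τ f b e w1 w2 fl sc C0 =>
      Rot76.exRot B I L lev r0 A q g Λ τ f b e w1 w2 fl sc C0)
      (fun s h0 h1 => LmAV829.hrot q g s h0 h1) hM hκ hτ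
  exact L15.nat5_false hN

theorem km32 (V : ℝ) : Tub70.KM32 V := Top630.km32 kmseq V

/-- wave side -/
def Wave : Prop := ∃ (c0 : ℝ) (K0 : ℕ), 0 < c0 ∧
  ∀ B : ℕ → ℝ, (∀ k, 0 ≤ B k) → (∀ k, 2 ≤ k → k ≤ K0 → B k ≤ c0) → B 2 ≤ 1/10 →
      ∀ q : ℝ, 0 < q → q ≤ 1 → ∃ A0 : ℝ, ∀ A : ℝ, A0 ≤ A → W188.WChE B q (W188.SIG A)

theorem ebn (hW : Wave) : Defs.EBn := by
  obtain ⟨c0, K0, hc0, h⟩ := hW
  exact W188.EBn_of_WCh hc0 K0 km32 h

end Crest.Agent.R138.Wire627
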